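import Vale.Agent.P060.Basic

/-!
# Types of key parts for one unit (task AL1)
Let ρ i a g c = P (pa i x = a, G i x = g, γ i x = c), θ = 1/500.  Call (g, c) alive for (i, a) if
ρ i a g c ≥ θ p a / |J|.  The type of a is the pair of alive sets (subsets of J × ZMod 2; there are
16^|J| ≤ 4^(2 J0) types, embed into Fin).  Rel σ (A0, A1) (B0, B1) says: there are (g, c) in A0 and
(g', c') in B1 with g + c ν = g' + c' ν and c + c' = σ.  First claim: independence of x, y.
Second claim.  D = the a with Rel σ (ty a) (ty a) for some σ.  If p D ≥ 1/500, two elements of D of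
equal type are symmetric-related and Cauchy-Schwarz over types gives (1/500)^2 / 4^(2 J0).
Otherwise call a good if for all i, g the mass of (a, g) is within the factor 1 ± 1/2 of p a / |J|;
p (bad) ≤ 4/1000.  For good a not in D let Y i a = the set of g + c ν over alive (g, c): every g has an
alive c, Y 0 a and Y 1 a are disjoint, so ν ≠ 0, each of them contains exactly one of y, y + ν, and
y ∈ Y i a forces (y, 0) and (y + ν, 1) alive.  Hence if a, b are good, not in D, and
y ∈ Y 0 a ∩ Y 1 b then Rel σ (ty a) (ty b) and Rel σ (ty b) (ty a) for every σ (use y + ν for the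
second).  Now P (J-value of vertex i equals y) ≤ 3/|J|; the event (part bad, or part in D, or class
dead) has probability ≤ 0.011 for each vertex; so hNE leaves mass ≥ (1/3 - 0.066)/|J| on good
a, b outside D with alive classes and equal J-values, and this mass is at most
sum over symmetric-related good a, b of (3/2 p a) (3 p b / |J|).  So the symmetric mass is ≥ 0.05.
-/

open Finset Polynomial
open scoped BigOperators

namespace Vale.Agent.P060

namespace AL1Aux

theorem expect_comp {X Y : Type} [Fintype X] [Fintype Y] (φ : X → Y) (f : Y → ℝ) :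
    𝔼 x, f (φ x) = ∑ y, f y * 𝔼 x, ind (φ x = y) := by
  classical
  simp only [Finset.mul_expect]
  rw [← Finset.expect_sum_comm]
  refine Finset.expect_congr rfl fun x _ => ?_
  simp [ind_eq_ite]

section one
variable {X J : Type} [Fintype X] [Fintype J] {N : ℕ} (pa : X → Fin N) (G : X → J)
  (γ : X → ZMod 2)

/-- mass of part, class and sign -/
noncomputable def rho (a : Fin N) (g : J) (c : ZMod 2) : ℝ :=
  𝔼 x, ind (pa x = a ∧ G x = g ∧ γ x = c)

/-- mass of part and class -/
noncomputable def sg (a : Fin N) (g : J) : ℝ := 𝔼 x, ind (G x = g ∧ pa x = a)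

omit [Fintype J] in
theorem rho_nonneg (a : Fin N) (g : J) (c : ZMod 2) : 0 ≤ rho pa G γ a g c :=
  expect_nonneg' fun _ => ind_nonneg _

omit [Fintype J] in
theorem sg_eq (a : Fin N) (g : J) : sg pa G a g = rho pa G γ a g 0 + rho pa G γ a g 1 := by
  rw [sg, rho, rho, ← Finset.expect_add_distrib]
  refine Finset.expect_congr rfl fun x _ => ?_
  by_cases h1 : G x = g <;> by_cases h2 : pa x = a <;>
    rcases zmod2_cases (γ x) with h | h <;> simp [ind, h1, h2, h]

theorem expect_two (f : Fin N → J → ℝ) :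
    𝔼 x, f (pa x) (G x) = ∑ a, ∑ g, f a g * sg pa G a g := by
  rw [expect_comp (fun x => (pa x, G x)) (fun y => f y.1 y.2), Fintype.sum_prod_type]
  refine Finset.sum_congr rfl fun a _ => Finset.sum_congr rfl fun g _ => ?_
  congr 1
  refine Finset.expect_congr rfl fun x _ => ind_congr ?_
  simp [and_comm]

theorem expect_three (f : Fin N → J → ZMod 2 → ℝ) :
    𝔼 x, f (pa x) (G x) (γ x) = ∑ a, ∑ g, ∑ c, f a g c * rho pa G γ a g c := by
  rw [expect_comp (fun x => (pa x, G x, γ x)) (fun y => f y.1 y.2.1 y.2.2), Fintype.sum_prod_type]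
  refine Finset.sum_congr rfl fun a _ => ?_
  rw [Fintype.sum_prod_type]
  refine Finset.sum_congr rfl fun g _ => Finset.sum_congr rfl fun c _ => ?_
  congr 1
  refine Finset.expect_congr rfl fun x _ => ind_congr ?_
  simp

variable (p : Fin N → ℝ)

theorem expect_two_le (f : Fin N → J → ℝ) (hf0 : ∀ a g, 0 ≤ f a g) (hf1 : ∀ a g, f a g ≤ 1) :
    𝔼 x, f (pa x) (G x) ≤ ∑ a, ∑ g, f a g * (p a / Fintype.card J) +
      ∑ a, ∑ g, |sg pa G a g - p a / Fintype.card J| := by
  rw [expect_two, ← Finset.sum_add_distrib]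
  refine Finset.sum_le_sum fun a _ => ?_
  rw [← Finset.sum_add_distrib]
  refine Finset.sum_le_sum fun g _ => ?_
  have h1 := le_abs_self (sg pa G a g - p a / Fintype.card J)
  have h2 := abs_nonneg (sg pa G a g - p a / Fintype.card J)
  nlinarith [hf0 a g, hf1 a g]

theorem class_le (hp1 : ∑ a, p a = 1) (g0 : J) :
    𝔼 x, ind (G x = g0) ≤ 1 / Fintype.card J +
      ∑ a, ∑ g, |sg pa G a g - p a / Fintype.card J| := by
  classical
  refine (expect_two_le pa G p (fun _ g => ind (g = g0)) (fun _ _ => ind_nonneg _)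
    (fun _ _ => ind_le_one _)).trans (le_of_eq ?_)
  congr 1
  simp only [ind_eq_ite, ite_mul, one_mul, zero_mul, Finset.sum_ite_eq', mem_univ, if_true]
  rw [← Finset.sum_div, hp1]

theorem part_le [Nonempty J] (S : Fin N → Prop) :
    𝔼 x, ind (S (pa x)) ≤ ∑ a, ind (S a) * p a +
      ∑ a, ∑ g, |sg pa G a g - p a / Fintype.card J| := by
  refine (expect_two_le pa G p (fun a _ => ind (S a)) (fun _ _ => ind_nonneg _)
    (fun _ _ => ind_le_one _)).trans (le_of_eq ?_)
  congr 1
  refine Finset.sum_congr rfl fun a _ => ?_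
  have : (Fintype.card J : ℝ) ≠ 0 := by exact_mod_cast Fintype.card_ne_zero
  rw [Finset.sum_const, card_univ, nsmul_eq_mul]
  field_simp

/-- alive classes -/
def Al (a : Fin N) (g : J) (c : ZMod 2) : Prop :=
  p a / (500 * Fintype.card J) ≤ rho pa G γ a g c

theorem dead_le [Nonempty J] (hp0 : ∀ a, 0 ≤ p a) (hp1 : ∑ a, p a = 1) :
    𝔼 x, ind (¬ Al pa G γ p (pa x) (G x) (γ x)) ≤ 4 / 1000 := by
  have hm : (0 : ℝ) < Fintype.card J := by exact_mod_cast Fintype.card_pos
  rw [expect_three pa G γ fun a g c => ind (¬ Al pa G γ p a g c)]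
  calc ∑ a, ∑ g, ∑ c, ind (¬ Al pa G γ p a g c) * rho pa G γ a g c
      ≤ ∑ a, ∑ _g : J, ∑ _c : ZMod 2, p a / (500 * Fintype.card J) := by
        refine Finset.sum_le_sum fun a _ => Finset.sum_le_sum fun g _ =>
          Finset.sum_le_sum fun c _ => ?_
        by_cases h : Al pa G γ p a g c
        · rw [ind_neg (not_not.2 h), zero_mul]
          exact div_nonneg (hp0 a) (by positivity)
        · rw [ind_pos h, one_mul]
          exact (not_le.1 h).le
    _ = ∑ a, p a * (4 / 1000) := by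
        refine Finset.sum_congr rfl fun a _ => ?_
        simp only [Finset.sum_const, card_univ, nsmul_eq_mul, ZMod.card]
        field_simp
        push_cast
        ring
    _ = 4 / 1000 := by rw [← Finset.sum_mul, hp1, one_mul]

/-- good parts -/
def Gd (a : Fin N) : Prop :=
  ∀ g, |sg pa G a g - p a / Fintype.card J| ≤ p a / (2 * Fintype.card J)

theorem bad_le [Nonempty J] :
    ∑ a, ind (¬ Gd pa G p a) * p a ≤
      2 * Fintype.card J * ∑ a, ∑ g, |sg pa G a g - p a / Fintype.card J| := by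
  have hm : (0 : ℝ) < Fintype.card J := by exact_mod_cast Fintype.card_pos
  rw [Finset.mul_sum]
  refine Finset.sum_le_sum fun a _ => ?_
  by_cases h : Gd pa G p a
  · rw [ind_neg (not_not.2 h), zero_mul]
    exact mul_nonneg (by positivity) (Finset.sum_nonneg fun _ _ => abs_nonneg _)
  · rw [ind_pos h, one_mul]
    obtain ⟨g, hg⟩ := not_forall.1 h
    have h1 := Finset.single_le_sum (f := fun g => |sg pa G a g - p a / Fintype.card J|)
      (fun _ _ => abs_nonneg _) (mem_univ g)
    have h2 := (not_le.1 hg).le.trans h1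
    rw [div_le_iff₀ (by positivity)] at h2
    linarith

theorem Gd.exists_al [Nonempty J] {a : Fin N} (h : Gd pa G p a) (ha : 0 ≤ p a) (g : J) :
    ∃ c, Al pa G γ p a g c := by
  have hm : (0 : ℝ) < Fintype.card J := by exact_mod_cast Fintype.card_pos
  by_contra hc
  push Not at hc
  have h0 := not_le.1 (hc 0)
  have h1 := not_le.1 (hc 1)
  have h2 := (abs_le.1 (h g)).1
  rw [sg_eq pa G γ] at h2
  have h3 : p a / (500 * Fintype.card J) = p a / Fintype.card J / 500 := by field_simp
  have h4 : p a / (2 * Fintype.card J) = p a / Fintype.card J / 2 := by field_simp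
  have h5 : 0 ≤ p a / Fintype.card J := div_nonneg ha hm.le
  linarith

theorem Gd.sg_le [Nonempty J] {a : Fin N} (h : Gd pa G p a) (g : J) :
    sg pa G a g ≤ 3 / 2 * (p a / Fintype.card J) := by
  have hm : (0 : ℝ) < Fintype.card J := by exact_mod_cast Fintype.card_pos
  have h2 := (abs_le.1 (h g)).2
  have h4 : p a / (2 * Fintype.card J) = p a / Fintype.card J / 2 := by field_simp
  linarith

variable [AddCommGroup J] [Module (ZMod 2) J] (ν : J)

omit [Fintype J] in
theorem add_self_J (x : J) : x + x = 0 := by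
  have : (1 + 1 : ZMod 2) = 0 := rfl
  rw [← one_smul (ZMod 2) x, ← add_smul, this, zero_smul]

omit [Fintype J] in
theorem val_cases {g z : J} {c : ZMod 2} (h : g + c • ν = z) : g = z ∨ g = z + ν := by
  rcases zmod2_cases c with rfl | rfl
  · left; simpa using h
  · right; rw [← h, one_smul, add_assoc, add_self_J, add_zero]

theorem val_le (hp1 : ∑ a, p a = 1) (z : J) :
    𝔼 x, ind (G x + γ x • ν = z) ≤ 2 * (1 / Fintype.card J +
      ∑ a, ∑ g, |sg pa G a g - p a / Fintype.card J|) := by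
  have h1 := class_le pa G p hp1 z
  have h2 := class_le pa G p hp1 (z + ν)
  have h3 : 𝔼 x, ind (G x + γ x • ν = z) ≤ 𝔼 x, (ind (G x = z) + ind (G x = z + ν)) :=
    expect_mono fun x => (ind_mono (val_cases ν)).trans (ind_or_le _ _)
  rw [Finset.expect_add_distrib] at h3
  linarith

theorem part_val_le {b : Fin N} (h : Gd pa G p b) (z : J) :
    𝔼 x, ind (pa x = b ∧ G x + γ x • ν = z) ≤ 3 * (p b / Fintype.card J) := by
  have h1 := h.sg_le pa G p z
  have h2 := h.sg_le pa G p (z + ν)
  have h3 : 𝔼 x, ind (pa x = b ∧ G x + γ x • ν = z) ≤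
      𝔼 x, (ind (G x = z ∧ pa x = b) + ind (G x = z + ν ∧ pa x = b)) :=
    expect_mono fun x => (ind_mono (by
      rintro ⟨hb, hz⟩
      rcases val_cases ν hz with h | h
      · exact Or.inl ⟨h, hb⟩
      · exact Or.inr ⟨h, hb⟩)).trans (ind_or_le _ _)
  rw [Finset.expect_add_distrib] at h3
  change _ ≤ sg pa G b z + sg pa G b (z + ν) at h3
  linarith

end one

section comb
variable {J : Type} [AddCommGroup J] [Module (ZMod 2) J] (ν : J)

/-- the relation between types -/
def Rel0 (σ : ZMod 2) (T T' : Set (J × ZMod 2) × Set (J × ZMod 2)) : Prop :=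
  ∃ u ∈ T.1, ∃ v ∈ T'.2, u.1 + u.2 • ν = v.1 + v.2 • ν ∧ u.2 + v.2 = σ

theorem force {S S' : Set (J × ZMod 2)} (hS : ∀ g, ∃ c, (g, c) ∈ S) (hS' : ∀ g, ∃ c, (g, c) ∈ S')
    (hd : ∀ u ∈ S, ∀ v ∈ S', u.1 + u.2 • ν ≠ v.1 + v.2 • ν) {u : J × ZMod 2} (hu : u ∈ S) :
    (u.1 + u.2 • ν, (0 : ZMod 2)) ∈ S ∧ (u.1 + u.2 • ν + ν, (0 : ZMod 2)) ∈ S' := by
  set y := u.1 + u.2 • ν with hy
  have h1 : (y, (1 : ZMod 2)) ∈ S' := by
    obtain ⟨c, hc⟩ := hS' y
    rcases zmod2_cases c with rfl | rfl
    · exact absurd (by simp [hy]) (hd u hu _ hc)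
    · exact hc
  constructor
  · obtain ⟨c, hc⟩ := hS y
    rcases zmod2_cases c with rfl | rfl
    · exact hc
    · exact absurd rfl (hd _ hc _ h1)
  · obtain ⟨c, hc⟩ := hS' (y + ν)
    rcases zmod2_cases c with rfl | rfl
    · exact hc
    · refine absurd ?_ (hd u hu _ hc)
      rw [one_smul, add_assoc, add_self_J, add_zero]

theorem sym_rel {A B : Set (J × ZMod 2) × Set (J × ZMod 2)} (hA1 : ∀ g, ∃ c, (g, c) ∈ A.1)
    (hA2 : ∀ g, ∃ c, (g, c) ∈ A.2) (hB1 : ∀ g, ∃ c, (g, c) ∈ B.1) (hB2 : ∀ g, ∃ c, (g, c) ∈ B.2)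
    (hA : ¬ ∃ σ, Rel0 ν σ A A) (hB : ¬ ∃ σ, Rel0 ν σ B B) {u v : J × ZMod 2} (hu : u ∈ A.1)
    (hv : v ∈ B.2) (h : u.1 + u.2 • ν = v.1 + v.2 • ν) : ∃ σ, Rel0 ν σ A B ∧ Rel0 ν σ B A := by
  have h1 := force ν hA1 hA2 (fun u hu v hv h => hA ⟨_, u, hu, v, hv, h, rfl⟩) hu
  have h2 := force ν hB2 hB1 (fun u hu v hv h => hB ⟨_, v, hv, u, hu, h.symm, rfl⟩) hv
  rw [← h] at h2
  exact ⟨0, ⟨_, h1.1, _, h2.1, rfl, add_zero _⟩, ⟨_, h2.2, _, h1.2, rfl, add_zero _⟩⟩

end comb

theorem cs_types {N M : ℕ} (p : Fin N → ℝ) (ty : Fin N → Fin M) (D : Fin N → Prop) :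
    (∑ a, ind (D a) * p a) ^ 2 ≤ M * ∑ a, ∑ b, p a * p b * ind (D a ∧ D b ∧ ty a = ty b) := by
  classical
  have h1 : ∑ a, ind (D a) * p a = ∑ t, ∑ a, ind (ty a = t) * (ind (D a) * p a) := by
    rw [Finset.sum_comm]
    refine Finset.sum_congr rfl fun a _ => ?_
    rw [← Finset.sum_mul, sum_ind_eq, one_mul]
  have h2 : ∑ a, ∑ b, p a * p b * ind (D a ∧ D b ∧ ty a = ty b) =
      ∑ t, (∑ a, ind (ty a = t) * (ind (D a) * p a)) ^ 2 := by
    simp only [sq, Finset.sum_mul_sum]
    rw [Finset.sum_comm (s := univ) (t := univ)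
      (f := fun t a => ∑ b, ind (ty a = t) * (ind (D a) * p a) * (ind (ty b = t) * (ind (D b) * p b)))]
    refine Finset.sum_congr rfl fun a _ => ?_
    rw [Finset.sum_comm]
    refine Finset.sum_congr rfl fun b _ => ?_
    rw [Finset.sum_eq_single (ty a)]
    · rw [ind_and, ind_and, ind_pos (rfl : ty a = ty a), ind_congr (eq_comm (a := ty a) (b := ty b))]
      ring
    · intro t _ ht
      rw [ind_neg (Ne.symm ht)]
      ring
    · simp
  rw [h1, h2]
  simpa using sq_sum_le_card_mul_sum_sq (s := (univ : Finset (Fin M)))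
    (f := fun t => ∑ a, ind (ty a = t) * (ind (D a) * p a))

section main
variable {X J : Type} [Fintype X] [Fintype J] [AddCommGroup J]
  [Module (ZMod 2) J] {N : ℕ} (pa : Bool → X → Fin N)
  (G : Bool → X → J) (γ : Bool → X → ZMod 2) (ν : J) (p : Fin N → ℝ)

/-- the type of a part -/
def tyS (a : Fin N) : Set (J × ZMod 2) × Set (J × ZMod 2) :=
  ({u | Al (pa false) (G false) (γ false) p a u.1 u.2},
    {u | Al (pa true) (G true) (γ true) p a u.1 u.2})

theorem first_claim (J0 : ℕ) (hJ : Fintype.card J ≤ J0) (hp0 : ∀ a, 0 ≤ p a) (σ : ZMod 2)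
    (a b : Fin N) (h : Rel0 ν σ (tyS pa G γ p a) (tyS pa G γ p b)) :
    (1 / (500 * J0 : ℝ)) ^ 2 * (p a * p b) ≤
      𝔼 x, 𝔼 y, ind (pa false x = a ∧ pa true y = b ∧
        G false x + γ false x • ν = G true y + γ true y • ν ∧ γ false x + γ true y = σ) := by
  obtain ⟨u, hu, v, hv, h1, h2⟩ := h
  have hm : (0 : ℝ) < Fintype.card J := by exact_mod_cast Fintype.card_pos
  have hJ' : (Fintype.card J : ℝ) ≤ J0 := by exact_mod_cast hJ
  have key : ∀ c, 1 / (500 * J0 : ℝ) * p c ≤ p c / (500 * Fintype.card J) := fun c => by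
    rw [one_div_mul_eq_div]
    exact div_le_div_of_nonneg_left (hp0 c) (by positivity) (by linarith)
  have h0 : 0 ≤ 1 / (500 * J0 : ℝ) := by positivity
  calc (1 / (500 * J0 : ℝ)) ^ 2 * (p a * p b)
      = (1 / (500 * J0 : ℝ) * p a) * (1 / (500 * J0 : ℝ) * p b) := by ring
    _ ≤ rho (pa false) (G false) (γ false) a u.1 u.2 *
          rho (pa true) (G true) (γ true) b v.1 v.2 :=
        mul_le_mul ((key a).trans hu) ((key b).trans hv) (mul_nonneg h0 (hp0 b))
          (rho_nonneg _ _ _ _ _ _)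
    _ = 𝔼 x, 𝔼 y, ind ((pa false x = a ∧ G false x = u.1 ∧ γ false x = u.2) ∧
          (pa true y = b ∧ G true y = v.1 ∧ γ true y = v.2)) := by
        simp only [rho, Finset.expect_mul_expect]
        exact Finset.expect_congr rfl fun x _ => Finset.expect_congr rfl fun y _ =>
          (ind_and _ _).symm
    _ ≤ _ := by
        refine expect_mono fun x => expect_mono fun y => ind_mono ?_
        rintro ⟨⟨e1, e2, e3⟩, e4, e5, e6⟩
        refine ⟨e1, e4, ?_, ?_⟩
        · rw [e2, e3, e5, e6, h1]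
        · rw [e3, e6, h2]

theorem second_claim (hp0 : ∀ a, 0 ≤ p a) (hp1 : ∑ a, p a = 1)
    (hclose : ∀ i, ∑ a, ∑ g, |sg (pa i) (G i) a g - p a / Fintype.card J| ≤
      1 / (1000 * Fintype.card J))
    (hNE : 1 / (3 * (Fintype.card J : ℝ)) ≤
      𝔼 x, 𝔼 y, ind (G false x + γ false x • ν = G true y + γ true y • ν))
    (hD : ∑ a, ind (∃ σ, Rel0 ν σ (tyS pa G γ p a) (tyS pa G γ p a)) * p a ≤ 1 / 500) :
    1 / 20 ≤ ∑ a, ∑ b, p a * p b * ind (∃ σ, Rel0 ν σ (tyS pa G γ p a) (tyS pa G γ p b) ∧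
      Rel0 ν σ (tyS pa G γ p b) (tyS pa G γ p a)) := by
  have hm1 : (1 : ℝ) ≤ Fintype.card J := by exact_mod_cast Fintype.card_pos
  have hm : (0 : ℝ) < Fintype.card J := by linarith
  set m : ℝ := (Fintype.card J : ℝ) with hmdef
  set D : Fin N → Prop := fun a => ∃ σ, Rel0 ν σ (tyS pa G γ p a) (tyS pa G γ p a) with hDdef
  set Sy : Fin N → Fin N → Prop := fun a b => ∃ σ, Rel0 ν σ (tyS pa G γ p a) (tyS pa G γ p b) ∧
      Rel0 ν σ (tyS pa G γ p b) (tyS pa G γ p a) with hSy
  set S : Fin N → Prop := fun a =>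
    (¬ Gd (pa false) (G false) p a ∨ ¬ Gd (pa true) (G true) p a) ∨ D a with hS
  have hδ : 1 / (1000 * m) ≤ 1 / 1000 :=
    div_le_div_of_nonneg_left zero_le_one (by norm_num) (by linarith)
  have hbad : ∀ i, ∑ a, ind (¬ Gd (pa i) (G i) p a) * p a ≤ 2 / 1000 := fun i => by
    refine (bad_le (pa i) (G i) p).trans ?_
    calc 2 * m * ∑ a, ∑ g, |sg (pa i) (G i) a g - p a / m| ≤ 2 * m * (1 / (1000 * m)) :=
          mul_le_mul_of_nonneg_left (hclose i) (by positivity)
      _ = 2 / 1000 := by field_simp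
  have hSp : ∑ a, ind (S a) * p a ≤ 6 / 1000 := by
    have h1 : ∑ a, ind (S a) * p a ≤ ∑ a, (ind (¬ Gd (pa false) (G false) p a) * p a +
        ind (¬ Gd (pa true) (G true) p a) * p a + ind (D a) * p a) := by
      refine Finset.sum_le_sum fun a _ => ?_
      rw [← add_mul, ← add_mul]
      exact mul_le_mul_of_nonneg_right
        ((ind_or_le _ _).trans (add_le_add (ind_or_le _ _) le_rfl)) (hp0 a)
    rw [Finset.sum_add_distrib, Finset.sum_add_distrib] at h1
    linarith [hbad false, hbad true]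
  set B : Bool → X → Prop := fun i x =>
    S (pa i x) ∨ ¬ Al (pa i) (G i) (γ i) p (pa i x) (G i x) (γ i x) with hB
  have hBp : ∀ i, 𝔼 x, ind (B i x) ≤ 11 / 1000 := fun i => by
    have h1 : 𝔼 x, ind (B i x) ≤ 𝔼 x, (ind (S (pa i x)) +
        ind (¬ Al (pa i) (G i) (γ i) p (pa i x) (G i x) (γ i x))) :=
      expect_mono fun x => ind_or_le _ _
    rw [Finset.expect_add_distrib] at h1
    have h2 := part_le (pa i) (G i) p S
    have h3 := dead_le (pa i) (G i) (γ i) p hp0 hp1
    linarith [hclose i]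
  have hval : ∀ i z, 𝔼 x, ind (G i x + γ i x • ν = z) ≤ 3 / m := fun i z => by
    refine (val_le (pa i) (G i) (γ i) p ν hp1 z).trans ?_
    have h1 := hclose i
    have h2 : 1 / (1000 * m) = 1 / m / 1000 := by field_simp
    have h3 : 3 / m = 3 * (1 / m) := by ring
    have h4 : 0 < 1 / m := by positivity
    linarith
  have hpt : ∀ x y, ind (G false x + γ false x • ν = G true y + γ true y • ν) ≤
      ind (B false x) * ind (G true y + γ true y • ν = G false x + γ false x • ν) +
      ind (B true y) * ind (G false x + γ false x • ν = G true y + γ true y • ν) +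
      ind (Gd (pa false) (G false) p (pa false x)) *
        ∑ b, ind (Sy (pa false x) b) * (ind (Gd (pa true) (G true) p b) *
          ind (pa true y = b ∧ G true y + γ true y • ν = G false x + γ false x • ν)) := by
    intro x y
    have n1 := mul_nonneg (ind_nonneg (B false x))
      (ind_nonneg (G true y + γ true y • ν = G false x + γ false x • ν))
    have n2 := mul_nonneg (ind_nonneg (B true y))
      (ind_nonneg (G false x + γ false x • ν = G true y + γ true y • ν))
    have n3' : ∀ b, 0 ≤ ind (Sy (pa false x) b) * (ind (Gd (pa true) (G true) p b) *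
          ind (pa true y = b ∧ G true y + γ true y • ν = G false x + γ false x • ν)) :=
      fun b => mul_nonneg (ind_nonneg _) (mul_nonneg (ind_nonneg _) (ind_nonneg _))
    have n3 := mul_nonneg (ind_nonneg (Gd (pa false) (G false) p (pa false x)))
      (Finset.sum_nonneg (s := univ) fun b _ => n3' b)
    by_cases he : G false x + γ false x • ν = G true y + γ true y • ν
    swap
    · rw [ind_neg he] at n2 ⊢
      linarith
    rw [ind_pos he, ind_pos he.symm, mul_one] at *
    by_cases h0 : B false x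
    · rw [ind_pos h0] at *
      linarith
    by_cases h1 : B true y
    · rw [ind_pos h1] at *
      linarith
    simp only [hB, hS, not_or, not_not] at h0 h1
    obtain ⟨⟨⟨a1, a2⟩, a3⟩, a4⟩ := h0
    obtain ⟨⟨⟨b1, b2⟩, b3⟩, b4⟩ := h1
    have hsy : Sy (pa false x) (pa true y) :=
      sym_rel ν (a1.exists_al _ _ (γ false) _ (hp0 _)) (a2.exists_al _ _ (γ true) _ (hp0 _))
        (b1.exists_al _ _ (γ false) _ (hp0 _)) (b2.exists_al _ _ (γ true) _ (hp0 _)) a3 b3
        (u := (G false x, γ false x)) (v := (G true y, γ true y)) a4 b4 he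
    have h2 := Finset.single_le_sum (fun b _ => n3' b) (mem_univ (pa true y))
    rw [ind_pos hsy, ind_pos b2, ind_pos ⟨rfl, he.symm⟩] at h2
    rw [ind_pos a1]
    linarith
  have hT1 : 𝔼 x, 𝔼 y, ind (B false x) *
      ind (G true y + γ true y • ν = G false x + γ false x • ν) ≤ 11 / 1000 * (3 / m) := by
    calc _ ≤ 𝔼 x, ind (B false x) * (3 / m) := expect_mono fun x => by
          rw [← Finset.mul_expect]
          exact mul_le_mul_of_nonneg_left (hval true _) (ind_nonneg _)
      _ ≤ _ := by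
          rw [← Finset.expect_mul]
          exact mul_le_mul_of_nonneg_right (hBp false) (by positivity)
  have hT2 : 𝔼 x, 𝔼 y, ind (B true y) *
      ind (G false x + γ false x • ν = G true y + γ true y • ν) ≤ 11 / 1000 * (3 / m) := by
    rw [Finset.expect_comm]
    calc _ ≤ 𝔼 y, ind (B true y) * (3 / m) := expect_mono fun y => by
          rw [← Finset.mul_expect]
          exact mul_le_mul_of_nonneg_left (hval false _) (ind_nonneg _)
      _ ≤ _ := by
          rw [← Finset.expect_mul]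
          exact mul_le_mul_of_nonneg_right (hBp true) (by positivity)
  have hT3 : 𝔼 x, 𝔼 y, ind (Gd (pa false) (G false) p (pa false x)) *
        ∑ b, ind (Sy (pa false x) b) * (ind (Gd (pa true) (G true) p b) *
          ind (pa true y = b ∧ G true y + γ true y • ν = G false x + γ false x • ν)) ≤
      9 / 2 / m * ∑ a, ∑ b, p a * p b * ind (Sy a b) := by
    have hh : ∀ a, 0 ≤ ∑ b, ind (Sy a b) * (3 * (p b / m)) := fun a =>
      Finset.sum_nonneg fun b _ => mul_nonneg (ind_nonneg _)
        (mul_nonneg (by norm_num) (div_nonneg (hp0 b) hm.le))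
    calc _ ≤ 𝔼 x, ind (Gd (pa false) (G false) p (pa false x)) *
          ∑ b, ind (Sy (pa false x) b) * (3 * (p b / m)) := expect_mono fun x => by
          rw [← Finset.mul_expect, Finset.expect_sum_comm]
          refine mul_le_mul_of_nonneg_left (Finset.sum_le_sum fun b _ => ?_) (ind_nonneg _)
          rw [← Finset.mul_expect, ← Finset.mul_expect]
          refine mul_le_mul_of_nonneg_left ?_ (ind_nonneg _)
          by_cases hb : Gd (pa true) (G true) p b
          · rw [ind_pos hb, one_mul]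
            exact part_val_le (pa true) (G true) (γ true) p ν hb _
          · rw [ind_neg hb, zero_mul]
            exact mul_nonneg (by norm_num) (div_nonneg (hp0 b) hm.le)
      _ = ∑ a, ∑ g, (ind (Gd (pa false) (G false) p a) *
          ∑ b, ind (Sy a b) * (3 * (p b / m))) * sg (pa false) (G false) a g :=
          expect_two (pa false) (G false) fun a _ => ind (Gd (pa false) (G false) p a) *
            ∑ b, ind (Sy a b) * (3 * (p b / m))
      _ ≤ ∑ a, ∑ _g : J, (∑ b, ind (Sy a b) * (3 * (p b / m))) * (3 / 2 * (p a / m)) := by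
          refine Finset.sum_le_sum fun a _ => Finset.sum_le_sum fun g _ => ?_
          by_cases ha : Gd (pa false) (G false) p a
          · rw [ind_pos ha, one_mul]
            exact mul_le_mul_of_nonneg_left (ha.sg_le _ _ _ g) (hh a)
          · rw [ind_neg ha, zero_mul, zero_mul]
            exact mul_nonneg (hh a) (mul_nonneg (by norm_num) (div_nonneg (hp0 a) hm.le))
      _ = _ := by
          rw [Finset.mul_sum]
          refine Finset.sum_congr rfl fun a _ => ?_
          rw [Finset.sum_const, card_univ, nsmul_eq_mul, Finset.sum_mul, Finset.mul_sum,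
            Finset.mul_sum]
          refine Finset.sum_congr rfl fun b _ => ?_
          rw [← hmdef]
          field_simp
          ring
  have hsum := hNE.trans (expect_mono fun x => expect_mono fun y => hpt x y)
  simp only [Finset.expect_add_distrib] at hsum
  have hfin : 1 / (3 * m) ≤ 2 * (11 / 1000 * (3 / m)) +
      9 / 2 / m * ∑ a, ∑ b, p a * p b * ind (Sy a b) := by linarith
  have h1 : 1 / (3 * m) = 1 / 3 * (1 / m) := by field_simp
  have h2 : 3 / m = 3 * (1 / m) := by ring
  have h3 : 9 / 2 / m = 9 / 2 * (1 / m) := by ring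
  have h4 : 0 < 1 / m := by positivity
  rw [h1, h2, h3] at hfin
  by_contra hc
  push Not at hc
  nlinarith

end main

end AL1Aux

open AL1Aux in
theorem al1 {X J : Type} [Fintype X] [Nonempty X] [Fintype J] [AddCommGroup J]
    [Module (ZMod 2) J] (J0 : ℕ) (hJ : Fintype.card J ≤ J0) {N : ℕ} (pa : Bool → X → Fin N)
    (G : Bool → X → J) (γ : Bool → X → ZMod 2) (ν : J) (p : Fin N → ℝ) (hp0 : ∀ a, 0 ≤ p a)
    (hp1 : ∑ a, p a = 1)
    (hclose : ∀ i, ∑ a, ∑ g, |(𝔼 x, ind (G i x = g ∧ pa i x = a)) - p a / Fintype.card J| ≤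
      1 / (1000 * J0))
    (hNE : 1 / (3 * (Fintype.card J : ℝ)) ≤
      𝔼 x, 𝔼 y, ind (G false x + γ false x • ν = G true y + γ true y • ν)) :
    ∃ (ty : Fin N → Fin (4 ^ (2 * J0)))
      (Rel : ZMod 2 → Fin (4 ^ (2 * J0)) → Fin (4 ^ (2 * J0)) → Prop),
      (∀ σ a b, Rel σ (ty a) (ty b) → (1 / (500 * J0 : ℝ)) ^ 2 * (p a * p b) ≤
        𝔼 x, 𝔼 y, ind (pa false x = a ∧ pa true y = b ∧
          G false x + γ false x • ν = G true y + γ true y • ν ∧ γ false x + γ true y = σ)) ∧
      1 / (250000 * 4 ^ (2 * J0) : ℝ) ≤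
        ∑ a, ∑ b, p a * p b * ind (∃ σ, Rel σ (ty a) (ty b) ∧ Rel σ (ty b) (ty a)) := by
  classical
  have hcard : Fintype.card (Set (J × ZMod 2) × Set (J × ZMod 2)) ≤
      Fintype.card (Fin (4 ^ (2 * J0))) := by
    rw [Fintype.card_prod, Fintype.card_set, Fintype.card_prod, ZMod.card, Fintype.card_fin,
      ← pow_add, show (4 : ℕ) = 2 ^ 2 from rfl, ← pow_mul]
    exact Nat.pow_le_pow_right (by norm_num) (by omega)
  obtain ⟨e⟩ := Function.Embedding.nonempty_of_card_le hcard
  have hiff : ∀ σ T T', (∃ S S', e S = e T ∧ e S' = e T' ∧ Rel0 ν σ S S') ↔ Rel0 ν σ T T' := by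
    intro σ T T'
    constructor
    · rintro ⟨S, S', h1, h2, h⟩
      rwa [← e.injective h1, ← e.injective h2]
    · exact fun h => ⟨T, T', rfl, rfl, h⟩
  refine ⟨fun a => e (tyS pa G γ p a), fun σ t t' => ∃ S S', e S = t ∧ e S' = t' ∧ Rel0 ν σ S S',
    fun σ a b h => first_claim pa G γ ν p J0 hJ hp0 σ a b ((hiff _ _ _).1 h), ?_⟩
  simp only [hiff]
  have hM : (1 : ℝ) ≤ 4 ^ (2 * J0) := one_le_pow₀ (by norm_num)
  by_cases hD : ∑ a, ind (∃ σ, Rel0 ν σ (tyS pa G γ p a) (tyS pa G γ p a)) * p a ≤ 1 / 500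
  · refine le_trans ?_ (second_claim pa G γ ν p hp0 hp1 (fun i => (hclose i).trans ?_) hNE hD)
    · exact div_le_div_of_nonneg_left zero_le_one (by norm_num) (by linarith)
    · have hm : (0 : ℝ) < Fintype.card J := by exact_mod_cast Fintype.card_pos
      have hJ' : (Fintype.card J : ℝ) ≤ J0 := by exact_mod_cast hJ
      exact div_le_div_of_nonneg_left zero_le_one (by positivity) (by linarith)
  · have h1 := cs_types p (fun a => e (tyS pa G γ p a))
      fun a => ∃ σ, Rel0 ν σ (tyS pa G γ p a) (tyS pa G γ p a)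
    have h2 : ((1 : ℝ) / 500) ^ 2 ≤ _ := (pow_le_pow_left₀ (by norm_num) (not_le.1 hD).le 2).trans h1
    rw [div_le_iff₀ (by positivity)]
    have h3 : ∑ a, ∑ b, p a * p b * ind ((∃ σ, Rel0 ν σ (tyS pa G γ p a) (tyS pa G γ p a)) ∧
        (∃ σ, Rel0 ν σ (tyS pa G γ p b) (tyS pa G γ p b)) ∧
        e (tyS pa G γ p a) = e (tyS pa G γ p b)) ≤
        ∑ a, ∑ b, p a * p b * ind (∃ σ, Rel0 ν σ (tyS pa G γ p a) (tyS pa G γ p b) ∧
          Rel0 ν σ (tyS pa G γ p b) (tyS pa G γ p a)) := by
      refine Finset.sum_le_sum fun a _ => Finset.sum_le_sum fun b _ =>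
        mul_le_mul_of_nonneg_left (ind_mono ?_) (mul_nonneg (hp0 a) (hp0 b))
      rintro ⟨⟨σ, h⟩, -, h'⟩
      rw [← e.injective h']
      exact ⟨σ, h, h⟩
    push_cast at h2
    nlinarith

end Vale.Agent.P060
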