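import Vale.Agent.P060.Basic

/-!
# Pairs of units and the structured count (task AL2)
al2: for good u, u' group the parts by the joint type (ty u a, ty u' a) ∈ Fin τ × Fin τ with masses
P A.  Restrict to a with a (0,0), a (1,1) of joint type A and a (1,0), a (0,1) of joint type B: the
contribution is at least sum over A, B of (P A)^2 (P B)^2 ind (Sym u A.1 B.1 and Sym u' A.2 B.2),
which is ≥ s(u,u')^2 / τ^4 by Cauchy-Schwarz, s(u,u') = sum over a, b of p a p b ind (Sym u ∧ Sym u').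
Then avg μ μ s^2 ≥ (avg μ μ s)^2 (pow_expect_le) and avg μ μ s = sum p a p b (avg μ ind Sym)^2 ≥ (η/2)^2.
str: Γ a Πp a ≥ θ Πp a Rr a - e a used twice (0 ≤ Γ ≤ 2, 0 ≤ θ Rr ≤ 1; the product Πp is tp-invariant).
-/

open Finset Polynomial
open scoped BigOperators

namespace Vale.Agent.P060

namespace AL2Aux

def quad (X : Type) : (X × X) × (X × X) ≃ (Bool × Bool → X) where
  toFun z := fun s => cond s.1 (cond s.2 z.2.1 z.1.2) (cond s.2 z.2.2 z.1.1)
  invFun a := ((a (false, false), a (true, false)), (a (true, true), a (false, true)))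
  left_inv := by
    rintro ⟨⟨a, b⟩, c, d⟩
    rfl
  right_inv := by
    intro a
    funext s
    obtain ⟨s1, s2⟩ := s
    cases s1 <;> cases s2 <;> rfl

theorem sq_sum_le_types {X T : Type} [Fintype X] [Fintype T] (w : X → ℝ) (ty : X → T) :
    (∑ x, w x) ^ 2 ≤ Fintype.card T * ∑ x, ∑ y, w x * w y * ind (ty x = ty y) := by
  classical
  have e1 : ∑ x, w x = ∑ A : T, ∑ x, w x * ind (ty x = A) := by
    rw [Finset.sum_comm]
    refine Finset.sum_congr rfl fun x _ => ?_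
    rw [← Finset.mul_sum, sum_ind_eq, mul_one]
  have e2 : ∑ A : T, (∑ x, w x * ind (ty x = A)) ^ 2 =
      ∑ x, ∑ y, w x * w y * ind (ty x = ty y) := by
    simp only [sq, Finset.sum_mul_sum]
    rw [Finset.sum_comm]
    refine Finset.sum_congr rfl fun x _ => ?_
    rw [Finset.sum_comm]
    refine Finset.sum_congr rfl fun y _ => ?_
    rw [Finset.sum_eq_single (ty x)]
    · rw [ind_pos rfl, ind_congr (eq_comm (a := ty y))]; ring
    · intro A _ hA
      rw [ind_neg (Ne.symm hA)]; ring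
    · simp
  rw [e1, ← e2]
  exact sq_sum_le_card_mul_sum_sq

theorem sq_wsum_le {X : Type} [Fintype X] (p m : X → ℝ) (hp0 : ∀ a, 0 ≤ p a)
    (hp1 : ∑ a, p a = 1) : (∑ a, p a * m a) ^ 2 ≤ ∑ a, p a * m a ^ 2 := by
  have := Finset.sum_sq_le_sum_mul_sum_of_sq_le_mul (univ : Finset X) (r := fun a => p a * m a)
    (f := p) (g := fun a => p a * m a ^ 2) (fun a _ => hp0 a)
    (fun a _ => mul_nonneg (hp0 a) (sq_nonneg _)) (fun a _ => le_of_eq (by ring))
  rwa [hp1, one_mul] at this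

theorem prod_tp {X : Type} (p : X → ℝ) (a : Bool × Bool → X) :
    ∏ s, p (tp a s) = ∏ s, p (a s) :=
  Fintype.prod_equiv (Equiv.prodComm Bool Bool) _ _ fun _ => rfl

theorem sum_tp {X : Type} [Fintype X] (e : (Bool × Bool → X) → ℝ) :
    ∑ a, e (tp a) = ∑ a, e a :=
  Fintype.sum_equiv (Function.Involutive.toPerm tp tp_tp) _ _ fun _ => rfl

/-- the count for a fixed pair of units -/
theorem pair_count {N τ : ℕ} (p : Fin N → ℝ) (hp0 : ∀ a, 0 ≤ p a) (ty ty' : Fin N → Fin τ)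
    (Rel Rel' : ZMod 2 → Fin τ → Fin τ → Prop) :
    (∑ x : Fin N × Fin N, p x.1 * p x.2 *
      (ind (∃ σ, Rel σ (ty x.1) (ty x.2) ∧ Rel σ (ty x.2) (ty x.1)) *
        ind (∃ σ, Rel' σ (ty' x.1) (ty' x.2) ∧ Rel' σ (ty' x.2) (ty' x.1)))) ^ 2 ≤
    (τ : ℝ) ^ 4 * ∑ a : Bool × Bool → Fin N, (∏ s, p (a s)) *
      (ind (∃ σ, Rel σ (ty (a (false, false))) (ty (a (true, false))) ∧
        Rel σ (ty (a (false, true))) (ty (a (true, true)))) *
      ind (∃ σ, Rel' σ (ty' (tp a (false, false))) (ty' (tp a (true, false))) ∧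
        Rel' σ (ty' (tp a (false, true))) (ty' (tp a (true, true))))) := by
  refine (sq_sum_le_types _
    (fun x : Fin N × Fin N => ((ty x.1, ty' x.1), (ty x.2, ty' x.2)))).trans ?_
  have hc : ((Fintype.card ((Fin τ × Fin τ) × (Fin τ × Fin τ)) : ℕ) : ℝ) = (τ : ℝ) ^ 4 := by
    simp only [Fintype.card_prod, Fintype.card_fin]
    push_cast
    ring
  rw [hc, ← Fintype.sum_prod_type', ← (quad (Fin N)).sum_comp]
  refine mul_le_mul_of_nonneg_left (Finset.sum_le_sum fun z _ => ?_) (by positivity)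
  obtain ⟨⟨a, b⟩, c, d⟩ := z
  have e1 : ∏ s, p (quad (Fin N) ((a, b), c, d) s) = p a * p b * (p c * p d) := by
    rw [Fintype.prod_prod_type]
    simp only [Fintype.prod_bool, quad, Equiv.coe_fn_mk, cond_true, cond_false]
    ring
  rw [e1]
  have hp : 0 ≤ p a * p b * (p c * p d) :=
    mul_nonneg (mul_nonneg (hp0 _) (hp0 _)) (mul_nonneg (hp0 _) (hp0 _))
  have e2 : ∀ A B C D E : ℝ, p a * p b * (A * B) * (p c * p d * (C * D)) * E =
      p a * p b * (p c * p d) * (A * B * (C * D) * E) := by intros; ring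
  rw [e2]
  refine mul_le_mul_of_nonneg_left ?_ hp
  simp only [← ind_and]
  refine ind_mono ?_
  rintro ⟨⟨⟨⟨σ, h1, h2⟩, σ', h3, h4⟩, -⟩, h5⟩
  simp only [Prod.mk.injEq] at h5
  obtain ⟨⟨k1, k2⟩, k3, k4⟩ := h5
  refine ⟨⟨σ, h1, ?_⟩, σ', ?_, ?_⟩
  · change Rel σ (ty d) (ty c)
    rw [← k1, ← k3]; exact h2
  · change Rel' σ' (ty' a) (ty' d)
    rw [← k4]; exact h3
  · change Rel' σ' (ty' b) (ty' c)
    rw [← k2]; exact h4

end AL2Aux

open AL2Aux in
theorem al2 {Uu : Type} [Fintype Uu] (μ : Uu → ℝ) (hμ : ∀ u, 0 ≤ μ u) (hμ1 : 𝔼 u, μ u ≤ 1)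
    (good : Uu → Prop) (hgood : 1 / 2 ≤ 𝔼 u, μ u * ind (good u)) {N τ : ℕ} (p : Fin N → ℝ)
    (hp0 : ∀ a, 0 ≤ p a) (hp1 : ∑ a, p a = 1) (ty : Uu → Fin N → Fin τ)
    (Rel : Uu → ZMod 2 → Fin τ → Fin τ → Prop) (η : ℝ) (hη : 0 ≤ η)
    (hsym : ∀ u, good u → η ≤ ∑ a, ∑ b, p a * p b *
      ind (∃ σ, Rel u σ (ty u a) (ty u b) ∧ Rel u σ (ty u b) (ty u a)))
    (Rr : (Bool × Bool → Fin N) → ℝ)
    (hR : ∀ a, Rr a = 𝔼 u, μ u * ind (good u ∧ ∃ σ,
      Rel u σ (ty u (a (false, false))) (ty u (a (true, false))) ∧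
      Rel u σ (ty u (a (false, true))) (ty u (a (true, true))))) :
    (η / 2) ^ 4 / (τ : ℝ) ^ 4 ≤ ∑ a : Bool × Bool → Fin N, (∏ s, p (a s)) * (Rr a * Rr (tp a)) := by
  set ν : Uu → ℝ := fun u => μ u * ind (good u) with hν
  have hν0 : ∀ u, 0 ≤ ν u := fun u => mul_nonneg (hμ u) (ind_nonneg _)
  have hν1 : 𝔼 u, ν u ≤ 1 :=
    (expect_mono fun u => mul_le_of_le_one_right (hμ u) (ind_le_one _)).trans hμ1
  set Sy : Uu → Fin N × Fin N → ℝ := fun u x =>
    ind (∃ σ, Rel u σ (ty u x.1) (ty u x.2) ∧ Rel u σ (ty u x.2) (ty u x.1)) with hSy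
  set I : Uu → (Bool × Bool → Fin N) → ℝ := fun u a => ind (∃ σ,
      Rel u σ (ty u (a (false, false))) (ty u (a (true, false))) ∧
      Rel u σ (ty u (a (false, true))) (ty u (a (true, true)))) with hI
  have hR' : ∀ a, Rr a = 𝔼 u, ν u * I u a := by
    intro a
    rw [hR]
    refine Finset.expect_congr rfl fun u _ => ?_
    rw [ind_and, ← mul_assoc]
  set pp : Fin N × Fin N → ℝ := fun x => p x.1 * p x.2 with hpp
  have hpp0 : ∀ x, 0 ≤ pp x := fun x => mul_nonneg (hp0 _) (hp0 _)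
  have hpp1 : ∑ x, pp x = 1 := by
    rw [Fintype.sum_prod_type]
    simp only [hpp]
    rw [← Finset.sum_mul_sum, hp1, one_mul]
  set s : Uu × Uu → ℝ := fun z => ∑ x, pp x * (Sy z.1 x * Sy z.2 x) with hs
  have hs0 : ∀ z, 0 ≤ s z := fun z => Finset.sum_nonneg fun x _ =>
    mul_nonneg (hpp0 x) (mul_nonneg (ind_nonneg _) (ind_nonneg _))
  have k1 : η / 2 ≤ ∑ x, pp x * 𝔼 u, ν u * Sy u x := by
    have e : ∑ x, pp x * 𝔼 u, ν u * Sy u x = 𝔼 u, ν u * ∑ x, pp x * Sy u x := by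
      simp only [Finset.mul_expect, Finset.mul_sum]
      rw [Finset.expect_sum_comm]
      exact Finset.sum_congr rfl fun x _ => Finset.expect_congr rfl fun u _ => by ring
    rw [e]
    calc η / 2 ≤ (𝔼 u, ν u) * η := by nlinarith
      _ = 𝔼 u, ν u * η := Finset.expect_mul _ _ _
      _ ≤ _ := expect_mono fun u => by
        by_cases hu : good u
        · refine mul_le_mul_of_nonneg_left ?_ (hν0 u)
          rw [Fintype.sum_prod_type]
          exact hsym u hu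
        · simp [hν, ind_neg hu]
  have k2 : 𝔼 z : Uu × Uu, ν z.1 * ν z.2 * s z = ∑ x, pp x * (𝔼 u, ν u * Sy u x) ^ 2 := by
    simp only [hs, Finset.mul_sum]
    rw [Finset.expect_sum_comm]
    refine Finset.sum_congr rfl fun x _ => ?_
    rw [sq, Finset.expect_mul_expect, expect_prod', Finset.mul_expect]
    refine Finset.expect_congr rfl fun u _ => ?_
    rw [Finset.mul_expect]
    exact Finset.expect_congr rfl fun u' _ => by ring
  have k3 : (η / 2) ^ 2 ≤ 𝔼 z : Uu × Uu, ν z.1 * ν z.2 * s z := by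
    rw [k2]
    exact (pow_le_pow_left₀ (by positivity) k1 2).trans (sq_wsum_le pp _ hpp0 hpp1)
  have k4 : (𝔼 z : Uu × Uu, ν z.1 * ν z.2 * s z) ^ 2 ≤ 𝔼 z : Uu × Uu, ν z.1 * ν z.2 * s z ^ 2 := by
    refine pow_expect_le (fun z : Uu × Uu => ν z.1 * ν z.2) s
      (fun z => mul_nonneg (hν0 _) (hν0 _)) ?_ hs0 2 (by norm_num)
    rw [expect_prod', ← Finset.expect_mul_expect]
    exact mul_le_one₀ hν1 (expect_nonneg' hν0) hν1
  have k5 : 𝔼 z : Uu × Uu, ν z.1 * ν z.2 * s z ^ 2 ≤ (τ : ℝ) ^ 4 *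
      ∑ a : Bool × Bool → Fin N, (∏ s, p (a s)) * (Rr a * Rr (tp a)) := by
    have e : (τ : ℝ) ^ 4 * ∑ a : Bool × Bool → Fin N, (∏ s, p (a s)) * (Rr a * Rr (tp a)) =
        𝔼 z : Uu × Uu, ν z.1 * ν z.2 * ((τ : ℝ) ^ 4 *
          ∑ a : Bool × Bool → Fin N, (∏ s, p (a s)) * (I z.1 a * I z.2 (tp a))) := by
      simp only [Finset.mul_sum]
      rw [Finset.expect_sum_comm]
      refine Finset.sum_congr rfl fun a _ => ?_
      rw [hR', hR', Finset.expect_mul_expect, expect_prod', Finset.mul_expect, Finset.mul_expect]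
      refine Finset.expect_congr rfl fun u _ => ?_
      rw [Finset.mul_expect, Finset.mul_expect]
      exact Finset.expect_congr rfl fun u' _ => by ring
    rw [e]
    exact expect_mono fun z => mul_le_mul_of_nonneg_left
      (pair_count p hp0 (ty z.1) (ty z.2) (Rel z.1) (Rel z.2)) (mul_nonneg (hν0 _) (hν0 _))
  have k6 : 0 ≤ ∑ a : Bool × Bool → Fin N, (∏ s, p (a s)) * (Rr a * Rr (tp a)) := by
    have : ∀ a, 0 ≤ Rr a := fun a => by
      rw [hR']; exact expect_nonneg' fun u => mul_nonneg (hν0 u) (ind_nonneg _)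
    exact Finset.sum_nonneg fun a _ => mul_nonneg (Finset.prod_nonneg fun s _ => hp0 _)
      (mul_nonneg (this _) (this _))
  refine div_le_of_le_mul₀ (by positivity) k6 ?_
  rw [mul_comm, show (η / 2) ^ 4 = ((η / 2) ^ 2) ^ 2 by ring]
  exact (pow_le_pow_left₀ (by positivity) k3 2).trans (k4.trans k5)

open AL2Aux in
theorem str {N : ℕ} (p : Fin N → ℝ) (hp0 : ∀ a, 0 ≤ p a) (Γ Rr e : (Bool × Bool → Fin N) → ℝ)
    (θ E : ℝ) (hθ0 : 0 ≤ θ) (hθ1 : θ ≤ 1) (hΓ : ∀ a, 0 ≤ Γ a ∧ Γ a ≤ 2)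
    (hR : ∀ a, 0 ≤ Rr a ∧ Rr a ≤ 1) (he : ∀ a, 0 ≤ e a) (hE : ∑ a, e a ≤ E)
    (h : ∀ a, θ * (∏ s, p (a s)) * Rr a - e a ≤ Γ a * ∏ s, p (a s)) :
    θ ^ 2 * (∑ a : Bool × Bool → Fin N, (∏ s, p (a s)) * (Rr a * Rr (tp a))) - 3 * E ≤
      ∑ a : Bool × Bool → Fin N, (∏ s, p (a s)) * (Γ a * Γ (tp a)) := by
  have key : ∀ a : Bool × Bool → Fin N, θ ^ 2 * ((∏ s, p (a s)) * (Rr a * Rr (tp a))) -
      (e (tp a) + 2 * e a) ≤ (∏ s, p (a s)) * (Γ a * Γ (tp a)) := by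
    intro a
    have h1 := h a
    have h2 := h (tp a)
    rw [prod_tp] at h2
    set π := ∏ s, p (a s)
    have h3 := mul_le_mul_of_nonneg_right h1 (hΓ (tp a)).1
    have h4 := mul_le_mul_of_nonneg_left (hΓ (tp a)).2 (he a)
    have h5 : 0 ≤ θ * Rr a := mul_nonneg hθ0 (hR a).1
    have h6 : θ * Rr a ≤ 1 := mul_le_one₀ hθ1 (hR a).1 (hR a).2
    have h7 := mul_le_mul_of_nonneg_left h2 h5
    have h8 := mul_le_mul_of_nonneg_right h6 (he (tp a))
    nlinarith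
  have h1 := Finset.sum_le_sum fun a (_ : a ∈ univ) => key a
  rw [Finset.sum_sub_distrib, Finset.sum_add_distrib, sum_tp, ← Finset.mul_sum,
    ← Finset.mul_sum] at h1
  linarith

end Vale.Agent.P060
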