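import Vale.Agent.P060.Basic

/-!
# Box norm lemmas (task Box)
The map (x, y) ↦ (m x y, m y x) is an involution of X × X, so avg_x g x = avg_x avg_y g (m x y), and
the pair (m x y, m x' y') is uniform when x y x' y' are.  Two Cauchy-Schwarz steps give box_lemma.
box_data: for d in the range of D pick x_d; W z = b (D z) z with b d z = W (m x_d z); sum over d.
-/

open Finset Polynomial
open scoped BigOperators

namespace Vale.Agent.P060


theorem mix_pair {X : Type} [Fintype X] {m : X → X → X} (hm : IsMix m) (G : X → X → ℝ) :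
    𝔼 x, 𝔼 y, G (m x y) (m y x) = 𝔼 x, 𝔼 y, G x y := by
  have hinv : Function.Involutive (fun z : X × X => (m z.1 z.2, m z.2 z.1)) := fun z => by
    simp only [hm.left, hm.right, hm.same]
  have h := Fintype.expect_equiv hinv.toPerm (fun z => G (m z.1 z.2) (m z.2 z.1))
    (fun z => G z.1 z.2) fun _ => rfl
  rwa [expect_prod', expect_prod'] at h

theorem mix_one {X : Type} [Fintype X] [Nonempty X] {m : X → X → X} (hm : IsMix m) (g : X → ℝ) :
    𝔼 x, g x = 𝔼 x, 𝔼 y, g (m x y) := by
  rw [mix_pair hm fun x _ => g x]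
  simp

theorem sq_expect_mul_le {X : Type} [Fintype X] [Nonempty X] (a g : X → ℝ) (ha : ∀ x, |a x| ≤ 1) :
    (𝔼 x, a x * g x) ^ 2 ≤ 𝔼 x, g x ^ 2 := by
  refine (Finset.expect_mul_sq_le_sq_mul_sq _ _ _).trans
    (mul_le_of_le_one_left (expect_nonneg' fun x => sq_nonneg _) ?_)
  exact expect_le_of_le zero_le_one fun x => (sq_le_one_iff_abs_le_one _).2 (ha x)

theorem box_lemma {X : Type} [Fintype X] [Nonempty X] (m : X → X → X) (hm : IsMix m)
    (f a b : X → ℝ) (ha : ∀ x y, a (m x y) = a x) (hb : ∀ x y, b (m x y) = b y)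
    (ha1 : ∀ x, |a x| ≤ 1) (hb1 : ∀ x, |b x| ≤ 1) :
    |𝔼 x, f x * a x * b x| ^ 4 ≤ Box m f := by
  have h1 : 𝔼 x, f x * a x * b x = 𝔼 x, a x * 𝔼 y, b y * f (m x y) := by
    rw [mix_one hm]
    simp only [ha, hb, Finset.mul_expect]
    exact Finset.expect_congr rfl fun x _ => Finset.expect_congr rfl fun y _ => by ring
  have h2 := sq_expect_mul_le a (fun x => 𝔼 y, b y * f (m x y)) ha1
  have h3 : 𝔼 x, (𝔼 y, b y * f (m x y)) ^ 2 =
      𝔼 z : X × X, (b z.1 * b z.2) * 𝔼 x, f (m x z.1) * f (m x z.2) := by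
    simp only [sq, Finset.expect_mul_expect]
    simp only [Finset.mul_expect, expect_prod']
    rw [Finset.expect_comm]
    refine Finset.expect_congr rfl fun y _ => ?_
    rw [Finset.expect_comm]
    exact Finset.expect_congr rfl fun y' _ => Finset.expect_congr rfl fun x _ => by ring
  have h4 := sq_expect_mul_le (fun z : X × X => b z.1 * b z.2)
    (fun z => 𝔼 x, f (m x z.1) * f (m x z.2)) fun z => by
      rw [abs_mul]
      exact mul_le_one₀ (hb1 _) (abs_nonneg _) (hb1 _)
  have h5 : 𝔼 z : X × X, (𝔼 x, f (m x z.1) * f (m x z.2)) ^ 2 = Box m f := by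
    have e1 : Box m f = 𝔼 x, 𝔼 y, 𝔼 y', 𝔼 x', f (m x y) * f (m x' y') * f (m x y') *
        f (m x' y) := by
      rw [Box, mix_one hm]
      refine Finset.expect_congr rfl fun x _ => Finset.expect_congr rfl fun y _ => ?_
      rw [mix_one hm, Finset.expect_comm]
      simp only [hm.left, hm.right]
    rw [e1, Finset.expect_comm]
    simp only [sq, Finset.expect_mul_expect, expect_prod']
    refine Finset.expect_congr rfl fun y _ => ?_
    rw [Finset.expect_comm (s := Finset.univ) (t := Finset.univ)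
      (f := fun x y' => 𝔼 x', f (m x y) * f (m x' y') * f (m x y') * f (m x' y))]
    exact Finset.expect_congr rfl fun y' _ => Finset.expect_congr rfl fun x _ =>
      Finset.expect_congr rfl fun x' _ => by ring
  rw [h1, show (4 : ℕ) = 2 * 2 from rfl, pow_mul, sq_abs, ← h5]
  refine (pow_le_pow_left₀ (sq_nonneg _) h2 2).trans ?_
  rw [h3]
  exact h4

theorem box_data {X T : Type} [Fintype X] [Nonempty X] [Fintype T] (m : X → X → X) (hm : IsMix m)
    (f W : X → ℝ) (D : X → T) (hD : ∀ x y, D (m x y) = D x)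
    (hW : ∀ x y z, D x = D y → W (m x z) = W (m y z)) (hW1 : ∀ x, |W x| ≤ 1) :
    |𝔼 x, f x * W x| ^ 4 ≤ (Fintype.card T : ℝ) ^ 4 * Box m f := by
  classical
  have hB : 0 ≤ Box m f := le_trans (by positivity)
    (box_lemma m hm f (fun _ => 1) (fun _ => 1) (fun _ _ => rfl) (fun _ _ => rfl) (by simp)
      (by simp))
  have key : ∀ d : T, |𝔼 x, f x * W x * ind (D x = d)| ^ 4 ≤ Box m f := by
    intro d
    by_cases hd : ∃ x₀, D x₀ = d
    · obtain ⟨x₀, rfl⟩ := hd
      have e : 𝔼 x, f x * W x * ind (D x = D x₀) =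
          𝔼 x, f x * ind (D x = D x₀) * W (m x₀ x) := by
        refine Finset.expect_congr rfl fun x _ => ?_
        by_cases h : D x = D x₀
        · rw [← hW x x₀ x h, hm.same]
          ring
        · rw [ind_neg h]
          ring
      rw [e]
      exact box_lemma m hm f _ _ (fun x y => by rw [hD]) (fun x y => by rw [hm.right])
        (fun _ => abs_ind_le_one _) fun _ => hW1 _
    · simp only [ind_neg fun h => hd ⟨_, h⟩]
      simpa using hB
  have e : 𝔼 x, f x * W x = ∑ d, 𝔼 x, f x * W x * ind (D x = d) := by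
    simp only [← Finset.expect_sum_comm, ← Finset.mul_sum, sum_ind_eq, mul_one]
  obtain ⟨x₀⟩ := ‹Nonempty X›
  obtain ⟨d, -, hd⟩ := Finset.exists_max_image Finset.univ
    (fun d => |𝔼 x, f x * W x * ind (D x = d)|) ⟨D x₀, Finset.mem_univ _⟩
  have h1 : |𝔼 x, f x * W x| ≤ Fintype.card T * |𝔼 x, f x * W x * ind (D x = d)| := by
    rw [e]
    refine (Finset.abs_sum_le_sum_abs _ _).trans ((Finset.sum_le_sum hd).trans ?_)
    simp
  refine (pow_le_pow_left₀ (abs_nonneg _) h1 4).trans ?_
  rw [mul_pow]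
  exact mul_le_mul_of_nonneg_left (key d) (by positivity)

end Vale.Agent.P060
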