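import Vale.Agent.P060.Basic

/-!
# Basis of the visible kernel (task KB)
Let Z be in the kernel (U (α 0) (Z 0) = U (α 1) (Z 1)); write Z i (p) = sum_x Z i x • p.eval x.
(1) evT with g 0 realising (f0 i, 0) (IsF0 with p = 1) and g 1, g 2 arbitrary (Nice1) gives
Z i (f0 i * X^a) = 0 for a ≤ K, so the moments mom (Z i) a, a ≤ K, satisfy the F-linear recurrence of
f0 i (degree < k): any F-linear combination of such moment sequences vanishing for a < k vanishes
for a ≤ K.  (2) evT (g, 1, 1) with pl_none gives Z 0 (pl (α 0) g) = Z 1 (pl (α 1) g), so with Nice1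
the moments ≤ K of one side vanish iff those of the other side do.  (3) Take a basis of the
ZMod 2-space of the visible moment tables (mom (Z i) a) (i, a ≤ K) and lift it to kernel elements.
Its size is ≤ k: ZMod 2-independent tables have F-independent first-k moment vectors on side 0
(Dedekind: in a shortest relation sum c_s m_s = 0 with c_1 = 1, compare the relation at 2a with the
square of the relation at a, using mom_two_mul and 2k ≤ K, to get a shorter relation with
coefficients sqrt (c_s + c_s^2); so all c_s lie in the prime field).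
-/

open Finset Polynomial
open scoped BigOperators

namespace Vale.Agent.P060

variable {P : Par} {F : Type} [Field F] [Fintype F] [DecidableEq F] [Algebra (ZMod 2) F]

namespace KBAux

omit [DecidableEq F]

/-- the functional on polynomials attached to a chain -/
noncomputable def lz (z : F → ZMod 2) : F[X] →ₗ[F] F where
  toFun p := ∑ x, z x • p.eval x
  map_add' p q := by simp [Finset.sum_add_distrib]
  map_smul' c p := by simp [Finset.mul_sum]

theorem lz_X_pow (z : F → ZMod 2) (a : ℕ) : lz z (X ^ a) = mom z a := by simp [lz, mom]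

omit [Fintype F] [Algebra (ZMod 2) F] in
theorem map_eq_zero_of_pow (L : F[X] →ₗ[F] F) {n : ℕ} (h : ∀ a < n, L (X ^ a) = 0) {p : F[X]}
    (hp : p.natDegree < n) : L p = 0 := by
  rw [p.as_sum_range' n hp, map_sum]
  refine Finset.sum_eq_zero fun a ha => ?_
  rw [← smul_X_eq_monomial, map_smul, h a (mem_range.1 ha), smul_zero]

omit [Fintype F] [Algebra (ZMod 2) F] in
theorem extend (L : F[X] →ₗ[F] F) {f : F[X]} {k K : ℕ} (hf : f ≠ 0) (hk : f.natDegree < k)
    (h1 : ∀ a ≤ K, L (f * X ^ a) = 0) (h2 : ∀ a < k, L (X ^ a) = 0) {a : ℕ} (ha : a ≤ K) :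
    L (X ^ a) = 0 := by
  rw [← EuclideanDomain.div_add_mod (X ^ a) f, map_add]
  have h3 : L (f * (X ^ a / f)) = 0 :=
    map_eq_zero_of_pow (L ∘ₗ LinearMap.mulLeft F f) (n := K + 1) (fun a ha => h1 a (by omega)) (by
      have := natDegree_le_natDegree (degree_div_le (X ^ a : F[X]) f)
      rw [natDegree_X_pow] at this
      omega)
  have h4 : L (X ^ a % f) = 0 := map_eq_zero_of_pow L h2 (by
    have := natDegree_le_natDegree (degree_mod_lt (X ^ a : F[X]) hf).le
    omega)
  rw [h3, h4, add_zero]

theorem dedekind {ι : Type} [Fintype ι] (m : ι → ℕ → F) {k : ℕ}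
    (hsq : ∀ s a, m s (2 * a) = m s a ^ 2)
    (hext : ∀ c : ι → F, (∀ a < k, ∑ s, c s * m s a = 0) → ∀ a < k, ∑ s, c s * m s (2 * a) = 0)
    (hind : ∀ c : ι → ZMod 2, (∀ a < k, ∑ s, c s • m s a = 0) → c = 0) (n : ℕ) :
    ∀ c : ι → F, (∀ a < k, ∑ s, c s * m s a = 0) → (Function.support c).ncard ≤ n → c = 0 := by
  classical
  have : CharP F 2 := charP_two
  induction n with
  | zero =>
    intro c _ h
    rwa [Nat.le_zero, Set.ncard_eq_zero, Function.support_eq_empty_iff] at h
  | succ n ih =>
    intro c hc h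
    by_contra h0
    obtain ⟨s0, hs0⟩ := Function.ne_iff.1 h0
    rw [Pi.zero_apply] at hs0
    choose d hd using fun s => exists_sq_root (c s / c s0)
    have h1 : ∀ a < k, ∑ s, d s ^ 2 * m s a = 0 := fun a ha => by
      simp only [hd, div_mul_eq_mul_div]
      rw [← Finset.sum_div, hc a ha, zero_div]
    have h2 : ∀ a < k, ∑ s, d s * m s a = 0 := fun a ha => by
      have h3 := hext _ h1 a ha
      simp only [hsq, ← mul_pow] at h3
      rwa [← CharTwo.sum_sq, sq_eq_zero_iff] at h3
    have h3 : d s0 = 1 := by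
      have h4 := hd s0
      rw [div_self hs0, sq_eq_one_iff, CharTwo.neg_eq, or_self] at h4
      exact h4
    have h4 := ih (fun s => d s ^ 2 - d s) (fun a ha => by
      simp only [sub_mul]
      rw [Finset.sum_sub_distrib, h1 a ha, h2 a ha, sub_self]) (by
      have h5 : (Function.support fun s => d s ^ 2 - d s) ⊂ Function.support c := by
        refine ⟨fun s hs h6 => hs ?_, fun h6 => h6 hs0 (by simp [h3])⟩
        have h7 := hd s
        rw [h6, zero_div, sq_eq_zero_iff] at h7
        simp [h7]
      have := Set.ncard_lt_ncard h5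
      omega)
    have h5 := hind (fun s => if d s = 0 then 0 else 1) fun a ha => by
      refine Eq.trans (Finset.sum_congr rfl fun s _ => ?_) (h2 a ha)
      split_ifs with h6
      · simp [h6]
      · have h8 : d s ^ 2 - d s = 0 := congrFun h4 s
        have h7 : d s * (d s - 1) = 0 := by linear_combination h8
        rw [sub_eq_zero.1 ((mul_eq_zero.1 h7).resolve_left h6), one_smul, one_mul]
    simpa [h3] using congrFun h5 s0

/-- the kernel -/
def ker (α : Bool → Cur P F) : Submodule (ZMod 2) (Bool → F → ZMod 2) where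
  carrier := {Z | U (α false) (Z false) = U (α true) (Z true)}
  zero_mem' := by simp [U]
  add_mem' := by
    intro a b ha hb
    simp only [Set.mem_ofPred_eq, Pi.add_apply, U_add] at ha hb ⊢
    rw [ha, hb]
  smul_mem' := by
    intro c a ha
    simp only [Set.mem_ofPred_eq, Pi.smul_apply, U_smul] at ha ⊢
    rw [ha]

/-- the table of visible moments -/
def tab (P : Par) : (Bool → F → ZMod 2) →ₗ[ZMod 2] (Bool → Fin (P.K + 1) → F) where
  toFun Z i a := mom (Z i) a
  map_add' a b := by funext i a; simp [mom_add]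
  map_smul' a b := by funext i a; simp [mom_smul]

theorem ker_evT {α : Bool → Cur P F} {Z : Bool → F → ZMod 2} (hZ : Z ∈ ker α) (g g' : HV P F)
    (i j : Bool) : lz (Z i) (pl (α i) g * pl (α i) g') = lz (Z j) (pl (α j) g * pl (α j) g') := by
  have h : ∀ i, lz (Z i) (pl (α i) g * pl (α i) g') =
      evT ![g, g', fun o => o.elim 1 fun _ => 0] (U (α i) (Z i)) := by
    intro i
    rw [evT_U, Fin.prod_univ_three]
    simp only [Matrix.cons_val_zero, Matrix.cons_val_one, Matrix.cons_val, pl_none, mul_one]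
    rfl
  have h' : U (α false) (Z false) = U (α true) (Z true) := hZ
  rw [h, h]
  cases i <;> cases j <;> simp only [h']

theorem ker_rec {α : Bool → Cur P F} (h : NiceK α) {Z : Bool → F → ZMod 2} (hZ : Z ∈ ker α)
    {i : Bool} {f : F[X]} (hf : IsF0 α i f) {a : ℕ} (ha : a ≤ P.K) : lz (Z i) (f * X ^ a) = 0 := by
  obtain ⟨g, h1, h2⟩ := hf.2.2 1 (by simp)
  obtain ⟨g', h3⟩ := (h i).1 (X ^ a) (by simpa using ha)
  have := ker_evT hZ g g' i (!i)
  rwa [h1, h2, h3, mul_one, zero_mul, map_zero] at this

theorem ker_zero {α : Bool → Cur P F} (h : NiceK α) {Z : Bool → F → ZMod 2} (hZ : Z ∈ ker α)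
    {i : Bool} (h0 : ∀ a < P.k, mom (Z i) a = 0) : tab P Z = 0 := by
  obtain ⟨f, hf⟩ := (h i).2
  funext j a
  obtain ⟨g, hg⟩ := (h j).1 (X ^ (a : ℕ)) (by simpa using Nat.lt_succ_iff.1 a.2)
  have h1 := ker_evT hZ g (fun o => o.elim 1 fun _ => 0) j i
  rw [pl_none, pl_none, mul_one, mul_one, hg, lz_X_pow] at h1
  refine h1.trans (map_eq_zero_of_pow _ (n := P.K + 1) (fun b hb => ?_)
    (Nat.lt_succ_of_le (pl_natDegree _ _)))
  exact extend _ hf.1 hf.2.1 (fun a ha => ker_rec h hZ hf ha)
    (fun a ha => by rw [lz_X_pow, h0 a ha]) (Nat.lt_succ_iff.1 hb)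

end KBAux

open KBAux in
theorem exists_isKB (hP : P.Ok) (α : Bool → Cur P F) (h : NiceK α) : ∃ D, IsKB α D := by
  let b := Module.finBasis (ZMod 2) ((ker α).map (tab P))
  choose Φ hΦ hb using fun s => (b s).2
  have hcomb : ∀ c, KD.comb ⟨_, Φ⟩ c = ∑ s, c s • Φ s := fun c => by
    funext i
    simp [KD.comb, Finset.sum_apply]
  have htab : ∀ c : _ → ZMod 2, tab P (∑ s, c s • Φ s) =
      Subtype.val (∑ s, c s • b s) := fun c => by
    simp [hb]
  have hind : ∀ c : _ → ZMod 2, ∀ i, (∀ a < P.k, mom ((∑ s, c s • Φ s) i) a = 0) → c = 0 := by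
    intro c i h0
    have h1 := ker_zero h (Submodule.sum_mem _ fun s _ => Submodule.smul_mem _ (c s) (hΦ s)) h0
    rw [htab, Submodule.coe_eq_zero] at h1
    exact funext (Fintype.linearIndependent_iff.1 b.linearIndependent c h1)
  refine ⟨⟨_, Φ⟩, ?_, hΦ, fun Z hZ => ⟨b.repr ⟨_, Z, hZ, rfl⟩, fun i a ha => ?_⟩,
    fun c hc i => ?_⟩
  · obtain ⟨f, hf⟩ := (h false).2
    have h1 : LinearIndependent F fun s (a : Fin P.k) => mom (Φ s false) a := by
      refine Fintype.linearIndependent_iff.2 fun c hc => congrFun (dedekind (k := P.k)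
        (fun s => mom (Φ s false)) (fun s => mom_two_mul _) (fun c hc a ha => ?_)
        (fun c hc => hind c false fun a ha => ?_) _ c (fun a ha => ?_) le_rfl)
      · have := hP.K_ge
        have h2 := extend (∑ s, c s • lz (Φ s false)) hf.1 hf.2.1 (K := P.K)
          (fun a ha => by simp [ker_rec h (hΦ _) hf ha])
          (fun a ha => by simpa [lz_X_pow] using hc a ha) (a := 2 * a) (by omega)
        simpa [lz_X_pow] using h2
      · rw [← hc a ha, Finset.sum_apply, mom_sum]
        simp only [Pi.smul_apply, mom_smul]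
      · simpa [Finset.sum_apply] using congrFun hc ⟨a, ha⟩
    simpa using h1.fintype_card_le_finrank
  · have h1 := htab (b.repr ⟨_, Z, hZ, rfl⟩)
    rw [b.sum_repr, ← hcomb] at h1
    exact (congrFun (congrFun h1 i) ⟨a, Nat.lt_succ_of_le ha⟩).symm
  · by_contra h0
    push Not at h0
    rw [hcomb] at h0
    exact hc (hind c i h0)

theorem isKB_kb (hP : P.Ok) (α : Bool → Cur P F) (h : NiceK α) : IsKB α (kb α) := by
  have := exists_isKB hP α h
  simp only [kb, dif_pos this]
  exact this.choose_spec

end Vale.Agent.P060
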