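import Vale.Agent.P060.Basic

/-!
# Weyl differencing in characteristic two (task Weyl)
Reduction: tr (c x^(2a)) = tr (sqrt c x^a), so every p has a reduced form p' (degree not larger, all
even coefficients except the constant vanish, same trace function).  Track the odd-part coefficient:
for odd e let C e p = the coefficient of x^e in the reduced form; (C e p)^(2^j0) is the sum over
j ≤ j0 of (coeff (e 2^j))^(2^(j0-j)) when the degree is < e 2^(j0+1).  Main claim by strong induction
on d: if some C e p ≠ 0 (e odd) then |bias| ≤ ε d q with ε d q → 0.  Assume p reduced of odd degree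
D with leading coefficient c.  D = 1: bias 0.  D ≥ 3: bias^2 = avg_h bias (x ↦ tr (p (x+h) + p x)),
the difference has degree ≤ D - 1 = e 2^j, its coefficient at D - 1 is c h, and
(C e)^(2^j) is a polynomial in h of degree ≤ D^2 with derivative c ≠ 0 (the other terms are squares),
so it vanishes for at most D^2 values of h: ε D ^ 2 ≤ D^2 / q + ε (D-1).
If all C e vanish the trace function is constant.  (Any other correct proof is welcome.)
-/

open Finset Polynomial
open scoped BigOperators

namespace Vale.Agent.P060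

namespace WeylAux

def phi {R : Type} [CommRing R] (a : ℕ → R) : ℕ → R
  | 0 => a 0
  | n + 1 => phi a n ^ 2 + a (n + 1)

theorem map_phi {R S : Type} [CommRing R] [CommRing S] (f : R →+* S) (a : ℕ → R) (n : ℕ) :
    f (phi a n) = phi (fun j => f (a j)) n := by
  induction n with
  | zero => rfl
  | succ n ih => simp [phi, ih]

variable {F : Type} [Field F]

theorem natDegree_phi (a : ℕ → F[X]) {d : ℕ} (h : ∀ j, (a j).natDegree ≤ d) (n : ℕ) :
    (phi a n).natDegree ≤ 2 ^ n * d := by
  induction n with
  | zero => simpa [phi] using h 0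
  | succ n ih =>
    refine (natDegree_add_le _ _).trans (max_le (natDegree_pow_le.trans ?_) ((h _).trans ?_))
    · rw [pow_succ]; nlinarith
    · exact Nat.le_mul_of_pos_left _ (by positivity)

variable [CharP F 2]

theorem derivative_phi (a : ℕ → F[X]) (n : ℕ) : derivative (phi a n) = derivative (a n) := by
  cases n with
  | zero => rfl
  | succ n => rw [phi, derivative_add, derivative_sq, CharTwo.two_eq_zero, map_zero, zero_mul,
      zero_mul, zero_add]

theorem coeff_sq (s : F[X]) (n : ℕ) :
    (s ^ 2).coeff n = if 2 ∣ n then s.coeff (n / 2) ^ 2 else 0 := by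
  rw [← map_frobenius_expand 2, coeff_map, coeff_expand two_pos]
  split_ifs <;> simp [frobenius_def]

/-- polynomials whose trace function is constant for trivial reasons -/
def Triv (p : F[X]) : Prop := ∃ (s : F[X]) (b : F), p = s ^ 2 + s + C b

theorem Triv.phi_eq_zero {p : F[X]} (h : Triv p) {e : ℕ} (he : Odd e) (n : ℕ)
    (h0 : ∀ j, n < j → p.coeff (e * 2 ^ j) = 0) : phi (fun j => p.coeff (e * 2 ^ j)) n = 0 := by
  obtain ⟨s, b, rfl⟩ := h
  have hpos : ∀ j, e * 2 ^ j ≠ 0 := fun j => by have := he.pos; positivity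
  have h1 : ∀ j, (s ^ 2 + s + C b).coeff (e * 2 ^ (j + 1)) =
      s.coeff (e * 2 ^ j) ^ 2 + s.coeff (e * 2 ^ (j + 1)) := by
    intro j
    rw [coeff_add, coeff_add, coeff_C, if_neg (hpos _), add_zero, coeff_sq,
      if_pos ⟨e * 2 ^ j, by ring⟩, show e * 2 ^ (j + 1) / 2 = e * 2 ^ j by
        rw [pow_succ, ← mul_assoc]; omega]
  have h2 : ∀ m, phi (fun j => (s ^ 2 + s + C b).coeff (e * 2 ^ j)) m = s.coeff (e * 2 ^ m) := by
    intro m
    induction m with
    | zero =>
      show (s ^ 2 + s + C b).coeff (e * 2 ^ 0) = _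
      rw [coeff_add, coeff_add, coeff_C, if_neg (hpos _), add_zero, coeff_sq, if_neg, zero_add]
      simpa using he.not_two_dvd_nat
    | succ m ih => rw [phi, ih, h1, ← add_assoc, CharTwo.add_self_eq_zero, zero_add]
  rw [h2]
  by_contra hne
  have h3 : ∀ m, s.coeff (e * 2 ^ (n + m)) ≠ 0 := by
    intro m
    induction m with
    | zero => exact hne
    | succ m ih =>
      intro h4
      have := h0 (n + m + 1) (by omega)
      rw [h1, ← add_assoc n] at *
      rw [h4, add_zero] at this
      exact ih (pow_eq_zero_iff two_ne_zero |>.1 this)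
  refine h3 s.natDegree (coeff_eq_zero_of_natDegree_lt ?_)
  calc s.natDegree < 2 ^ s.natDegree := Nat.lt_two_pow_self
    _ ≤ 2 ^ (n + s.natDegree) := Nat.pow_le_pow_right two_pos (by omega)
    _ ≤ _ := Nat.le_mul_of_pos_left _ he.pos

/-- the differences of a polynomial of odd degree are rarely trivial -/
theorem exists_bad {p : F[X]} {D : ℕ} (hD : Even D) (hD0 : D ≠ 0) (hp : p.natDegree ≤ D + 1)
    (hc : p.coeff (D + 1) ≠ 0) : ∃ G : F[X], G ≠ 0 ∧ G.natDegree ≤ D * (D + 1) ∧
      ∀ h, (taylor h p + p).natDegree ≤ D ∧ (Triv (taylor h p + p) → G.eval h = 0) := by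
  obtain ⟨n, e, he, hn⟩ := Nat.exists_eq_two_pow_mul_odd hD0
  refine ⟨phi (fun j => hasseDeriv (e * 2 ^ j) p + C (p.coeff (e * 2 ^ j))) n, fun h0 => ?_,
    (natDegree_phi _ (d := D + 1) (fun j => ?_) n).trans (Nat.mul_le_mul_right _ ?_), fun h => ?_⟩
  · have h1 := congrArg (fun q => (derivative q).coeff 0) h0
    simp only [derivative_phi, derivative_add, derivative_C, add_zero, coeff_derivative,
      hasseDeriv_coeff, mul_comm e, ← hn, coeff_zero, zero_add] at h1
    rw [add_comm 1 D, Nat.choose_succ_self_right] at h1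
    have h2 : ((D + 1 : ℕ) : F) = 1 := by
      rw [Nat.cast_succ, (CharP.cast_eq_zero_iff F 2 D).2 hD.two_dvd, zero_add]
    simp [h2, hc] at h1
  · rw [natDegree_add_C]
    exact (natDegree_hasseDeriv_le _ _).trans (by omega)
  · rw [hn]
    exact Nat.le_mul_of_pos_right _ he.pos
  · have hd : (taylor h p + p).natDegree ≤ D := by
      refine natDegree_le_iff_coeff_eq_zero.2 fun N hN => ?_
      have h1 : (hasseDeriv N p).natDegree ≤ 0 := (natDegree_hasseDeriv_le _ _).trans (by omega)
      rw [coeff_add, taylor_coeff, eq_C_of_natDegree_le_zero h1, eval_C, hasseDeriv_coeff]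
      simp [CharTwo.add_self_eq_zero]
    refine ⟨hd, fun hT => ?_⟩
    have h1 := hT.phi_eq_zero he n fun j hj => coeff_eq_zero_of_natDegree_lt (hd.trans_lt (by
      rw [hn, mul_comm]
      exact Nat.mul_lt_mul_of_pos_left (Nat.pow_lt_pow_right one_lt_two hj) he.pos))
    rw [← coe_evalRingHom, map_phi, ← h1]
    congr 1
    funext j
    simp [taylor_coeff]

end WeylAux

namespace WeylAux

variable {F : Type} [Field F] [Fintype F] [Algebra (ZMod 2) F]

theorem tr_sq_add (p s : F[X]) (x : F) : tr ((p + s ^ 2 + s).eval x) = tr (p.eval x) := by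
  rw [eval_add, eval_add, eval_pow, tr_add, tr_add, tr_sq, add_assoc, zmod2_add_self, add_zero]

omit [Algebra (ZMod 2) F] in
theorem bias_sq (g : F → ZMod 2) : bias g ^ 2 = 𝔼 h, bias fun x => g (x + h) + g x := by
  simp only [bias, sgn_add]
  rw [Finset.expect_comm, sq, Finset.mul_expect]
  refine Finset.expect_congr rfl fun x _ => ?_
  rw [← Finset.expect_mul, ← expect_add_right (fun h => sgn (g h)) x]
  simp only [add_comm]

omit [Algebra (ZMod 2) F] in
theorem expect_root_le {G : F[X]} (h : G ≠ 0) :
    𝔼 x : F, ind (G.eval x = 0) ≤ G.natDegree / (Fintype.card F : ℝ) := by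
  classical
  rw [Finset.expect_eq_sum_div_card, sum_ind_eq_card, card_univ]
  gcongr
  exact card_le_degree_of_subset_roots fun x hx => (mem_roots h).2 (by simpa using hx)

theorem main (D : ℕ) : ∀ ε : ℝ, 0 < ε → ∃ q1 : ℕ,
    ∀ (F : Type) [Field F] [Fintype F] [Algebra (ZMod 2) F], q1 ≤ Fintype.card F →
      ∀ p : F[X], p.natDegree ≤ D → Triv p ∨ |bias fun x => tr (p.eval x)| ≤ ε := by
  induction D with
  | zero =>
    exact fun ε _ => ⟨0, fun F _ _ _ _ p hp =>
      Or.inl ⟨0, p.coeff 0, by simpa using eq_C_of_natDegree_le_zero hp⟩⟩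
  | succ D ih =>
    intro ε hε
    obtain ⟨q1, h1⟩ := ih ε hε
    obtain ⟨q2, h2⟩ := ih (ε ^ 2 / 2) (by positivity)
    obtain ⟨q3, h3⟩ := exists_nat_ge ((D * (D + 1) : ℕ) / (ε ^ 2 / 2) : ℝ)
    refine ⟨q1 + q2 + q3, fun F _ _ _ hq p hp => ?_⟩
    have : CharP F 2 := charP_two
    by_cases hc : p.coeff (D + 1) = 0
    · refine h1 F (by omega) p (natDegree_le_iff_coeff_eq_zero.2 fun N hN => ?_)
      rcases Nat.eq_or_lt_of_le hN with rfl | hN
      · exact hc
      · exact coeff_eq_zero_of_natDegree_lt (by omega)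
    rcases Nat.even_or_odd' D with ⟨a, ha | ha⟩
    · right
      rcases eq_or_ne D 0 with rfl | hD0
      · obtain ⟨c, b, rfl⟩ := exists_eq_X_add_C_of_natDegree_le_one hp
        have hc' : c ≠ 0 := by simpa using hc
        let φ : F →+ ZMod 2 := ⟨⟨fun x => tr (x * c), by simp [tr_zero]⟩,
          fun x y => by simp [add_mul, tr_add]⟩
        have h4 := expect_sgn_hom φ
        rw [ind_neg fun h => hc' (tr_nondeg fun y => DFunLike.congr_fun h y)] at h4
        have h5 : (fun x => tr ((C c * X + C b).eval x)) = fun x => φ x + tr b := by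
          funext x
          rw [eval_add, eval_mul, eval_C, eval_X, eval_C, tr_add, mul_comm]
          rfl
        rw [h5, bias_add_const, bias, h4, zero_mul, abs_zero]
        exact hε.le
      obtain ⟨G, hG0, hG, hb⟩ := exists_bad ⟨a, by omega⟩ hD0 hp hc
      have hq0 : (0 : ℝ) < Fintype.card F := by exact_mod_cast Fintype.card_pos
      refine abs_le_of_sq_le_sq' ?_ hε.le |> abs_le.2
      rw [bias_sq]
      calc _ ≤ 𝔼 h : F, (ind (G.eval h = 0) + ε ^ 2 / 2) := expect_mono fun h => by
            have h4 : (fun x => tr (p.eval (x + h)) + tr (p.eval x)) =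
                fun x => tr ((taylor h p + p).eval x) := by
              funext x
              rw [eval_add, taylor_eval, tr_add]
            rw [h4]
            rcases h2 F (by omega) _ (hb h).1 with h5 | h5
            · rw [ind_pos ((hb h).2 h5)]
              have := (abs_le.1 (abs_bias_le fun x => tr ((taylor h p + p).eval x))).2
              nlinarith [sq_nonneg ε]
            · have := ind_nonneg (G.eval h = 0)
              linarith [(abs_le.1 h5).2]
        _ ≤ ε ^ 2 / 2 + ε ^ 2 / 2 := by
            rw [Finset.expect_add_distrib, Finset.expect_const univ_nonempty]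
            refine add_le_add_left ((expect_root_le hG0).trans ?_) _
            rw [div_le_iff₀ (by positivity)] at h3
            rw [div_le_iff₀ hq0]
            have h5 : (q3 : ℝ) ≤ Fintype.card F := by exact_mod_cast (by omega)
            have h6 : (G.natDegree : ℝ) ≤ (D * (D + 1) : ℕ) := by exact_mod_cast hG
            nlinarith [sq_nonneg ε]
        _ = _ := by ring
    · obtain ⟨r, hr⟩ := exists_sq_root (p.coeff (D + 1))
      have hd : (p + monomial (a + 1) r ^ 2 + monomial (a + 1) r).natDegree ≤ D := by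
        refine natDegree_le_iff_coeff_eq_zero.2 fun N hN => ?_
        rw [monomial_pow, coeff_add, coeff_add, coeff_monomial, coeff_monomial,
          if_neg (by omega : ¬ a + 1 = N), add_zero, hr]
        rcases Nat.eq_or_lt_of_le hN with rfl | hN
        · rw [if_pos (by omega), CharTwo.add_self_eq_zero]
        · rw [if_neg (by omega), add_zero]
          exact coeff_eq_zero_of_natDegree_lt (by omega)
      rcases h1 F (by omega) _ hd with ⟨s, b, h⟩ | h
      · refine Or.inl ⟨s + monomial (a + 1) r, b, ?_⟩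
        rw [CharTwo.add_sq]
        have h4 := CharTwo.add_self_eq_zero (monomial (a + 1) r ^ 2 + monomial (a + 1) r)
        linear_combination h - h4
      · simp only [tr_sq_add] at h
        exact Or.inr h

end WeylAux

open WeylAux in
theorem weyl (d : ℕ) (ε : ℝ) (hε : 0 < ε) : ∃ q1 : ℕ,
    ∀ (F : Type) [Field F] [Fintype F] [Algebra (ZMod 2) F], q1 ≤ Fintype.card F →
      Weyl F d ε := by
  obtain ⟨q1, h⟩ := main d ε hε
  refine ⟨q1, fun F _ _ _ hq => ⟨fun p hp => (h F hq p hp).imp_left ?_,
    fun p hp e he h0 h1 => (h F hq p hp).resolve_left fun hT => h0 ?_⟩⟩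
  · rintro ⟨s, b, rfl⟩
    refine ⟨tr b, fun x => ?_⟩
    rw [add_comm, ← add_assoc, tr_sq_add, eval_C]
  · have : CharP F 2 := charP_two
    simpa [phi] using hT.phi_eq_zero he 0 h1

theorem ev_weyl (P : Par) (ε : ℝ) (hε : 0 < ε) :
    Ev P fun F _ _ _ _ _ => Weyl F (3 * P.K) ε := by
  obtain ⟨q1, h⟩ := weyl (3 * P.K) ε hε
  exact ⟨q1, fun F _ _ _ _ hq _ _ => h F hq⟩

end Vale.Agent.P060
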