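import Vale.Agent.P060.Equi
import Vale.Agent.P060.KB
import Vale.Agent.P060.Weyl

/-!
# Label probabilities for one unit (task LabP)
gen_prob: union over i and (co, e) ≠ 0 (at most 2^(4k+1) each).  If co = 0 then e = 1 and the event is
empty (r ≥ 1).  Otherwise pick (j, h) with co j h ≠ 0, fix all labels but y = ω (i,j) (!h)
(expect_update twice); the vector l ↦ Bf l (comb (co j h) i) (dl y) must equal a fixed vector, which
has probability ≤ 1/2^r + ε by equi, bf_bias (zs l = d l • comb) and IsKB.indep.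
oc_prob: union over a, j, h; fix all labels but the own label ω (a, j) h; equi with G4, fp_eval and
Weyl.odd at e = 3K (odd; higher coefficients vanish by fp_natDegree).
typ_prob: 4 coincidences of probability 1/q and 8 root events of probability ≤ k/q (f0_spec).
bbox: Box mixH of sgn (d · bb) is the average over ω, ω' of sgn of
sum d i j' j l * Bf l (dl (ω (i,j') 1) + dl (ω' (i,j') 1)) (dl (ω (i,j) 0) + dl (ω' (i,j) 0)).  Pick
d i j' j l ≠ 0 and fix everything but y = ω (i,j') 1: up to a constant this is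
sum_l Bf l (zs l) (dl y), zs l = sum_j d i j' j l • (dl (ω (i,j) 0) + dl (ω' (i,j) 0)), whose first moment
is nonzero except with probability 1/q; then bf_bias (k ≥ 2).
-/

open Finset Polynomial
open scoped BigOperators

namespace Vale.Agent.P060

variable {P : Par} {F : Type} [Field F] [Fintype F] [DecidableEq F] [Algebra (ZMod 2) F]

namespace LabPAux

omit [DecidableEq F] [Algebra (ZMod 2) F]

/-- change one label -/
def upd (ω : Lab F) (s : Bool × Bool) (h : Bool) (y : F) : Lab F :=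
  fun s' h' => if s' = s ∧ h' = h then y else ω s' h'

theorem expect_upd (f : Lab F → ℝ) (s : Bool × Bool) (h : Bool) :
    𝔼 ω, f ω = 𝔼 ω, 𝔼 y, f (upd ω s h y) := by
  rw [expect_update s f, expect_update s fun ω => 𝔼 y, f (upd ω s h y)]
  refine Finset.expect_congr rfl fun ω _ => ?_
  rw [expect_update h fun a => f (Function.update ω s a)]
  refine Finset.expect_congr rfl fun a _ => Finset.expect_congr rfl fun y _ => congrArg f ?_
  funext s' h'
  by_cases h1 : s' = s <;> by_cases h2 : h' = h <;> simp [upd, h1, h2]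

theorem le_of_upd (f : Lab F → ℝ) (s : Bool × Bool) (h : Bool) {c : ℝ} (hc : 0 ≤ c)
    (H : ∀ ω, 𝔼 y, f (upd ω s h y) ≤ c) : 𝔼 ω, f ω ≤ c := by
  rw [expect_upd f s h]
  exact expect_le_of_le hc H

omit [Fintype F] in
theorem sum_upd {M : Type} [AddCommMonoid M] (T : Bool → Bool → F → M) (w : F → Bool → Bool → F)
    (i j : Bool) (h1 : ∀ a, w a i j = a)
    (h2 : ∀ a i' j', (i', j') ≠ (i, j) → w a i' j' = w 0 i' j') :
    ∃ R, ∀ a, ∑ i', ∑ j', T i' j' (w a i' j') = T i j a + R := by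
  refine ⟨∑ p ∈ univ.erase (i, j), T p.1 p.2 (w 0 p.1 p.2), fun a => ?_⟩
  rw [← Fintype.sum_prod_type', ← Finset.add_sum_erase _ _ (mem_univ (i, j)), h1]
  congr 1
  exact Finset.sum_congr rfl fun p hp => by rw [h2 a p.1 p.2 (Finset.ne_of_mem_erase hp)]

theorem union_le {X ι : Type} [Fintype X] [Fintype ι] (p : X → Prop) (q : ι → X → Prop)
    (h : ∀ x, p x → ∃ i, q i x) {c : ℝ} (hc : ∀ i, 𝔼 x, ind (q i x) ≤ c) :
    𝔼 x, ind (p x) ≤ Fintype.card ι * c := by
  refine (expect_mono fun x => (ind_mono (h x)).trans (ind_exists_le _)).trans ?_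
  rw [Finset.expect_sum_comm]
  exact (Finset.sum_le_sum fun i _ => hc i).trans (by simp)

theorem equi_le {X ι : Type} [Fintype X] [Nonempty X] [Fintype ι] [DecidableEq ι]
    (g : X → ι → ZMod 2) {ε : ℝ} (hε : 0 ≤ ε)
    (h : ∀ d : ι → ZMod 2, d ≠ 0 → |bias fun x => ∑ l, d l * g x l| ≤ ε) (v : ι → ZMod 2)
    (p : X → Prop) (hp : ∀ x, p x → g x = v) :
    𝔼 x, ind (p x) ≤ 1 / 2 ^ Fintype.card ι + ε := by
  have h1 := (abs_le.1 (equi g ε hε h v)).2
  have h2 := expect_mono fun x => ind_mono (hp x)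
  linarith

theorem exists_eq_one {ι : Type} {d : ι → ZMod 2} (hd : d ≠ 0) : ∃ l, d l = 1 := by
  obtain ⟨l, hl⟩ := Function.ne_iff.1 hd
  exact ⟨l, (zmod2_cases _).resolve_left hl⟩

end LabPAux

open LabPAux

theorem gen_prob (hP : P.Ok) {ε : ℝ} (hε0 : 0 ≤ ε) (hW : Weyl F (3 * P.K) ε) (c : UC P F)
    (hN : ∀ h, NiceK (cur c h)) :
    𝔼 ω, ind (¬ Gen c ω) ≤ 2 ^ (4 * P.k + 2) * (1 / 2 ^ P.r + ε) := by
  have hB : (0 : ℝ) ≤ 1 / 2 ^ P.r + ε := by positivity
  refine (union_le _
    (fun (t : Bool × (Bool → (h : Bool) → Fin (kd c h) → ZMod 2) × ZMod 2) (ω : Lab F) =>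
      (∀ l, ∑ j, ∑ h, ∑ s, t.2.1 j h s * cl c t.1 h (ω (t.1, j) (!h)) s l + t.2.2 = 0) ∧
        ¬ (t.2.1 = 0 ∧ t.2.2 = 0)) (fun ω h => ?_) (c := 1 / 2 ^ P.r + ε) ?_).trans ?_
  · simp only [Gen, not_forall] at h
    obtain ⟨i, co, e, h1, h2⟩ := h
    exact ⟨(i, co, e), h1, h2⟩
  · rintro ⟨i, co, e⟩
    by_cases hco : co = 0
    · refine expect_le_of_le hB fun ω => (ind_neg fun h => h.2 ⟨hco, ?_⟩).trans_le hB
      have := hP.hr
      simpa [hco] using h.1 ⟨0, by omega⟩
    obtain ⟨j, hj⟩ := Function.ne_iff.1 hco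
    obtain ⟨h, hh⟩ := Function.ne_iff.1 hj
    refine le_of_upd _ (i, j) (!h) hB fun ω => ?_
    obtain ⟨R, hR⟩ := sum_upd (fun j h y l => ∑ s, co j h s * cl c i h y s l)
      (fun y j' h' => upd ω (i, j) (!h) y (i, j') (!h')) j h (by simp [upd])
      (by cases j <;> cases h <;> simp [upd])
    have key := equi_le (fun y l => ∑ s, co j h s * cl c i h y s l) hε0 (fun d hd => ?_)
      (fun l => R l + e) _ (fun y (hy : (∀ l, ∑ j', ∑ h', ∑ s, co j' h' s *
        cl c i h' (upd ω (i, j) (!h) y (i, j') (!h')) s l + e = 0) ∧ ¬ (co = 0 ∧ e = 0)) => ?_)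
    · rwa [Fintype.card_fin] at key
    · obtain ⟨l, hl⟩ := exists_eq_one hd
      obtain ⟨a, ha, h1⟩ := (isKB_kb hP _ (hN h)).indep (co j h) hh i
      have h2 := bf_bias hP hW (fun l => d l • (kb (cur c h)).comb (co j h) i)
        ⟨l, a, ha, by rwa [hl, one_smul]⟩
      simp only [KD.comb, Bf_smul_left, Bf_sum_left] at h2
      exact h2
    · funext l
      have h1 := congrFun (hR y) l
      have h2 := hy.1 l
      simp only [Finset.sum_apply, Pi.add_apply] at h1
      rw [h1, add_assoc, add_eq_zero_iff_eq_neg, ZMod.neg_eq_self_mod_two] at h2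
      exact h2
  · refine mul_le_mul_of_nonneg_right ?_ hB
    have h1 := Nat.pow_le_pow_right two_pos (kd_le c true)
    have h2 := Nat.pow_le_pow_right two_pos (kd_le c false)
    have h3 : Fintype.card (Bool × (Bool → (h : Bool) → Fin (kd c h) → ZMod 2) × ZMod 2) ≤
        2 ^ (4 * P.k + 2) := by
      simp only [Fintype.card_prod, Fintype.card_pi, Fintype.card_bool, ZMod.card,
        Finset.prod_const, card_univ, Fintype.card_fin, Fintype.prod_bool]
      calc _ ≤ 2 * ((2 ^ P.k * 2 ^ P.k) ^ 2 * 2) := by gcongr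
        _ = _ := by ring
    exact_mod_cast h3

omit [DecidableEq F] in
theorem oc_prob (hP : P.Ok) {ε : ℝ} (hε0 : 0 ≤ ε) (hW : Weyl F (3 * P.K) ε) (u : Un P F)
    (hG : ∀ i, G4 (u i)) :
    𝔼 ω, ind (¬ OC (prof (frm u) (key (crv u) ω))) ≤ 8 * (1 / 2 ^ P.R + ε) := by
  have hB : (0 : ℝ) ≤ 1 / 2 ^ P.R + ε := by positivity
  refine (union_le _ (fun (t : Bool × Bool × Bool) (ω : Lab F) => ∀ l : Fin P.R,
      ev ((u t.1).2 t.2.2 (some l)) (tau (pt ((u t.1).1 t.2.2) (ω (t.1, t.2.1) t.2.2))) =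
      ev ((u t.1).2 t.2.2 (some l)) (tau (pt ((u (!t.1)).1 t.2.2) (ω (!t.1, t.2.1) t.2.2))))
    (fun ω h => ?_) (c := 1 / 2 ^ P.R + ε) ?_).trans (by simp)
  · simp only [OC, not_forall, not_exists, not_not] at h
    obtain ⟨a, j, h, H⟩ := h
    refine ⟨(a, j, h), fun l => ?_⟩
    cases a
    · exact H l
    · exact (H l).symm
  · rintro ⟨a, j, h⟩
    refine le_of_upd _ (a, j) h hB fun ω => ?_
    have key := equi_le (fun y (l : Fin P.R) => ev ((u a).2 h (some l)) (tau (pt ((u a).1 h) y)))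
      hε0 (fun d hd => ?_)
      (fun l => ev ((u a).2 h (some l)) (tau (pt ((u (!a)).1 h) (ω (!a, j) h))))
      _ (fun y hy => funext hy)
    · simpa [upd] using key
    · have hK := hP.K_odd
      have h1 := hW.odd _ (fp_natDegree (∑ l, d l • (u a).2 h (some l)) ((u a).1 h)) (3 * P.K)
        (Odd.mul (by decide) hK) (hG a h d hd) fun j hj =>
          coeff_eq_zero_of_natDegree_lt ((fp_natDegree _ _).trans_lt
            ((Nat.lt_mul_iff_one_lt_right (by have := hK.pos; omega)).2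
              (Nat.one_lt_two_pow (by omega))))
      simpa only [fp_eval, ev_sum_left, ev_smul_left] using h1

omit [DecidableEq F] [Algebra (ZMod 2) F] in
theorem typ_prob (c : UC P F) (hN : ∀ h, NiceK (cur c h)) :
    𝔼 ω, ind (¬ Typ c ω) ≤ (4 + 8 * P.k) / (Fintype.card F : ℝ) := by
  have h1 := union_le (fun ω : Lab F => ∃ i h, ω (i, false) h = ω (i, true) h)
    (fun (t : Bool × Bool) ω => ω (t.1, false) t.2 = ω (t.1, true) t.2)
    (fun ω ⟨i, h, H⟩ => ⟨(i, h), H⟩) (c := 1 / Fintype.card F) fun t =>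
      le_of_upd _ (t.1, false) t.2 (by positivity) fun ω => by
        simpa [upd] using (expect_ind_eq (ω (t.1, true) t.2)).le
  have h2 := union_le (fun ω : Lab F => ∃ i h j, (f0 (cur c h) i).eval (ω (i, j) h) = 0)
    (fun (t : Bool × Bool × Bool) ω => (f0 (cur c t.2.1) t.1).eval (ω (t.1, t.2.2) t.2.1) = 0)
    (fun ω ⟨i, h, j, H⟩ => ⟨(i, h, j), H⟩) (c := P.k / Fintype.card F) fun t =>
      le_of_upd _ (t.1, t.2.2) t.2.1 (by positivity) fun ω => by
        have h3 := f0_spec (hN t.2.1) t.1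
        simp only [upd, and_self, if_true]
        refine (WeylAux.expect_root_le h3.1).trans ?_
        gcongr
        exact h3.2.1.le
  refine (expect_mono fun ω => (ind_mono (q := (∃ i h, ω (i, false) h = ω (i, true) h) ∨
    ∃ i h j, (f0 (cur c h) i).eval (ω (i, j) h) = 0) fun H => ?_).trans (ind_or_le _ _)).trans ?_
  · by_contra h3
    push Not at h3
    exact H fun i h => ⟨h3.1 i h, h3.2 i h⟩
  · rw [Finset.expect_add_distrib]
    refine (add_le_add h1 h2).trans (le_of_eq ?_)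
    simp only [Fintype.card_prod, Fintype.card_bool]
    push_cast
    ring

theorem bbox (hP : P.Ok) {ε : ℝ} (hε0 : 0 ≤ ε) (hW : Weyl F (3 * P.K) ε)
    (d : Bool → Bool → Bool → Fin P.r → ZMod 2) (hd : d ≠ 0) :
    |Box mixH fun ω : Lab F => sgn (∑ i, ∑ j', ∑ j, ∑ l, d i j' j l * bb P ω i j' j l)| ≤
      1 / (Fintype.card F : ℝ) + ε := by
  obtain ⟨i, hi⟩ := Function.ne_iff.1 hd
  obtain ⟨j', hj'⟩ := Function.ne_iff.1 hi
  obtain ⟨j, hj⟩ := Function.ne_iff.1 hj'
  obtain ⟨l, hl⟩ := exists_eq_one hj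
  obtain ⟨S, hS⟩ : ∃ S : Lab F → Lab F → ZMod 2, ∀ x y, S x y = ∑ i, ∑ j', ∑ j, ∑ l,
    d i j' j l * Bf P l (dl (x (i, j') true)) (dl (y (i, j) false)) := ⟨_, fun _ _ => rfl⟩
  have e0 : (Box mixH fun ω : Lab F => sgn (∑ i, ∑ j', ∑ j, ∑ l, d i j' j l * bb P ω i j' j l)) =
      𝔼 y, 𝔼 x, sgn (S x x + S x y + (S y y + S y x)) := by
    rw [Box, Finset.expect_comm]
    refine Finset.expect_congr rfl fun y _ => Finset.expect_congr rfl fun x _ => ?_
    simp only [hS, sgn_add, bb, mixH, if_true, Bool.false_eq_true, if_false]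
    ring
  have e1 : ∀ x y a, S x (upd y (i, j') true a) = S x y := fun x y a => by simp [hS, upd]
  have e2 : ∀ x y, ∃ R, ∀ a, S (upd x (i, j') true a) y =
      ∑ l, Bf P l (∑ j, d i j' j l • dl (y (i, j) false)) (dl a) + R := by
    intro x y
    obtain ⟨R, hR⟩ := sum_upd (fun i j' a => ∑ j, ∑ l, d i j' j l * Bf P l (dl a)
      (dl (y (i, j) false))) (fun a i₁ j₁ => upd x (i, j') true a (i₁, j₁) true) i j'
      (by simp [upd]) (by cases i <;> cases j' <;> simp [upd])
    refine ⟨R, fun a => ?_⟩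
    rw [hS, hR, Finset.sum_comm]
    simp only [Bf_sum_left, Bf_smul_left, Bf_comm _ (dl a)]
  rw [e0]
  refine abs_expect_le_of_le (by positivity) fun y => ?_
  rw [expect_upd _ (i, j') true]
  refine (abs_expect_le _).trans ((expect_mono (g := fun x : Lab F =>
    ind (∑ j, d i j' j l • (x (i, j) false + y (i, j) false) = 0) + ε) fun x => ?_).trans ?_)
  · obtain ⟨R, hR⟩ := e2 x x
    obtain ⟨R', hR'⟩ := e2 x y
    have h1 : 𝔼 a, sgn (S (upd x (i, j') true a) (upd x (i, j') true a) +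
        S (upd x (i, j') true a) y + (S y y + S y (upd x (i, j') true a))) =
        (bias fun a => ∑ l, Bf P l (∑ j, d i j' j l • dl (x (i, j) false) +
          ∑ j, d i j' j l • dl (y (i, j) false)) (dl a)) * sgn (R + R' + (S y y + S y x)) := by
      rw [← bias_add_const, bias]
      refine Finset.expect_congr rfl fun a _ => congrArg sgn ?_
      simp only [e1, hR, hR', Bf_add_left, Finset.sum_add_distrib]
      ring
    rw [h1, abs_mul, abs_sgn, mul_one]
    by_cases h2 : ∑ j, d i j' j l • (x (i, j) false + y (i, j) false) = 0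
    · rw [ind_pos h2]
      exact (abs_bias_le _).trans (le_add_of_nonneg_right hε0)
    · rw [ind_neg h2, zero_add]
      have := hP.hk
      refine bf_bias hP hW _ ⟨l, 1, by omega, ?_⟩
      simpa only [mom_add, mom_sum, mom_smul, mom_dl, pow_one, smul_add,
        Finset.sum_add_distrib] using h2
  · rw [Finset.expect_add_distrib, Finset.expect_const univ_nonempty]
    refine add_le_add_left (le_of_upd _ (i, j) false (by positivity) fun x => ?_) _
    refine (expect_mono fun a => ind_mono fun H => ?_).trans (expect_ind_eq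
      (-(y (i, j) false + d i j' (!j) l • (x (i, !j) false + y (i, !j) false)))).le
    cases j <;> simp only [Fintype.sum_bool, upd, hl, one_smul] at H <;> simp at H ⊢ <;>
      linear_combination H

end Vale.Agent.P060
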