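import Vale.Agent.P060.TP
import Vale.Agent.P060.Box
import Vale.Agent.P060.LabP
import Vale.Agent.P060.Weyl

/-!
# Prescribing the b vectors costs the factor 2^(-8r) (task BStep)
ind (bb ω = b*) is the average over d of sgn (d · bb ω) sgn (d · b*) (expect_sgn_dot on the index type
Bool × Bool × Bool × Fin r); d = 0 gives the main term.  For d ≠ 0 and fixed u apply box_data with
m = mixH, f ω = sgn (d · bb ω) g (key ω), W ω = ind (...) sgn (d · b* (ω)), and data
D ω = (for each slot s: cl c s.1 false (ω s true), and a l ↦ ev (frm u a true l) (tau (key ω s true)));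
card ≤ (2^(k r) 2^(2(R+1)))^4 =: B (kd_le).  W0, Gen, prof and flin depend on the plus halves only through
D.  Then (avg μ |..|)^4 ≤ B^4 avg μ Box (pow_expect_le), Box = avg over ω ω' of A ω ω' * F (key ω) (key ω') with
A the product of the four signs, F the product of four values of g (key_mixH), F ∈ [0,16]; TP2 applied
to A F / 16 and bbox give avg μ Box ≤ 16 (1/q + 2 ε').
-/

open Finset Polynomial
open scoped BigOperators

namespace Vale.Agent.P060

namespace BStepAux

variable {P : Par} {F : Type} [Field F] [Fintype F] [DecidableEq F] [Algebra (ZMod 2) F]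

def EE (π : Prof P) (u : Un P F) (ω : Lab F) : Prop :=
  NiceU u ∧ W0 u ω ∧ Gen (crv u) ω ∧ prof (frm u) (key (crv u) ω) = π

theorem dep (u : Un P F) (π π' : Prof P) (s : Bool → Bool → ZMod 2) {ω ω' : Lab F}
    (h1 : ∀ i j h, cl (crv u) i h (ω (i, j) (!h)) = cl (crv u) i h (ω' (i, j) (!h)))
    (h2 : prof (frm u) (key (crv u) ω) = prof (frm u) (key (crv u) ω')) :
    (EE π u ω ↔ EE π u ω') ∧ flin (crv u) ω π' s = flin (crv u) ω' π' s := by
  have hg0 : ∀ (ω : Lab F) i j,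
      gam u i (ω (i, j)) = uval (prof (frm u) (key (crv u) ω) (!i) (i, j)) := by
    intro ω i j
    unfold gam uf prof key frm crv
    rfl
  have hg : ∀ i j, gam u i (ω (i, j)) = gam u i (ω' (i, j)) := fun i j => by
    rw [hg0, hg0, h2]
  have hG : ∀ i j, Gm (crv u) i (ω (i, j)) = Gm (crv u) i (ω' (i, j)) := by
    intro i j
    have a := h1 i j true
    have b := h1 i j false
    simp only [Bool.not_true, Bool.not_false] at a b
    unfold Gm
    rw [a, b]
  refine ⟨?_, ?_⟩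
  · unfold EE W0 Jm Gen
    simp only [hg, hG, h1, h2]
  · unfold flin
    simp only [h1]

abbrev DT (P : Par) :=
  Bool × Bool → (Fin P.k → Fin P.r → ZMod 2) × (Bool → Option (Fin P.R) → ZMod 2)

noncomputable def dat (u : Un P F) (ω : Lab F) : DT P := fun c =>
  (fun t => if h : (t : ℕ) < kd (crv u) false then cl (crv u) c.1 false (ω c true) ⟨t, h⟩ else 0,
    fun a l => ev (frm u a true l) (tau (key (crv u) ω c true)))

theorem dat_dep (u : Un P F) (π π' : Prof P) (s : Bool → Bool → ZMod 2) {x y : Lab F}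
    (z : Lab F) (h : dat u x = dat u y) :
    (EE π u (mixH x z) ↔ EE π u (mixH y z)) ∧
      flin (crv u) (mixH x z) π' s = flin (crv u) (mixH y z) π' s := by
  refine dep u π π' s (fun i j hh => ?_) ?_
  · cases hh
    · funext t
      have ht : (t : ℕ) < P.k := lt_of_lt_of_le t.2 (kd_le _ _)
      have := congrFun (congrArg Prod.fst (congrFun h (i, j))) ⟨t, ht⟩
      simpa [dat, mixH] using this
    · rfl
  · funext a c hh l
    cases hh
    · rfl
    · exact congrFun (congrFun (congrArg Prod.snd (congrFun h c)) a) l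

noncomputable def dt (d : Bool × Bool × Bool × Fin P.r → ZMod 2)
    (b : Bool → Bool → Bool → Fin P.r → ZMod 2) : ZMod 2 :=
  ∑ i, ∑ j', ∑ j, ∑ l, d (i, j', j, l) * b i j' j l

theorem ind_eq (b b' : Bool → Bool → Bool → Fin P.r → ZMod 2) :
    ind (b = b') = 𝔼 d, sgn (dt d b) * sgn (dt d b') := by
  have h := expect_sgn_dot (fun x : Bool × Bool × Bool × Fin P.r =>
    b x.1 x.2.1 x.2.2.1 x.2.2.2 + b' x.1 x.2.1 x.2.2.1 x.2.2.2)
  rw [ind_congr (q := b = b')] at h
  · rw [← h]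
    refine Finset.expect_congr rfl fun d _ => ?_
    rw [← sgn_add]
    congr 1
    simp only [dt, Fintype.sum_prod_type, mul_add, Finset.sum_add_distrib]
  · constructor
    · intro h0
      funext i j' j l
      have := congrFun h0 (i, j', j, l)
      simp only [Pi.zero_apply] at this
      have h2 := zmod2_add_self (b' i j' j l)
      linear_combination this - h2
    · rintro rfl
      funext x
      exact zmod2_add_self _

theorem expect_ge {T : Type} [Fintype T] [DecidableEq T] (M : T → ℝ) (t0 : T) {ε : ℝ}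
    (hε : 0 ≤ ε) (h : ∀ t, t ≠ t0 → |M t| ≤ ε) :
    M t0 / Fintype.card T - ε ≤ 𝔼 t, M t := by
  have : Nonempty T := ⟨t0⟩
  have h1 : 𝔼 t, (M t0 * ind (t = t0) - ε) ≤ 𝔼 t, M t := expect_mono fun t => by
    by_cases ht : t = t0
    · rw [ind_pos ht, ht]; linarith
    · rw [ind_neg ht]; linarith [neg_abs_le (M t), h t ht]
  rw [Finset.expect_sub_distrib, ← Finset.mul_expect, expect_ind_eq, Fintype.expect_const] at h1
  rwa [mul_one_div] at h1

theorem box_avg (hP : P.Ok) {μ : Un P F → ℝ} {ε : ℝ} (hε : 0 ≤ ε) (hT : TP2 μ ε)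
    (hW : Weyl F (3 * P.K) ε) (hq : 1 / (Fintype.card F : ℝ) ≤ ε) (g : Key P F → ℝ)
    (hg : ∀ κ, 0 ≤ g κ ∧ g κ ≤ 2) (d : Bool × Bool × Bool × Fin P.r → ZMod 2) (hd : d ≠ 0) :
    𝔼 u, μ u * Box mixH (fun ω : Lab F => sgn (dt d (bb P ω)) * g (key (crv u) ω)) ≤ 48 * ε := by
  set A : Lab F → ℝ := fun ω => sgn (dt d (bb P ω)) with hA
  set AA : Lab F → Lab F → ℝ := fun x y => A x * A y * A (mixH x y) * A (mixH y x) with hAA
  set GG : Key P F → Key P F → ℝ := fun x y =>
    g x * g y * g (mixH x y) * g (mixH y x) / 16 with hGG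
  have hG0 : ∀ x y, 0 ≤ GG x y := fun x y => div_nonneg (mul_nonneg (mul_nonneg (mul_nonneg
    (hg _).1 (hg _).1) (hg _).1) (hg _).1) (by norm_num)
  have hG1 : ∀ x y, GG x y ≤ 1 := fun x y => by
    have := mul_le_mul (mul_le_mul (mul_le_mul (hg x).2 (hg y).2 (hg _).1 (by norm_num))
      (hg (mixH x y)).2 (hg _).1 (by norm_num)) (hg (mixH y x)).2 (hg _).1 (by norm_num)
    simp only [hGG]; linarith
  have h1 := hT (fun ω ω' κ κ' => AA ω ω' * GG κ κ') fun ω ω' κ κ' => by
    simp only [hAA, hA, abs_mul, abs_sgn, one_mul]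
    rw [abs_of_nonneg (hG0 _ _)]; exact hG1 _ _
  have h2 : |Box mixH A| ≤ 1 / (Fintype.card F : ℝ) + ε :=
    bbox hP hε hW (fun i j' j l => d (i, j', j, l)) fun h0 => hd (by
      funext x
      exact congrFun (congrFun (congrFun (congrFun h0 x.1) x.2.1) x.2.2.1) x.2.2.2)
  have h3 : 𝔼 ω, 𝔼 ω', 𝔼 κ, 𝔼 κ', AA ω ω' * GG κ κ' = Box mixH A * 𝔼 κ, 𝔼 κ', GG κ κ' := by
    simp only [← Finset.mul_expect, ← Finset.expect_mul]
    rfl
  have h4 : 0 ≤ 𝔼 κ, 𝔼 κ', GG κ κ' := expect_nonneg' fun _ => expect_nonneg' fun _ => hG0 _ _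
  have h5 : 𝔼 κ, 𝔼 κ', GG κ κ' ≤ 1 := expect_le_of_le zero_le_one fun _ =>
    expect_le_of_le zero_le_one fun _ => hG1 _ _
  have h6 : Box mixH A * 𝔼 κ, 𝔼 κ', GG κ κ' ≤ 2 * ε := by
    have := mul_le_mul_of_nonneg_right (le_abs_self (Box mixH A)) h4
    have := mul_le_of_le_one_right (abs_nonneg (Box mixH A)) h5
    linarith
  have h7 : 𝔼 u, μ u * Box mixH (fun ω : Lab F => A ω * g (key (crv u) ω)) =
      16 * 𝔼 u, μ u * 𝔼 ω, 𝔼 ω', AA ω ω' * GG (key (crv u) ω) (key (crv u) ω') := by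
    simp only [Box, Finset.mul_expect]
    refine Finset.expect_congr rfl fun u _ => Finset.expect_congr rfl fun x _ =>
      Finset.expect_congr rfl fun y _ => ?_
    simp only [hAA, hGG, key_mixH]
    ring
  rw [h3] at h1
  rw [h7]
  linarith [le_of_abs_le h1]

end BStepAux

open BStepAux in
theorem bstep (P : Par) (hP : P.Ok) (ε : ℝ) (hε : 0 < ε) :
    Ev P fun F _ _ _ _ μ => ∀ (π π' : Prof P) (s : Bool → Bool → ZMod 2) (g : Key P F → ℝ),
      (∀ κ, 0 ≤ g κ ∧ g κ ≤ 2) →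
      mass μ (fun u ω => ind (NiceU u ∧ W0 u ω ∧ Gen (crv u) ω ∧
          prof (frm u) (key (crv u) ω) = π) * g (key (crv u) ω)) / 2 ^ (8 * P.r) - ε ≤
        mass μ fun u ω => ind (NiceU u ∧ W0 u ω ∧ Gen (crv u) ω ∧
          prof (frm u) (key (crv u) ω) = π ∧ BOk (crv u) ω π' s) * g (key (crv u) ω) := by
  set B : ℝ := (Fintype.card (DT P) : ℝ) with hB
  have B0 : 0 < B := by rw [hB]; exact_mod_cast Fintype.card_pos
  set ε' := ε ^ 4 / (48 * B ^ 4) with hε'
  have e0 : 0 < ε' := by positivity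
  refine (((tp2 P hP ε' e0).and (ev_weyl P ε' e0)).and (ev_card P (1 / ε'))).mono ?_
  rintro F _ _ _ _ μ hμ ⟨⟨hT, hW⟩, hq⟩ π π' s g hg
  have hq' : 1 / (Fintype.card F : ℝ) ≤ ε' := by
    rwa [one_div_le (by exact_mod_cast Fintype.card_pos) e0]
  set M : (Bool × Bool × Bool × Fin P.r → ZMod 2) → ℝ := fun d => 𝔼 u, μ u * 𝔼 ω : Lab F,
    sgn (dt d (bb P ω)) * g (key (crv u) ω) *
      (ind (EE π u ω) * sgn (dt d (fl (flin (crv u) ω π' s)).b)) with hM
  have h1 : (mass μ fun u ω => ind (NiceU u ∧ W0 u ω ∧ Gen (crv u) ω ∧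
      prof (frm u) (key (crv u) ω) = π ∧ BOk (crv u) ω π' s) * g (key (crv u) ω)) = 𝔼 d, M d := by
    rw [mass_eq]
    simp only [hM]
    rw [Finset.expect_comm]
    refine Finset.expect_congr rfl fun u _ => ?_
    rw [← Finset.mul_expect, Finset.expect_comm]
    congr 1
    refine Finset.expect_congr rfl fun ω _ => ?_
    rw [ind_congr (q := EE π u ω ∧ bb P ω = (fl (flin (crv u) ω π' s)).b)
      (by simp only [EE, BOk, and_assoc]), ind_and, ind_eq, Finset.mul_expect, Finset.expect_mul]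
    exact Finset.expect_congr rfl fun d _ => by ring
  have h2 : mass μ (fun u ω => ind (NiceU u ∧ W0 u ω ∧ Gen (crv u) ω ∧
      prof (frm u) (key (crv u) ω) = π) * g (key (crv u) ω)) = M 0 := by
    rw [mass_eq]
    simp only [hM, dt, Pi.zero_apply, zero_mul, Finset.sum_const_zero, sgn_zero, one_mul, mul_one,
      EE, mul_comm (g _)]
  have h3 : (Fintype.card (Bool × Bool × Bool × Fin P.r → ZMod 2) : ℝ) = 2 ^ (8 * P.r) := by
    simp only [Fintype.card_fun, ZMod.card, Fintype.card_prod, Fintype.card_bool, Fintype.card_fin]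
    push_cast
    congr 1; ring
  rw [h1, h2, ← h3]
  refine expect_ge M 0 hε.le fun d hd => ?_
  have k1 : |M d| ≤ 𝔼 u, μ u * |𝔼 ω : Lab F, sgn (dt d (bb P ω)) * g (key (crv u) ω) *
      (ind (EE π u ω) * sgn (dt d (fl (flin (crv u) ω π' s)).b))| := by
    refine (abs_expect_le _).trans (le_of_eq (Finset.expect_congr rfl fun u _ => ?_))
    rw [abs_mul, abs_of_nonneg (hμ.nonneg u)]
  have k2 := pow_expect_le μ (fun u => |𝔼 ω : Lab F, sgn (dt d (bb P ω)) * g (key (crv u) ω) *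
      (ind (EE π u ω) * sgn (dt d (fl (flin (crv u) ω π' s)).b))|) hμ.nonneg hμ.total.le
    (fun _ => abs_nonneg _) 4 (by norm_num)
  have k3 : 𝔼 u, μ u * |𝔼 ω : Lab F, sgn (dt d (bb P ω)) * g (key (crv u) ω) *
      (ind (EE π u ω) * sgn (dt d (fl (flin (crv u) ω π' s)).b))| ^ 4 ≤
      B ^ 4 * 𝔼 u, μ u * Box mixH (fun ω : Lab F => sgn (dt d (bb P ω)) * g (key (crv u) ω)) := by
    rw [Finset.mul_expect]
    refine expect_mono fun u => ?_
    rw [mul_left_comm]
    refine mul_le_mul_of_nonneg_left (box_data mixH isMix_mixH _ _ (dat u) (fun x y => ?_)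
      (fun x y z h => ?_) fun x => ?_) (hμ.nonneg u)
    · rfl
    · have := dat_dep u π π' s z h
      rw [ind_congr this.1, this.2]
    · rw [abs_mul, abs_sgn, mul_one]; exact abs_ind_le_one _
  have k4 := mul_le_mul_of_nonneg_left (box_avg hP e0.le hT hW hq' g hg d hd)
    (show 0 ≤ B ^ 4 by positivity)
  have k5 : B ^ 4 * (48 * ε') = ε ^ 4 := by rw [hε']; field_simp
  have k6 : |M d| ^ 4 ≤ ε ^ 4 :=
    (pow_le_pow_left₀ (abs_nonneg _) k1 4).trans (k2.trans (k3.trans (k4.trans k5.le)))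
  exact (pow_le_pow_iff_left₀ (abs_nonneg _) hε.le (by norm_num)).1 k6

end Vale.Agent.P060
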