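import Vale.Agent.P060.Basic1

/-! # P060: kernels, masses, key densities (task Basic2) -/

open Finset Polynomial
open scoped BigOperators

namespace Vale.Agent.P060

theorem expect_swap_four {A B : Type} [Fintype A] [Fintype B] (G : A → B → A → B → ℝ) :
    𝔼 u, 𝔼 ω, 𝔼 u', 𝔼 ω', G u ω u' ω' = 𝔼 u, 𝔼 ω, 𝔼 u', 𝔼 ω', G u' ω' u ω := by
  have e : ∀ G : A → B → A → B → ℝ, 𝔼 u, 𝔼 ω, 𝔼 u', 𝔼 ω', G u ω u' ω' =
      𝔼 a : A × B, 𝔼 b : A × B, G a.1 a.2 b.1 b.2 := fun G => by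
    simp only [expect_prod']
  rw [e, e, Finset.expect_comm]

section Field
variable {P : Par} {F : Type} [Field F] [Fintype F] [DecidableEq F] [Algebra (ZMod 2) F]

theorem kd_le (c : UC P F) (h : Bool) : kd c h ≤ P.k := by
  unfold kd kb
  split_ifs with h1
  · exact h1.choose_spec.le
  · exact Nat.zero_le _
theorem card_JJ_le (c : UC P F) : Fintype.card (JJ c) ≤ 2 ^ (P.k ^ 2) := by
  simp only [JJ, Fintype.card_fun, ZMod.card, Fintype.card_fin, ← pow_mul]
  exact Nat.pow_le_pow_right two_pos (sq P.k ▸ Nat.mul_le_mul (kd_le c _) (kd_le c _))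
omit [Fintype F] [DecidableEq F] [Algebra (ZMod 2) F] in
theorem f0_spec {α : Bool → Cur P F} (h : NiceK α) (i : Bool) : IsF0 α i (f0 α i) := by
  unfold f0
  rw [dif_pos (h i).2]
  exact (h i).2.choose_spec

omit [Field F] [DecidableEq F] [Algebra (ZMod 2) F] in
theorem card_Key : Fintype.card (Key P F) = Fintype.card F ^ (8 * P.n) := by
  rw [← Nat.card_eq_fintype_card, ← Nat.card_eq_fintype_card]
  simp only [Nat.card_fun, Nat.card_prod, Nat.card_eq_fintype_card (α := Bool), Fintype.card_bool,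
    Nat.card_eq_fintype_card (α := Fin P.n), Fintype.card_fin, ← pow_mul]
  congr 1
  ring
omit [Field F] [DecidableEq F] [Algebra (ZMod 2) F] in
theorem expect_un (g : UC P F → UF P F → ℝ) :
    𝔼 u : Un P F, g (crv u) (frm u) = 𝔼 c, 𝔼 f, g c f := by
  exact (Fintype.expect_equiv (Equiv.arrowProdEquivProdArrow Bool (fun _ => Fr P F) fun _ => Fo P F)
    (fun u => g (crv u) (frm u)) (fun z => g z.1 z.2) fun _ => rfl).trans (expect_prod' _)

omit [Algebra (ZMod 2) F] in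
theorem key_mixS (c : UC P F) (s : Bool × Bool) (ω ω' : Lab F) :
    key c (mixS s ω ω') = mixS s (key c ω) (key c ω') := by
  funext s'; by_cases h : s' = s <;> simp [key, mixS, h]
omit [Algebra (ZMod 2) F] in
theorem key_mixH (c : UC P F) (ω ω' : Lab F) :
    key c (mixH ω ω') = mixH (key c ω) (key c ω') := by
  funext s h; cases h <;> simp [key, mixH, pts]

omit [Algebra (ZMod 2) F] in
/-- the defining property of the key density -/
theorem expect_Nw_mul (μ : Un P F → ℝ) (w : Un P F → Lab F → ℝ) (g : Key P F → ℝ) :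
    𝔼 κ, Nw μ w κ * g κ = mass μ fun u ω => w u ω * g (key (crv u) ω) := by
  have hc : (Fintype.card (Key P F) : ℝ) ≠ 0 := by exact_mod_cast Fintype.card_ne_zero
  rw [Fintype.expect_eq_sum_div_card]
  simp only [Nw, mul_assoc, ← Finset.mul_sum]
  rw [mul_div_cancel_left₀ _ hc]
  simp only [mass, Finset.expect_mul, ← Finset.expect_sum_comm]
  refine Finset.expect_congr rfl fun u _ => Finset.expect_congr rfl fun ω _ => ?_
  rw [Finset.sum_eq_single (key (crv u) ω) (fun κ _ h => by rw [ind_neg h.symm]; ring) (by simp),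
    ind_pos rfl]
  ring
omit [Algebra (ZMod 2) F] in
theorem Nw_mul_key (μ : Un P F → ℝ) (w : Un P F → Lab F → ℝ) (g : Key P F → ℝ) (κ : Key P F) :
    Nw μ (fun u ω => w u ω * g (key (crv u) ω)) κ = Nw μ w κ * g κ := by
  simp only [Nw, mul_assoc, mass, Finset.expect_mul]
  congr 1
  refine Finset.expect_congr rfl fun u _ => Finset.expect_congr rfl fun ω _ => ?_
  by_cases h : key (crv u) ω = κ
  · rw [h]
    ring
  · rw [ind_neg h]
    ring
omit [Algebra (ZMod 2) F] in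
theorem mass_mono {μ : Un P F → ℝ} (hμ : ∀ u, 0 ≤ μ u) {w w' : Un P F → Lab F → ℝ}
    (h : ∀ u ω, w u ω ≤ w' u ω) : mass μ w ≤ mass μ w' := by
  exact expect_mono fun u => expect_mono fun ω => mul_le_mul_of_nonneg_left (h u ω) (hμ u)
omit [Algebra (ZMod 2) F] in
theorem mass_add (μ : Un P F → ℝ) (w w' : Un P F → Lab F → ℝ) :
    mass μ (fun u ω => w u ω + w' u ω) = mass μ w + mass μ w' := by
  simp only [mass, mul_add, Finset.expect_add_distrib]
omit [Algebra (ZMod 2) F] in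
theorem mass_eq (μ : Un P F → ℝ) (w : Un P F → Lab F → ℝ) :
    mass μ w = 𝔼 u, μ u * 𝔼 ω, w u ω := by
  simp only [mass, Finset.mul_expect]
omit [Algebra (ZMod 2) F] in
theorem Nw_mono {μ : Un P F → ℝ} (hμ : ∀ u, 0 ≤ μ u) {w w' : Un P F → Lab F → ℝ}
    (h : ∀ u ω, w u ω ≤ w' u ω) (κ : Key P F) : Nw μ w κ ≤ Nw μ w' κ := by
  exact mul_le_mul_of_nonneg_left (mass_mono hμ fun u ω =>
    mul_le_mul_of_nonneg_right (h u ω) (ind_nonneg _)) (Nat.cast_nonneg _)
omit [Algebra (ZMod 2) F] in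
theorem Nw_nonneg {μ : Un P F → ℝ} (hμ : ∀ u, 0 ≤ μ u) {w : Un P F → Lab F → ℝ}
    (h : ∀ u ω, 0 ≤ w u ω) (κ : Key P F) : 0 ≤ Nw μ w κ := by
  exact mul_nonneg (Nat.cast_nonneg _) (expect_nonneg' fun u => expect_nonneg' fun ω =>
    mul_nonneg (hμ u) (mul_nonneg (h u ω) (ind_nonneg _)))
omit [Algebra (ZMod 2) F] in
/-- a weight living on light keys has key density at most two -/
theorem Nw_le_two {μ : Un P F → ℝ} (hμ : ∀ u, 0 ≤ μ u) {w : Un P F → Lab F → ℝ}
    (h : ∀ u ω, w u ω ≤ ind (Lt μ (key (crv u) ω))) (κ : Key P F) : Nw μ w κ ≤ 2 := by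
  refine (Nw_mono hμ (w' := fun u ω => 1 * ind (Lt μ (key (crv u) ω)))
    (fun u ω => by rw [one_mul]; exact h u ω) κ).trans ?_
  rw [Nw_mul_key μ (fun _ _ => 1) (fun κ => ind (Lt μ κ))]
  by_cases hκ : Lt μ κ
  · rw [ind_pos hκ, mul_one]
    exact hκ
  · rw [ind_neg hκ, mul_zero]
    exact zero_le_two
omit [Algebra (ZMod 2) F] in
theorem Qf_comm (μ : Un P F → ℝ) (w w' : Un P F → Lab F → ℝ) : Qf μ w w' = Qf μ w' w := by
  rw [Qf, Qf, ← expect_tp]
  simp only [tp_tp, mul_comm]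
omit [Algebra (ZMod 2) F] in
theorem Qf_eq_pairE (μ : Un P F → ℝ) (w w' : Un P F → Lab F → ℝ) :
    Qf μ w w' = pairE μ fun u ω u' ω' => w u ω * w' u' ω' := by
  rw [Qf, expect_Nw_mul μ w fun κ => Nw μ w' (tp κ)]
  simp only [pairE, mass, Nw, Finset.mul_expect]
  refine Finset.expect_congr rfl fun u _ => Finset.expect_congr rfl fun ω _ =>
    Finset.expect_congr rfl fun u' _ => Finset.expect_congr rfl fun ω' _ => ?_
  rw [ind_congr (show key (crv u') ω' = tp (key (crv u) ω) ↔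
    key (crv u) ω = tp (key (crv u') ω') from
      ⟨fun h => by rw [h, tp_tp], fun h => by rw [h, tp_tp]⟩)]
  ring
omit [Algebra (ZMod 2) F] in
theorem pairE_swap (μ : Un P F → ℝ) (Φ : Un P F → Lab F → Un P F → Lab F → ℝ) :
    pairE μ Φ = pairE μ fun u ω u' ω' => Φ u' ω' u ω := by
  have h := expect_swap_four (A := Un P F) (B := Lab F) fun u ω u' ω' =>
    μ u * μ u' * ind (key (crv u) ω = tp (key (crv u') ω')) * Φ u ω u' ω'
  have h2 : ∀ (u : Un P F) (ω : Lab F) (u' : Un P F) (ω' : Lab F),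
      μ u' * μ u * ind (key (crv u') ω' = tp (key (crv u) ω)) * Φ u' ω' u ω =
      μ u * μ u' * ind (key (crv u) ω = tp (key (crv u') ω')) * Φ u' ω' u ω := by
    intro u ω u' ω'
    rw [ind_congr (show key (crv u') ω' = tp (key (crv u) ω) ↔
      key (crv u) ω = tp (key (crv u') ω') from
        ⟨fun h => by rw [h, tp_tp], fun h => by rw [h, tp_tp]⟩), mul_comm (μ u')]
  simp only [h2] at h
  unfold pairE
  rw [h]

end Field

theorem Ev.and {P : Par} {p p'} (h : Ev P p) (h' : Ev P p') :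
    Ev P fun F _ _ _ _ μ => p F μ ∧ p' F μ := by
  obtain ⟨a, ha⟩ := h
  obtain ⟨b, hb⟩ := h'
  exact ⟨max a b, fun F _ _ _ _ hq μ hμ =>
    ⟨ha F ((le_max_left _ _).trans hq) μ hμ, hb F ((le_max_right _ _).trans hq) μ hμ⟩⟩

theorem Ev.mono {P : Par} {p p'} (h : Ev P p)
    (hp : ∀ (F : Type) [Field F] [Fintype F] [DecidableEq F] [Algebra (ZMod 2) F]
      (μ : Un P F → ℝ), Adm μ → p F μ → p' F μ) : Ev P p' := by
  obtain ⟨a, ha⟩ := h
  exact ⟨a, fun F _ _ _ _ hq μ hμ => hp F μ hμ (ha F hq μ hμ)⟩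

theorem ev_card (P : Par) (c : ℝ) : Ev P fun F _ _ _ _ _ => c ≤ (Fintype.card F : ℝ) :=
  ⟨⌈c⌉₊, fun _ _ _ _ _ hq _ _ => (Nat.le_ceil c).trans (by exact_mod_cast hq)⟩

end Vale.Agent.P060
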