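import Vale.Agent.P060.Defs

/-! # P060: generic lemmas on indicators, signs and averages (task Basic0) -/

open Finset Polynomial
open scoped BigOperators

namespace Vale.Agent.P060

theorem ind_pos {p : Prop} (h : p) : ind p = 1 := by simp [ind, h]
theorem ind_neg {p : Prop} (h : ¬ p) : ind p = 0 := by simp [ind, h]
theorem ind_eq_ite (p : Prop) [Decidable p] : ind p = if p then 1 else 0 := by
  by_cases h : p <;> simp [ind, h]
theorem ind_nonneg (p : Prop) : 0 ≤ ind p := by by_cases h : p <;> simp [ind, h]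
theorem ind_le_one (p : Prop) : ind p ≤ 1 := by by_cases h : p <;> simp [ind, h]
theorem abs_ind_le_one (p : Prop) : |ind p| ≤ 1 := by by_cases h : p <;> simp [ind, h]
theorem ind_and (p q : Prop) : ind (p ∧ q) = ind p * ind q := by
  by_cases h : p <;> by_cases h' : q <;> simp [ind, h, h']
theorem ind_not (p : Prop) : ind (¬ p) = 1 - ind p := by by_cases h : p <;> simp [ind, h]
theorem ind_mono {p q : Prop} (h : p → q) : ind p ≤ ind q := by
  by_cases hp : p
  · rw [ind_pos hp, ind_pos (h hp)]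
  · rw [ind_neg hp]; exact ind_nonneg q
theorem ind_congr {p q : Prop} (h : p ↔ q) : ind p = ind q := by rw [propext h]
theorem ind_or_le (p q : Prop) : ind (p ∨ q) ≤ ind p + ind q := by
  by_cases h : p <;> by_cases h' : q <;> simp [ind, h, h']
theorem ind_ne_zero {p : Prop} : ind p ≠ 0 ↔ p := by by_cases h : p <;> simp [ind, h]
theorem ind_exists_le {ι : Type} [Fintype ι] (p : ι → Prop) : ind (∃ i, p i) ≤ ∑ i, ind (p i) := by
  by_cases h : ∃ i, p i
  · obtain ⟨i, hi⟩ := h
    rw [ind_pos ⟨i, hi⟩, ← ind_pos hi]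
    exact Finset.single_le_sum (f := fun i => ind (p i)) (fun j _ => ind_nonneg _) (mem_univ i)
  · rw [ind_neg h]; exact Finset.sum_nonneg fun j _ => ind_nonneg _
theorem ind_forall {ι : Type} [Fintype ι] (p : ι → Prop) : ind (∀ i, p i) = ∏ i, ind (p i) := by
  by_cases h : ∀ i, p i
  · rw [ind_pos h]; exact (Finset.prod_eq_one fun i _ => ind_pos (h i)).symm
  · rw [ind_neg h]
    obtain ⟨i, hi⟩ := not_forall.1 h
    exact (Finset.prod_eq_zero (mem_univ i) (ind_neg hi)).symm
theorem sum_ind_eq {ι : Type} [Fintype ι] (a : ι) : ∑ i, ind (a = i) = 1 := by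
  classical
  simp [ind_eq_ite]
theorem sum_ind_eq_card {ι : Type} [Fintype ι] (p : ι → Prop) [DecidablePred p] :
    ∑ i, ind (p i) = ((univ.filter p).card : ℝ) := by
  simp [ind_eq_ite]

theorem zmod2_cases (a : ZMod 2) : a = 0 ∨ a = 1 := by revert a; decide
theorem zmod2_add_self (a : ZMod 2) : a + a = 0 := by revert a; decide
theorem zmod2_mul_self (a : ZMod 2) : a * a = a := by revert a; decide

theorem sgn_zero : sgn 0 = 1 := by simp [sgn]
theorem sgn_one : sgn 1 = -1 := by simp [sgn]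
theorem sgn_add (a b : ZMod 2) : sgn (a + b) = sgn a * sgn b := by
  rcases zmod2_cases a with rfl | rfl <;> rcases zmod2_cases b with rfl | rfl <;>
    simp [sgn_zero, sgn_one, zmod2_add_self]
theorem abs_sgn (a : ZMod 2) : |sgn a| = 1 := by
  rcases zmod2_cases a with rfl | rfl <;> simp [sgn_zero, sgn_one]
theorem sgn_mul_self (a : ZMod 2) : sgn a * sgn a = 1 := by
  rw [← sgn_add, zmod2_add_self, sgn_zero]
theorem sgn_sum {ι : Type} (s : Finset ι) (f : ι → ZMod 2) :
    sgn (∑ i ∈ s, f i) = ∏ i ∈ s, sgn (f i) := by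
  classical
  induction s using Finset.induction_on with
  | empty => simp [sgn_zero]
  | insert a s ha ih => rw [Finset.sum_insert ha, Finset.prod_insert ha, sgn_add, ih]

theorem abs_bias_le {X : Type} [Fintype X] (g : X → ZMod 2) : |bias g| ≤ 1 := by
  unfold bias
  refine (Finset.abs_expect_le _ _).trans ?_
  simp only [abs_sgn]
  rcases (univ : Finset X).eq_empty_or_nonempty with h | h
  · simp [h]
  · rw [Finset.expect_const h]

theorem bias_const {X : Type} [Fintype X] [Nonempty X] (c : ZMod 2) :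
    bias (fun _ : X => c) = sgn c := by
  simp [bias]

theorem bias_add_const {X : Type} [Fintype X] (g : X → ZMod 2) (c : ZMod 2) :
    bias (fun x => g x + c) = bias g * sgn c := by
  simp only [bias, sgn_add, Finset.expect_mul]

/-- A character of a finite additive group averages to zero unless it is trivial. -/
theorem expect_sgn_hom {A : Type} [AddCommGroup A] [Fintype A] (φ : A →+ ZMod 2) :
    𝔼 a, sgn (φ a) = ind (φ = 0) := by
  by_cases h : φ = 0
  · subst h
    simp [ind_pos, sgn_zero]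
  · rw [ind_neg h]
    obtain ⟨b, hb⟩ : ∃ b, φ b ≠ 0 := by
      by_contra hc
      push Not at hc
      exact h (AddMonoidHom.ext hc)
    have hb1 : φ b = 1 := (zmod2_cases _).resolve_left hb
    have e : 𝔼 a, sgn (φ (a + b)) = 𝔼 a, sgn (φ a) :=
      Fintype.expect_equiv (Equiv.addRight b) _ _ fun _ => rfl
    simp only [map_add, hb1, sgn_add, sgn_one, mul_neg, mul_one, Finset.expect_neg_distrib] at e
    linarith

/-- orthogonality on `ι → ZMod 2` -/
theorem expect_sgn_dot {ι : Type} [Fintype ι] [DecidableEq ι] (v : ι → ZMod 2) :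
    𝔼 d : ι → ZMod 2, sgn (∑ l, d l * v l) = ind (v = 0) := by
  let φ : (ι → ZMod 2) →+ ZMod 2 :=
    { toFun := fun d => ∑ l, d l * v l
      map_zero' := by simp
      map_add' := fun a b => by simp [add_mul, Finset.sum_add_distrib] }
  refine (expect_sgn_hom φ).trans (ind_congr ⟨fun h => ?_, fun h => ?_⟩)
  · funext l
    have := DFunLike.congr_fun h (Pi.single l 1)
    simpa [φ, Pi.single_apply] using this
  · subst h
    ext d
    simp [φ]

theorem expect_mono {X : Type} [Fintype X] {f g : X → ℝ} (h : ∀ x, f x ≤ g x) :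
    𝔼 x, f x ≤ 𝔼 x, g x := Finset.expect_le_expect fun x _ => h x

theorem expect_nonneg' {X : Type} [Fintype X] {f : X → ℝ} (h : ∀ x, 0 ≤ f x) : 0 ≤ 𝔼 x, f x :=
  Finset.expect_nonneg fun x _ => h x

theorem abs_expect_le {X : Type} [Fintype X] (f : X → ℝ) : |𝔼 x, f x| ≤ 𝔼 x, |f x| :=
  Finset.abs_expect_le _ _

theorem expect_le_of_le {X : Type} [Fintype X] {f : X → ℝ} {c : ℝ} (hc : 0 ≤ c)
    (h : ∀ x, f x ≤ c) : 𝔼 x, f x ≤ c := by
  rcases (univ : Finset X).eq_empty_or_nonempty with h0 | h0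
  · simpa [h0] using hc
  · exact Finset.expect_le h0 fun x _ => h x

theorem abs_expect_le_of_le {X : Type} [Fintype X] {f : X → ℝ} {c : ℝ} (hc : 0 ≤ c)
    (h : ∀ x, |f x| ≤ c) : |𝔼 x, f x| ≤ c := (abs_expect_le f).trans (expect_le_of_le hc h)

theorem expect_prod' {X Y : Type} [Fintype X] [Fintype Y] (f : X × Y → ℝ) :
    𝔼 z, f z = 𝔼 x, 𝔼 y, f (x, y) := by
  rw [← Finset.univ_product_univ, Finset.expect_product]

theorem expect_ind_eq {X : Type} [Fintype X] (a : X) :
    𝔼 x, ind (x = a) = 1 / (Fintype.card X : ℝ) := by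
  classical
  rw [Fintype.expect_eq_sum_div_card]
  simp [ind_eq_ite]

/-- translation invariance -/
theorem expect_add_right {A : Type} [AddGroup A] [Fintype A] (f : A → ℝ) (a : A) :
    𝔼 x, f (x + a) = 𝔼 x, f x :=
  Fintype.expect_equiv (Equiv.addRight a) _ _ fun _ => rfl

/-- averaging over `Bool → X` -/
theorem expect_bool_fun {X : Type} [Fintype X] (f : X → X → ℝ) :
    𝔼 x : Bool → X, f (x false) (x true) = 𝔼 a, 𝔼 b, f a b := by
  rw [← expect_prod' (fun z : X × X => f z.1 z.2)]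
  exact Fintype.expect_equiv (Equiv.boolArrowEquivProd X) _ _ fun _ => rfl

/-- averaging over a function type, one coordinate singled out -/
theorem expect_update {ι X : Type} [Fintype ι] [DecidableEq ι] [Fintype X] [Nonempty X]
    (i : ι) (f : (ι → X) → ℝ) : 𝔼 x, f x = 𝔼 x, 𝔼 a, f (Function.update x i a) := by
  have hinv : Function.Involutive
      (fun z : (ι → X) × X => (Function.update z.1 i z.2, z.1 i)) := by
    rintro ⟨x, a⟩
    simp
  rw [← expect_prod' (fun z : (ι → X) × X => f (Function.update z.1 i z.2)),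
    Fintype.expect_equiv hinv.toPerm (fun z => f (Function.update z.1 i z.2)) (fun z => f z.1)
      (fun _ => rfl), expect_prod']
  simp

/-- independent coordinates -/
theorem expect_prod_pi {ι X : Type} [Fintype ι] [DecidableEq ι] [Fintype X]
    (f : ι → X → ℝ) : 𝔼 x : ι → X, ∏ i, f i (x i) = ∏ i, 𝔼 a, f i a := by
  simp only [Fintype.expect_eq_sum_div_card]
  rw [Finset.prod_div_distrib, Fintype.prod_sum]
  simp

/-- Markov -/
theorem markov {X : Type} [Fintype X] (f : X → ℝ) (hf : ∀ x, 0 ≤ f x) {c : ℝ} (hc : 0 < c) :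
    𝔼 x, ind (c ≤ f x) ≤ (𝔼 x, f x) / c := by
  rw [Finset.expect_div]
  refine expect_mono fun x => ?_
  by_cases h : c ≤ f x
  · rw [ind_pos h, le_div_iff₀ hc, one_mul]; exact h
  · rw [ind_neg h]; exact div_nonneg (hf x) hc.le

/-- power mean inequality for a sub-probability density -/
theorem pow_expect_le {X : Type} [Fintype X] (μ g : X → ℝ) (hμ : ∀ x, 0 ≤ μ x)
    (h1 : 𝔼 x, μ x ≤ 1) (hg : ∀ x, 0 ≤ g x) (N : ℕ) (hN : 1 ≤ N) :
    (𝔼 x, μ x * g x) ^ N ≤ 𝔼 x, μ x * g x ^ N := by
  set A := 𝔼 x, μ x * g x with hA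
  have hA0 : 0 ≤ A := expect_nonneg' fun x => mul_nonneg (hμ x) (hg x)
  obtain ⟨n, rfl⟩ : ∃ n, N = n + 1 := ⟨N - 1, by omega⟩
  have key : ∀ y : ℝ, 0 ≤ y → (n + 1) * A ^ n * y - n * A ^ (n + 1) ≤ y ^ (n + 1) := by
    intro y hy
    rcases hA0.eq_or_lt with h0 | h0
    · rw [← h0]
      rcases Nat.eq_zero_or_pos n with rfl | hn
      · simp
      · simp [hn.ne', pow_nonneg hy]
    · have h2 : (-2 : ℝ) ≤ y / A - 1 := by
        have := div_nonneg hy h0.le
        linarith
      have h3 := one_add_mul_le_pow h2 (n + 1)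
      rw [add_sub_cancel, div_pow, le_div_iff₀ (pow_pos h0 _)] at h3
      refine le_trans (le_of_eq ?_) h3
      push_cast
      field_simp
      ring
  have h4 : 𝔼 x, ((n + 1) * A ^ n * (μ x * g x) - n * A ^ (n + 1) * μ x) ≤
      𝔼 x, μ x * g x ^ (n + 1) := expect_mono fun x => by
    have := mul_le_mul_of_nonneg_left (key (g x) (hg x)) (hμ x)
    linarith
  rw [Finset.expect_sub_distrib, ← Finset.mul_expect, ← Finset.mul_expect, ← hA] at h4
  have h5 : n * A ^ (n + 1) * 𝔼 x, μ x ≤ n * A ^ (n + 1) :=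
    mul_le_of_le_one_right (by positivity) h1
  have h6 : (n + 1) * A ^ n * A = (n + 1) * A ^ (n + 1) := by ring
  linarith

theorem isMix_mixS {X : Type} (c : Bool × Bool) : IsMix (mixS (X := X) c) := by
  refine ⟨fun x => ?_, fun x y z => ?_, fun x y z => ?_⟩ <;> funext s <;> by_cases h : s = c <;>
    simp [mixS, h]

theorem isMix_mixH {X : Type} : IsMix (mixH (X := X)) := by
  refine ⟨fun x => ?_, fun x y z => ?_, fun x y z => ?_⟩ <;> funext s h <;> cases h <;>
    simp [mixH]

theorem tp_tp {X : Type} (κ : Bool × Bool → X) : tp (tp κ) = κ := by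
  funext c; simp [tp]

theorem expect_tp {X : Type} [Fintype X] (f : (Bool × Bool → X) → ℝ) :
    𝔼 κ, f (tp κ) = 𝔼 κ, f κ :=
  Fintype.expect_equiv (Function.Involutive.toPerm tp tp_tp) _ _ fun _ => rfl

theorem Par.Ok.ex_le {P : Par} (hP : P.Ok) (l : Fin P.r) (a : Fin P.k) : P.ex l a ≤ P.K := by
  have h1 := hP.hK
  have h2 := hP.ht2
  have h3 := hP.hk
  have h4 := a.2
  have h5 : (l + 1) * P.k ≤ P.r * P.k := Nat.mul_le_mul_right _ l.2
  have h6 : 1 * (P.k + P.r * P.k) ≤ P.k * (P.k + P.r * P.k) := Nat.mul_le_mul_right _ (by omega)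
  rw [mul_assoc] at h2
  rw [add_mul] at h5
  unfold Par.ex
  omega
theorem Par.ex_odd (P : Par) (l : Fin P.r) (a : Fin P.k) : Odd (P.ex l a) := ⟨_, rfl⟩
theorem Par.lt_ex (P : Par) (l : Fin P.r) (a : Fin P.k) : P.k < P.ex l a := by
  have := a.2
  simp only [Par.ex]; omega
theorem Par.ex_inj (P : Par) {l l' : Fin P.r} {a a' : Fin P.k} (h : P.ex l a = P.ex l' a') :
    l = l' ∧ a = a' := by
  have h1 : (a : ℕ) + P.k * l = a' + P.k * l' := by
    unfold Par.ex at h
    rw [mul_comm P.k, mul_comm P.k]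
    omega
  have h2 : (a : ℕ) = a' := by
    have := congrArg (· % P.k) h1
    simpa [Nat.mod_eq_of_lt a.2, Nat.mod_eq_of_lt a'.2] using this
  refine ⟨Fin.ext ?_, Fin.ext h2⟩
  exact Nat.eq_of_mul_eq_mul_left a.pos (by omega)
theorem Par.Ok.K_odd {P : Par} (hP : P.Ok) : Odd P.K := by
  have := hP.hK
  exact ⟨8 * P.t - 1, by omega⟩
/-- crude sizes -/
theorem Par.Ok.K_ge {P : Par} (hP : P.Ok) : 1000 * (P.k + P.r + P.R + 1) ≤ P.K := by
  have := hP.hK; have := hP.ht1; have := hP.hR; omega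

end Vale.Agent.P060
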