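import Vale.Agent.P060.Basic0

/-! # P060: traces, moments, curves (task Basic1) -/

open Finset Polynomial
open scoped BigOperators

namespace Vale.Agent.P060

section Field
variable {P : Par} {F : Type} [Field F] [Fintype F] [DecidableEq F] [Algebra (ZMod 2) F]

omit [Fintype F] [DecidableEq F] in
theorem charP_two : CharP F 2 := by
  exact charP_of_injective_algebraMap (algebraMap (ZMod 2) F).injective 2
omit [Fintype F] [DecidableEq F] in
theorem add_self_F (x : F) : x + x = 0 := by
  have : CharP F 2 := charP_two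
  exact CharTwo.add_self_eq_zero x
omit [Fintype F] [DecidableEq F] in
theorem smul_eq_algebraMap (c : ZMod 2) (x : F) : c • x = algebraMap (ZMod 2) F c * x :=
  Algebra.smul_def c x

omit [Fintype F] [DecidableEq F] in
theorem tr_zero : tr (0 : F) = 0 := by simp [tr]
omit [Fintype F] [DecidableEq F] in
theorem tr_add (x y : F) : tr (x + y) = tr x + tr y := by simp [tr]
omit [Fintype F] [DecidableEq F] in
theorem tr_smul (c : ZMod 2) (x : F) : tr (c • x) = c * tr x := by simp [tr]
omit [Fintype F] [DecidableEq F] in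
theorem tr_sum {ι : Type} (s : Finset ι) (f : ι → F) : tr (∑ i ∈ s, f i) = ∑ i ∈ s, tr (f i) := by
  simp [tr]
omit [DecidableEq F] in
theorem tr_sq (x : F) : tr (x ^ 2) = tr x := by
  have h := Algebra.trace_eq_of_algEquiv (FiniteField.frobeniusAlgEquivOfAlgebraic (ZMod 2) F) x
  rw [FiniteField.coe_frobeniusAlgEquivOfAlgebraic, ZMod.card] at h
  exact h
omit [DecidableEq F] in
theorem tr_nondeg {x : F} (h : ∀ y, tr (y * x) = 0) : x = 0 := by
  exact (traceForm_nondegenerate (ZMod 2) F).1 x fun y => by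
    rw [Algebra.traceForm_apply, mul_comm]
    exact h y
omit [DecidableEq F] in
theorem exists_sq_root (x : F) : ∃ y : F, y ^ 2 = x := by
  obtain ⟨y, hy⟩ := (FiniteField.frobeniusAlgEquivOfAlgebraic (ZMod 2) F).surjective x
  rw [FiniteField.coe_frobeniusAlgEquivOfAlgebraic, ZMod.card] at hy
  exact ⟨y, hy⟩

omit [Fintype F] [DecidableEq F] in
theorem ev_add_right (f ζ ζ' : Ten P F) : ev f (ζ + ζ') = ev f ζ + ev f ζ' := by
  simp [ev, mul_add, Finset.sum_add_distrib, tr_add]
omit [Fintype F] [DecidableEq F] in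
theorem ev_add_left (f f' ζ : Ten P F) : ev (f + f') ζ = ev f ζ + ev f' ζ := by
  simp [ev, add_mul, Finset.sum_add_distrib, tr_add]
omit [Fintype F] [DecidableEq F] in
theorem ev_smul_right (c : ZMod 2) (f ζ : Ten P F) : ev f (c • ζ) = c * ev f ζ := by
  simp only [ev, ← tr_smul, Finset.smul_sum, Pi.smul_apply, mul_smul_comm]
omit [Fintype F] [DecidableEq F] in
theorem ev_smul_left (c : ZMod 2) (f ζ : Ten P F) : ev (c • f) ζ = c * ev f ζ := by
  simp only [ev, ← tr_smul, Finset.smul_sum, Pi.smul_apply, smul_mul_assoc]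
omit [Fintype F] [DecidableEq F] in
theorem ev_sum_right {ι : Type} (s : Finset ι) (f : Ten P F) (ζ : ι → Ten P F) :
    ev f (∑ i ∈ s, ζ i) = ∑ i ∈ s, ev f (ζ i) := by
  simp only [ev, ← tr_sum, Finset.sum_apply, Finset.mul_sum]
  rw [Finset.sum_comm]
omit [Fintype F] [DecidableEq F] in
theorem ev_sum_left {ι : Type} (s : Finset ι) (f : ι → Ten P F) (ζ : Ten P F) :
    ev (∑ i ∈ s, f i) ζ = ∑ i ∈ s, ev (f i) ζ := by
  simp only [ev, ← tr_sum, Finset.sum_apply, Finset.sum_mul]
  rw [Finset.sum_comm]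
omit [DecidableEq F] in
theorem ev_U (f : Ten P F) (α : Cur P F) (z : F → ZMod 2) :
    ev f (U α z) = ∑ x, z x * ev f (tau (pt α x)) := by
  simp only [U, ev_sum_right, ev_smul_right]
omit [DecidableEq F] in
theorem ev_nondeg {ζ : Ten P F} (h : ∀ f, ev f ζ = 0) : ζ = 0 := by
  funext ι
  refine tr_nondeg fun y => ?_
  simpa [ev, Pi.single_apply] using h (Pi.single ι y)
omit [DecidableEq F] in
/-- every `ZMod 2`-linear functional on tensors is a trace form -/
theorem exists_ev (φ : Ten P F →ₗ[ZMod 2] ZMod 2) : ∃ f, ∀ ζ, ev f ζ = φ ζ := by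
  have h : ∀ ι, ∃ a : F, ∀ y : F, tr (a * y) = φ (Pi.single ι y) := fun ι =>
    ⟨((Algebra.traceForm (ZMod 2) F).toDual (traceForm_nondegenerate (ZMod 2) F)).symm
      (φ ∘ₗ LinearMap.single (ZMod 2) (fun _ => F) ι), fun y =>
      LinearMap.BilinForm.apply_toDual_symm_apply (hB := traceForm_nondegenerate (ZMod 2) F) _ y⟩
  choose f hf using h
  refine ⟨f, fun ζ => ?_⟩
  rw [ev, tr_sum]
  simp only [hf]
  rw [← map_sum, Finset.univ_sum_single]

omit [Field F] [Algebra (ZMod 2) F] in
theorem eta_dl (x : F) : eta (dl x) = 1 := by simp [eta, dl]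
theorem mom_dl (x : F) (a : ℕ) : mom (dl x) a = x ^ a := by
  simp [mom, dl, ite_smul]
theorem U_dl (α : Cur P F) (x : F) : U α (dl x) = tau (pt α x) := by
  simp [U, dl, ite_smul]
omit [Field F] [Algebra (ZMod 2) F] in
theorem sum_smul_dl (z : F → ZMod 2) : ∑ x, z x • dl x = z := by
  funext y; simp [dl, Finset.sum_apply]
omit [DecidableEq F] in
theorem mom_add (z z' : F → ZMod 2) (a : ℕ) : mom (z + z') a = mom z a + mom z' a := by
  simp [mom, add_smul, Finset.sum_add_distrib]
omit [DecidableEq F] in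
theorem mom_smul (c : ZMod 2) (z : F → ZMod 2) (a : ℕ) : mom (c • z) a = c • mom z a := by
  simp [mom, Finset.smul_sum, mul_smul]
omit [DecidableEq F] in
theorem mom_sum {ι : Type} (s : Finset ι) (z : ι → F → ZMod 2) (a : ℕ) :
    mom (∑ i ∈ s, z i) a = ∑ i ∈ s, mom (z i) a := by
  simp only [mom, Finset.sum_apply, Finset.sum_smul]
  exact Finset.sum_comm
omit [DecidableEq F] in
theorem mom_zero_exp (z : F → ZMod 2) : mom z 0 = algebraMap (ZMod 2) F (eta z) := by
  simp [mom, eta, Algebra.smul_def]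
omit [DecidableEq F] in
theorem mom_two_mul (z : F → ZMod 2) (a : ℕ) : mom z (2 * a) = mom z a ^ 2 := by
  have : CharP F 2 := charP_two
  rw [mom, mom, CharTwo.sum_sq]
  refine Finset.sum_congr rfl fun x _ => ?_
  rcases zmod2_cases (z x) with h | h <;> simp [h, pow_mul']
omit [Field F] [DecidableEq F] [Algebra (ZMod 2) F] in
theorem eta_add (z z' : F → ZMod 2) : eta (z + z') = eta z + eta z' := by
  simp [eta, Finset.sum_add_distrib]
omit [Field F] [DecidableEq F] [Algebra (ZMod 2) F] in
theorem eta_smul (c : ZMod 2) (z : F → ZMod 2) : eta (c • z) = c * eta z := by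
  simp [eta, Finset.mul_sum]
omit [Field F] [DecidableEq F] [Algebra (ZMod 2) F] in
theorem eta_sum {ι : Type} (s : Finset ι) (z : ι → F → ZMod 2) :
    eta (∑ i ∈ s, z i) = ∑ i ∈ s, eta (z i) := by
  simp only [eta, Finset.sum_apply]
  exact Finset.sum_comm
omit [DecidableEq F] in
theorem U_add (α : Cur P F) (z z' : F → ZMod 2) : U α (z + z') = U α z + U α z' := by
  simp [U, add_smul, Finset.sum_add_distrib]
omit [DecidableEq F] in
theorem U_smul (α : Cur P F) (c : ZMod 2) (z : F → ZMod 2) : U α (c • z) = c • U α z := by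
  simp [U, Finset.smul_sum, mul_smul]
omit [DecidableEq F] in
theorem U_sum {ι : Type} (α : Cur P F) (s : Finset ι) (z : ι → F → ZMod 2) :
    U α (∑ i ∈ s, z i) = ∑ i ∈ s, U α (z i) := by
  simp only [U, Finset.sum_apply, Finset.sum_smul]
  exact Finset.sum_comm
omit [DecidableEq F] in
theorem eta_eq_of_U {α β : Cur P F} {z z' : F → ZMod 2} (h : U α z = U β z') :
    eta z = eta z' := by
  have h1 : ∀ (γ : Cur P F) (w : F → ZMod 2),
      U γ w (fun _ => none) = algebraMap (ZMod 2) F (eta w) := fun γ w => by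
    simp [U, tau, hom, eta, Finset.sum_apply, Algebra.smul_def]
  exact (algebraMap (ZMod 2) F).injective (by rw [← h1 α, ← h1 β, h])
omit [DecidableEq F] in
theorem mem_Esp_iff (c : UC P F) (h : Bool) (ζ : Ten P F) :
    ζ ∈ Esp c h ↔ ∃ Z : Bool → F → ZMod 2,
      ζ = U (c false h) (Z false) + U (c true h) (Z true) := by
  rw [Esp, Submodule.mem_span_range_iff_exists_fun]
  constructor
  · rintro ⟨d, rfl⟩
    refine ⟨fun i x => d (i, x), ?_⟩
    rw [Fintype.sum_prod_type, Fintype.sum_bool, add_comm]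
    rfl
  · rintro ⟨Z, rfl⟩
    refine ⟨fun y => Z y.1 y.2, ?_⟩
    rw [Fintype.sum_prod_type, Fintype.sum_bool, add_comm]
    rfl

omit [DecidableEq F] in
theorem Bf_comm (l : Fin P.r) (z z' : F → ZMod 2) : Bf P l z z' = Bf P l z' z := by
  simp only [Bf, Bm]
  congr 1
  exact Finset.sum_congr rfl fun a _ => by ring
omit [DecidableEq F] in
theorem Bf_add_left (l : Fin P.r) (z z' w : F → ZMod 2) :
    Bf P l (z + z') w = Bf P l z w + Bf P l z' w := by
  simp only [Bf, Bm, mom_add, ← tr_add, ← Finset.sum_add_distrib]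
  congr 1
  exact Finset.sum_congr rfl fun a _ => by ring
omit [DecidableEq F] in
theorem Bf_smul_left (l : Fin P.r) (c : ZMod 2) (z w : F → ZMod 2) :
    Bf P l (c • z) w = c * Bf P l z w := by
  simp only [Bf, Bm, mom_smul, ← tr_smul, Finset.smul_sum]
  congr 1
  exact Finset.sum_congr rfl fun a _ => by simp [smul_add]
omit [DecidableEq F] in
theorem Bf_sum_left {ι : Type} (l : Fin P.r) (s : Finset ι) (z : ι → F → ZMod 2)
    (w : F → ZMod 2) : Bf P l (∑ i ∈ s, z i) w = ∑ i ∈ s, Bf P l (z i) w := by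
  classical
  induction s using Finset.induction_on with
  | empty => simp [Bf, Bm, mom, tr_zero]
  | insert a s ha ih => rw [Finset.sum_insert ha, Finset.sum_insert ha, Bf_add_left, ih]
omit [DecidableEq F] in
/-- `Bf` only sees the moments up to `K` -/
theorem Bf_congr (hP : P.Ok) (l : Fin P.r) {z z' : F → ZMod 2} (w : F → ZMod 2)
    (h : ∀ a, a ≤ P.K → mom z a = mom z' a) : Bf P l z w = Bf P l z' w := by
  simp only [Bf, Bm]
  congr 1
  refine Finset.sum_congr rfl fun a _ => ?_
  have h1 := hP.ex_le l a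
  have h2 := P.lt_ex l a
  have h3 := a.2
  rw [h _ h1, h a (by omega)]

omit [Fintype F] [DecidableEq F] [Algebra (ZMod 2) F] in
theorem hom_pt (α : Cur P F) (x : F) :
    hom (pt α x) = ∑ a : Fin (P.K + 1), x ^ (a : ℕ) • hc α a := by
  funext o
  rw [Finset.sum_apply]
  cases o with
  | none => simp [hom, hc]
  | some i => simp [hom, hc, pt, mul_comm]
omit [Fintype F] [DecidableEq F] [Algebra (ZMod 2) F] in
theorem hom_pt_mem (α : Cur P F) (x : F) : hom (pt α x) ∈ Wsp α := by
  rw [hom_pt]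
  exact Submodule.sum_mem _ fun a _ => Submodule.smul_mem _ _ (Submodule.subset_span ⟨a, rfl⟩)
omit [Fintype F] [DecidableEq F] [Algebra (ZMod 2) F] in
theorem pl_eval (α : Cur P F) (g : HV P F) (x : F) :
    (pl α g).eval x = dot g (hom (pt α x)) := by
  simp only [pl, dot, hom_pt, eval_finset_sum, eval_mul, eval_C, eval_pow, eval_X,
    Finset.sum_apply, Pi.smul_apply, smul_eq_mul, Finset.sum_mul, Finset.mul_sum]
  rw [Finset.sum_comm]
  exact Finset.sum_congr rfl fun _ _ => Finset.sum_congr rfl fun _ _ => by ring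
omit [Fintype F] [DecidableEq F] [Algebra (ZMod 2) F] in
theorem pl_natDegree (α : Cur P F) (g : HV P F) : (pl α g).natDegree ≤ P.K := by
  exact natDegree_sum_le_of_forall_le _ _ fun a _ =>
    (natDegree_C_mul_X_pow_le _ _).trans (Nat.lt_succ_iff.1 a.2)
omit [Fintype F] [DecidableEq F] [Algebra (ZMod 2) F] in
theorem pl_coeff (α : Cur P F) (g : HV P F) (a : Fin (P.K + 1)) :
    (pl α g).coeff a = dot g (hc α a) := by
  simp only [pl, finset_sum_coeff, coeff_C_mul_X_pow, Fin.val_inj]
  simp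
omit [Fintype F] [DecidableEq F] [Algebra (ZMod 2) F] in
theorem pl_add (α : Cur P F) (g g' : HV P F) : pl α (g + g') = pl α g + pl α g' := by
  simp [pl, dot, add_mul, Finset.sum_add_distrib]
omit [Fintype F] [DecidableEq F] [Algebra (ZMod 2) F] in
theorem pl_smul (α : Cur P F) (c : F) (g : HV P F) : pl α (c • g) = C c * pl α g := by
  have h : ∀ v, dot (c • g) v = c * dot g v := fun v => by
    simp only [dot, Pi.smul_apply, smul_eq_mul, mul_assoc, Finset.mul_sum]
  simp only [pl, h, C_mul, mul_assoc, Finset.mul_sum]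
omit [Fintype F] [DecidableEq F] [Algebra (ZMod 2) F] in
/-- the functional reading the homogenising coordinate gives the constant polynomial one -/
theorem pl_none (α : Cur P F) : pl α (fun o => o.elim 1 fun _ => 0) = 1 := by
  simp only [pl, dot, Fintype.sum_option, hc, Option.elim_none, Option.elim_some, zero_mul,
    Finset.sum_const_zero, add_zero, one_mul]
  rw [Finset.sum_eq_single 0 (fun a _ ha => by simp [ha]) (by simp)]
  simp
omit [Fintype F] [DecidableEq F] [Algebra (ZMod 2) F] in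
theorem cp_eval (α : Cur P F) (o : Option (Fin P.n)) (x : F) :
    (cp α o).eval x = hom (pt α x) o := by
  simp only [cp, hom_pt, eval_finset_sum, Finset.sum_apply, eval_mul, eval_C, eval_pow, eval_X,
    Pi.smul_apply, smul_eq_mul]
  exact Finset.sum_congr rfl fun _ _ => mul_comm _ _
omit [Fintype F] [DecidableEq F] [Algebra (ZMod 2) F] in
theorem cp_natDegree (α : Cur P F) (o : Option (Fin P.n)) : (cp α o).natDegree ≤ P.K := by
  exact natDegree_sum_le_of_forall_le _ _ fun a _ =>
    (natDegree_C_mul_X_pow_le _ _).trans (Nat.lt_succ_iff.1 a.2)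
omit [Fintype F] [DecidableEq F] in
theorem fp_eval (f : Ten P F) (α : Cur P F) (x : F) :
    tr ((fp f α).eval x) = ev f (tau (pt α x)) := by
  simp only [fp, ev, tau, eval_finset_sum, eval_mul, eval_C, eval_prod, cp_eval]
omit [Fintype F] [DecidableEq F] [Algebra (ZMod 2) F] in
theorem fp_natDegree (f : Ten P F) (α : Cur P F) : (fp f α).natDegree ≤ 3 * P.K := by
  refine natDegree_sum_le_of_forall_le _ _ fun ι _ => (natDegree_C_mul_le _ _).trans
    ((natDegree_prod_le _ _).trans ?_)
  exact (Finset.sum_le_sum fun φ _ => cp_natDegree α (ι φ)).trans (by simp)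
omit [Fintype F] [DecidableEq F] [Algebra (ZMod 2) F] in
theorem evT_tau (g : Fin 3 → HV P F) (ξ : Pt P F) :
    evT g (tau ξ) = ∏ φ, dot (g φ) (hom ξ) := by
  simp only [evT, tau, dot, ← Finset.prod_mul_distrib]
  rw [Fintype.prod_sum]
omit [Fintype F] [DecidableEq F] [Algebra (ZMod 2) F] in
theorem evT_add (g : Fin 3 → HV P F) (ζ ζ' : Ten P F) :
    evT g (ζ + ζ') = evT g ζ + evT g ζ' := by
  simp [evT, mul_add, Finset.sum_add_distrib]
omit [DecidableEq F] in
theorem evT_U (g : Fin 3 → HV P F) (α : Cur P F) (z : F → ZMod 2) :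
    evT g (U α z) = ∑ x, z x • (∏ φ, pl α (g φ)).eval x := by
  simp only [eval_prod, pl_eval, ← evT_tau]
  simp only [evT, U, Finset.sum_apply, Pi.smul_apply, Finset.mul_sum, Finset.smul_sum,
    mul_smul_comm]
  exact Finset.sum_comm
omit [Fintype F] [DecidableEq F] [Algebra (ZMod 2) F] in
theorem evT_nondeg {ζ : Ten P F} (h : ∀ g, evT g ζ = 0) : ζ = 0 := by
  funext ι
  have h1 := h fun φ => Pi.single (ι φ) 1
  rw [evT, Finset.sum_eq_single ι (fun ι' _ hι => ?_) (by simp)] at h1
  · simpa using h1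
  · obtain ⟨φ, hφ⟩ := Function.ne_iff.1 hι
    rw [Finset.prod_eq_zero (Finset.mem_univ φ) (Pi.single_eq_of_ne hφ _), zero_mul]

end Field

end Vale.Agent.P060
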