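import Vale.Agent.P060.Basic

/-! # Bookkeeping lemmas for the chain (helper60) -/

open Finset Polynomial
open scoped BigOperators

namespace Vale.Agent.P060

variable {P : Par} {F : Type} [Field F] [Fintype F] [DecidableEq F] [Algebra (ZMod 2) F]

omit [Algebra (ZMod 2) F] in
theorem Qf_eq_mass (μ : Un P F → ℝ) (w w' : Un P F → Lab F → ℝ) :
    Qf μ w w' = mass μ fun u ω => w u ω * Nw μ w' (tp (key (crv u) ω)) :=
  expect_Nw_mul μ w fun κ => Nw μ w' (tp κ)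

omit [Field F] [DecidableEq F] [Algebra (ZMod 2) F] in
theorem mass_mul_const (μ : Un P F → ℝ) (w : Un P F → Lab F → ℝ) (c : ℝ) :
    mass μ (fun u ω => w u ω * c) = mass μ w * c := by
  simp only [mass, ← mul_assoc, Finset.expect_mul]

omit [Field F] [DecidableEq F] [Algebra (ZMod 2) F] in
theorem mass_sum {ι : Type} [Fintype ι] (μ : Un P F → ℝ) (w : ι → Un P F → Lab F → ℝ) :
    mass μ (fun u ω => ∑ i, w i u ω) = ∑ i, mass μ (w i) := by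
  simp only [mass, Finset.mul_sum, Finset.expect_sum_comm]

omit [Algebra (ZMod 2) F] in
theorem Q_drop {μ : Un P F → ℝ} (hμ : ∀ u, 0 ≤ μ u) {w w1 b w' : Un P F → Lab F → ℝ}
    (h0 : ∀ u ω, 0 ≤ w' u ω) (h1 : ∀ u ω, w' u ω ≤ ind (Lt μ (key (crv u) ω)))
    (hb : ∀ u ω, 0 ≤ b u ω) (h : ∀ u ω, w u ω ≤ w1 u ω + b u ω) :
    Qf μ w w' ≤ Qf μ w1 w' + 2 * mass μ b := by
  rw [Qf_eq_mass, Qf_eq_mass, mul_comm 2, ← mass_mul_const, ← mass_add]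
  refine mass_mono hμ fun u ω => ?_
  have a0 := Nw_nonneg hμ h0 (tp (key (crv u) ω))
  have a2 := Nw_le_two hμ h1 (tp (key (crv u) ω))
  nlinarith [h u ω, hb u ω]

omit [Algebra (ZMod 2) F] in
theorem Q_drop2 {μ : Un P F → ℝ} (hμ : ∀ u, 0 ≤ μ u) {w w1 w' w1' b : Un P F → Lab F → ℝ}
    (h0 : ∀ u ω, 0 ≤ w' u ω) (h1 : ∀ u ω, w' u ω ≤ ind (Lt μ (key (crv u) ω)))
    (h0' : ∀ u ω, 0 ≤ w1 u ω) (h1' : ∀ u ω, w1 u ω ≤ ind (Lt μ (key (crv u) ω)))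
    (hb : ∀ u ω, 0 ≤ b u ω) (h : ∀ u ω, w u ω ≤ w1 u ω + b u ω)
    (h' : ∀ u ω, w' u ω ≤ w1' u ω + b u ω) :
    Qf μ w w' ≤ Qf μ w1 w1' + 4 * mass μ b := by
  have e1 := Q_drop hμ h0 h1 hb h
  have e2 := Q_drop hμ h0' h1' hb h'
  rw [Qf_comm μ w' w1, Qf_comm μ w1' w1] at e2
  linarith

omit [Algebra (ZMod 2) F] in
theorem Q_mono_left {μ : Un P F → ℝ} (hμ : ∀ u, 0 ≤ μ u) {w w1 w' : Un P F → Lab F → ℝ}
    (h0 : ∀ u ω, 0 ≤ w' u ω) (h : ∀ u ω, w u ω ≤ w1 u ω) : Qf μ w w' ≤ Qf μ w1 w' := by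
  rw [Qf_eq_mass, Qf_eq_mass]
  exact mass_mono hμ fun u ω => mul_le_mul_of_nonneg_right (h u ω) (Nw_nonneg hμ h0 _)

omit [Algebra (ZMod 2) F] in
theorem Q_sum_left {ι : Type} [Fintype ι] (μ : Un P F → ℝ) (w : ι → Un P F → Lab F → ℝ)
    (w' : Un P F → Lab F → ℝ) :
    Qf μ (fun u ω => ∑ i, w i u ω) w' = ∑ i, Qf μ (w i) w' := by
  simp only [Qf_eq_mass, Finset.sum_mul, mass_sum]

omit [Algebra (ZMod 2) F] in
theorem Q_zero_left (μ : Un P F → ℝ) (w' : Un P F → Lab F → ℝ) :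
    Qf μ (fun _ _ => 0) w' = 0 := by
  simp [Qf_eq_mass, mass]

omit [Algebra (ZMod 2) F] in
/-- pigeonhole on both sides -/
theorem Q_pigeon {ι : Type} [Fintype ι] [Nonempty ι] {μ : Un P F → ℝ} (hμ : ∀ u, 0 ≤ μ u)
    {w : Un P F → Lab F → ℝ} (v : ι → Un P F → Lab F → ℝ) (h0 : ∀ u ω, 0 ≤ w u ω)
    (hv : ∀ i u ω, 0 ≤ v i u ω) (h : ∀ u ω, w u ω ≤ ∑ i, v i u ω) {c : ℝ} (hc : c ≤ Qf μ w w) :
    ∃ i j, c / (Fintype.card ι : ℝ) ^ 2 ≤ Qf μ (v i) (v j) := by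
  have e1 : Qf μ w w ≤ ∑ i, Qf μ (v i) w := by
    rw [← Q_sum_left]; exact Q_mono_left hμ h0 h
  have e2 : ∀ i, Qf μ (v i) w ≤ ∑ j, Qf μ (v i) (v j) := fun i => by
    rw [Qf_comm]
    refine (Q_mono_left hμ (hv i) h).trans (le_of_eq ?_)
    rw [Q_sum_left]
    exact Finset.sum_congr rfl fun j _ => Qf_comm _ _ _
  by_contra hcon
  push Not at hcon
  have hpos : (0 : ℝ) < Fintype.card ι := by exact_mod_cast Fintype.card_pos
  have e3 : ∑ i, ∑ j, Qf μ (v i) (v j) < ∑ _i : ι, ∑ _j : ι, c / (Fintype.card ι : ℝ) ^ 2 :=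
    Finset.sum_lt_sum_of_nonempty univ_nonempty fun i _ =>
      Finset.sum_lt_sum_of_nonempty univ_nonempty fun j _ => hcon i j
  have e4 : ∑ _i : ι, ∑ _j : ι, c / (Fintype.card ι : ℝ) ^ 2 = c := by
    simp only [Finset.sum_const, Finset.card_univ, nsmul_eq_mul]
    field_simp
  have e5 : ∑ i, Qf μ (v i) w ≤ ∑ i, ∑ j, Qf μ (v i) (v j) := Finset.sum_le_sum fun i _ => e2 i
  linarith

omit [Algebra (ZMod 2) F] in
theorem pairE_add (μ : Un P F → ℝ) (Φ Ψ : Un P F → Lab F → Un P F → Lab F → ℝ) :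
    pairE μ (fun u ω u' ω' => Φ u ω u' ω' + Ψ u ω u' ω') = pairE μ Φ + pairE μ Ψ := by
  simp only [pairE, mul_add, Finset.expect_add_distrib]

omit [Algebra (ZMod 2) F] in
theorem pairE_le {μ : Un P F → ℝ} (hμ : ∀ u, 0 ≤ μ u) (Φ : Un P F → Lab F → Un P F → Lab F → ℝ)
    (C : Un P F → Un P F → ℝ) (hC : ∀ u u', 0 ≤ C u u')
    (h : ∀ u ω u' ω', key (crv u) ω = tp (key (crv u') ω') → Φ u ω u' ω' ≤ C u u') :
    pairE μ Φ ≤ (Fintype.card (Key P F) : ℝ) * 𝔼 u, 𝔼 u', μ u * μ u' * C u u' := by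
  unfold pairE
  refine mul_le_mul_of_nonneg_left (expect_mono fun u => ?_) (Nat.cast_nonneg _)
  refine expect_le_of_le (expect_nonneg' fun u' =>
    mul_nonneg (mul_nonneg (hμ _) (hμ _)) (hC _ _)) fun ω => expect_mono fun u' => ?_
  have hn : 0 ≤ μ u * μ u' := mul_nonneg (hμ _) (hμ _)
  refine expect_le_of_le (mul_nonneg hn (hC _ _)) fun ω' => ?_
  by_cases hk : key (crv u) ω = tp (key (crv u') ω')
  · rw [ind_pos hk, mul_one]
    exact mul_le_mul_of_nonneg_left (h _ _ _ _ hk) hn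
  · rw [ind_neg hk, mul_zero, zero_mul]
    exact mul_nonneg hn (hC _ _)

omit [Field F] [DecidableEq F] [Algebra (ZMod 2) F] in
/-- mass of an event whose conditional label probability is bounded -/
theorem mass_le_of_cond {μ : Un P F → ℝ} (hμ : ∀ u, 0 ≤ μ u) (h1 : 𝔼 u, μ u = 1)
    (p : Un P F → Prop) (E : Un P F → Lab F → Prop) {c : ℝ} (hc : 0 ≤ c)
    (h : ∀ u, p u → 𝔼 ω, ind (E u ω) ≤ c) : mass μ (fun u ω => ind (p u ∧ E u ω)) ≤ c := by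
  simp only [mass, ← Finset.mul_expect]
  calc 𝔼 u, μ u * 𝔼 ω, ind (p u ∧ E u ω) ≤ 𝔼 u, μ u * c := by
        refine expect_mono fun u => mul_le_mul_of_nonneg_left ?_ (hμ u)
        by_cases hp : p u
        · simpa [hp] using h u hp
        · simp [hp, ind_neg, hc]
    _ = c := by rw [← Finset.expect_mul, h1, one_mul]

end Vale.Agent.P060
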