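import Vale.Agent.P060.Basic

/-!
# Independence of points on random curves (task Indep)
For v : J → Pt there is a vertex b0 (Lagrange interpolation in each half and coordinate; at most
K + 1 distinct nodes) with vp b0 (e j) = v j and vp b0 (e' j') = 0.  vp is additive in the vertex,
and translation by b0 preserves the uniform measure; average over v.
-/

open Finset Polynomial
open scoped BigOperators

namespace Vale.Agent.P060

variable {P : Par} {F : Type} [Field F] [Fintype F] [DecidableEq F] [Algebra (ZMod 2) F]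

omit [Fintype F] [Algebra (ZMod 2) F] in
theorem IndepAux.exists_vertex (S : Finset (Bool × F)) (hS : S.card ≤ P.K + 1)
    (r : Bool × F → Pt P F) : ∃ b : Vx P F, ∀ y ∈ S, vp b y = r y := by
  let T : Bool → Finset F := fun h => (S.filter fun y => y.1 = h).image Prod.snd
  have hT : ∀ h, (T h).card ≤ P.K + 1 := fun h =>
    Finset.card_image_le.trans ((Finset.card_filter_le _ _).trans hS)
  let p : Bool → Fin P.n → F[X] := fun h i => Lagrange.interpolate (T h) id fun x => r (h, x) i
  refine ⟨(fun h a i => (p h i).coeff a, 0), ?_⟩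
  rintro ⟨h, x⟩ hy
  funext i
  have h1 : (p h i).eval x = r (h, x) i :=
    Lagrange.eval_interpolate_at_node (v := id) (fun x => r (h, x) i) (Set.injOn_id _)
      (Finset.mem_image.2 ⟨(h, x), Finset.mem_filter.2 ⟨hy, rfl⟩, rfl⟩)
  have h2 : (p h i).natDegree < P.K + 1 := by
    by_cases h0 : p h i = 0
    · rw [h0]; simp
    · rw [natDegree_lt_iff_degree_lt h0]
      exact (Lagrange.degree_interpolate_lt _ (Set.injOn_id _)).trans_le (by exact_mod_cast hT h)
  rw [← h1, eval_eq_sum_range' h2, Finset.sum_range]
  rfl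

omit [Fintype F] [DecidableEq F] [Algebra (ZMod 2) F] in
theorem IndepAux.vp_add (b b' : Vx P F) (y : Bool × F) : vp (b + b') y = vp b y + vp b' y := by
  funext i
  simp [vp, pt, add_mul, Finset.sum_add_distrib]

theorem indep_vp : Indep (P.K + 1) (vp : Vx P F → Bool × F → Pt P F) := by
  classical
  intro J J' _ _ _ e e' he hee hc G
  have key : ∀ v : J → Pt P F, ∃ b : Vx P F, (∀ j, vp b (e j) = v j) ∧ ∀ j, vp b (e' j) = 0 := by
    intro v
    obtain ⟨b, hb⟩ := IndepAux.exists_vertex (P := P) (univ.image e ∪ univ.image e')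
      ((Finset.card_union_le _ _).trans
        ((add_le_add Finset.card_image_le Finset.card_image_le).trans hc))
      (Function.extend e v 0)
    refine ⟨b, fun j => ?_, fun j => ?_⟩
    · rw [hb _ (by simp), he.extend_apply]
    · rw [hb _ (by simp), Function.extend_apply' _ _ _ (by rintro ⟨i, hi⟩; exact hee i j hi)]
      rfl
  have h1 : ∀ v : J → Pt P F, 𝔼 b : Vx P F, G (fun j => vp b (e j)) (fun j => vp b (e' j)) =
      𝔼 b : Vx P F, G (v + fun j => vp b (e j)) (fun j => vp b (e' j)) := by
    intro v
    obtain ⟨b0, h0, h0'⟩ := key v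
    rw [← expect_add_right (fun b : Vx P F => G (fun j => vp b (e j)) (fun j => vp b (e' j))) b0]
    refine Finset.expect_congr rfl fun b _ => ?_
    simp only [IndepAux.vp_add, h0, h0', add_zero]
    congr 1
    funext j
    rw [Pi.add_apply, add_comm]
  calc 𝔼 b : Vx P F, G (fun j => vp b (e j)) (fun j => vp b (e' j))
      = 𝔼 _v : J → Pt P F, 𝔼 b : Vx P F, G (fun j => vp b (e j)) (fun j => vp b (e' j)) :=
        (Finset.expect_const Finset.univ_nonempty _).symm
    _ = 𝔼 v : J → Pt P F, 𝔼 b : Vx P F, G (v + fun j => vp b (e j)) (fun j => vp b (e' j)) :=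
        Finset.expect_congr rfl fun v _ => h1 v
    _ = 𝔼 b : Vx P F, 𝔼 v : J → Pt P F, G (v + fun j => vp b (e j)) (fun j => vp b (e' j)) :=
        Finset.expect_comm _ _ _
    _ = _ := Finset.expect_congr rfl fun b _ =>
        expect_add_right (fun v => G v (fun j => vp b (e' j))) _

end Vale.Agent.P060
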