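import Vale.Agent.P060.Rare
import Vale.Agent.P060.Indep

/-!
# Heavy vectors (task Clean)
heavy_card: for a light key κ, the sum over b of Nw (ind (b ∈ Wsp)) κ is ≤ q^(K+1) Nw 1 κ ≤ 2 q^(K+1),
so there are at most 2 q^(K+1) q^(n/2) heavy b.
dirty_mass: fix i, h.  Apply rare2 with A = Vx × (Bool × Bool → F) (vertex i with its four labels),
B = Vx (the other vertex), ι = Bool × Bool (column, half), t = 200, S = (the combined key κ is light
and some Heavy μ κ i h b lies in Wsp of the curve of vertex i in half h).  Density of S: union over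
co : Fin (K+1) → F with b = sum co a • hc α a; since b is not in Ksp, co is not in the span of the two
vectors (x_j^a)_a, so there is λ with λ·(x_j^a) = 0, λ·co = 1, and translating α a by λ a • v keeps all keys
and moves b by v.  Hence the density is ≤ q^(K+1) 2 q^(K+1) q^(n/2) / q^n ≤ β^2 with β = q^(K+2) / q^(n/4).
Numerics: 30 n + 200 (K + 6) - 50 n < 0.
-/

open Finset Polynomial
open scoped BigOperators

namespace Vale.Agent.P060

variable {P : Par} {F : Type} [Field F] [Fintype F] [DecidableEq F] [Algebra (ZMod 2) F]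

namespace CleanAux

/-- put `x` at position `i` and `y` at the other position -/
def jn {X : Type} (i : Bool) (x y : X) : Bool → X := fun i' => if i' = i then x else y

theorem jn_self {X : Type} (i : Bool) (x y : X) : jn i x y i = x := if_pos rfl

theorem expect_jn {X : Type} [Fintype X] (i : Bool) (g : (Bool → X) → ℝ) :
    𝔼 u, g u = 𝔼 x, 𝔼 y, g (jn i x y) := by
  cases i
  · rw [← expect_bool_fun fun x y => g (jn false x y)]
    refine Finset.expect_congr rfl fun u _ => congrArg g (funext fun b => ?_)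
    cases b <;> rfl
  · rw [Finset.expect_comm, ← expect_bool_fun fun y x => g (jn true x y)]
    refine Finset.expect_congr rfl fun u _ => congrArg g (funext fun b => ?_)
    cases b <;> rfl

/-- regroup slots and halves by vertex -/
def rsh {X : Type} (z : Bool → Bool × Bool → X) : Bool × Bool → Bool → X :=
  fun s h => z s.1 (s.2, h)

theorem expect_rsh {X : Type} [Fintype X] (g : (Bool × Bool → Bool → X) → ℝ) :
    𝔼 ω, g ω = 𝔼 z, g (rsh z) :=
  (Fintype.expect_equiv (⟨rsh, fun ω i c => ω (i, c.1) c.2, fun _ => rfl, fun _ => rfl⟩ :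
    (Bool → Bool × Bool → X) ≃ (Bool × Bool → Bool → X)) _ _ fun _ => rfl).symm

omit [Fintype F] [DecidableEq F] [Algebra (ZMod 2) F] in
theorem key_jn (i : Bool) (v b : Vx P F) (x y : Bool × Bool → F) :
    key (crv (jn i v b)) (rsh (jn i x y)) =
      rsh (jn i (fun c => vp v (c.2, x c)) fun c => vp b (c.2, y c)) := by
  funext s h
  by_cases hs : s.1 = i <;> simp [key, crv, rsh, jn, pts, vp, hs]

omit [DecidableEq F] [Algebra (ZMod 2) F] in
theorem Nw_sum {ι : Type} [Fintype ι] (μ : Un P F → ℝ) (w : ι → Un P F → Lab F → ℝ)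
    (κ : Key P F) : ∑ b, Nw μ (w b) κ = Nw μ (fun u ω => ∑ b, w b u ω) κ := by
  simp only [Nw, mass, Finset.sum_mul, Finset.mul_sum, Finset.expect_sum_comm]

omit [Algebra (ZMod 2) F] in
theorem Nw_const (μ : Un P F → ℝ) (c : ℝ) (κ : Key P F) :
    Nw μ (fun _ _ => c) κ = Nw μ (fun _ _ => 1) κ * c := by
  simpa using Nw_mul_key μ (fun _ _ => 1) (fun _ => c) κ

omit [DecidableEq F] [Algebra (ZMod 2) F] in
theorem sum_Wsp (α : Cur P F) :
    ∑ b, ind (b ∈ Wsp α) ≤ (Fintype.card F : ℝ) ^ (P.K + 1) := by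
  calc ∑ b, ind (b ∈ Wsp α)
      ≤ ∑ b, ∑ co : Fin (P.K + 1) → F, ind (∑ a, co a • hc α a = b) :=
        Finset.sum_le_sum fun b _ => (ind_mono fun hb =>
          (Submodule.mem_span_range_iff_exists_fun F).1 hb).trans (ind_exists_le _)
    _ = _ := by
        rw [Finset.sum_comm]
        simp only [sum_ind_eq]
        simp

omit [Algebra (ZMod 2) F] in
theorem heavy_card {μ : Un P F → ℝ} (hμ : ∀ u, 0 ≤ μ u) (κ : Key P F) (i h : Bool) :
    ∑ b, ind (Lt μ κ ∧ Heavy μ κ i h b) ≤
      (Fintype.card F : ℝ) ^ (P.n / 2) * (2 * (Fintype.card F : ℝ) ^ (P.K + 1)) := by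
  have hq : (0 : ℝ) < Fintype.card F := by exact_mod_cast Fintype.card_pos
  by_cases hL : Lt μ κ
  swap
  · simp only [hL, false_and, ind_neg not_false, Finset.sum_const_zero]
    positivity
  calc ∑ b, ind (Lt μ κ ∧ Heavy μ κ i h b)
      ≤ ∑ b, (Fintype.card F : ℝ) ^ (P.n / 2) * Nw μ (fun u _ => ind (b ∈ Wsp ((u i).1 h))) κ := by
        refine Finset.sum_le_sum fun b _ => ?_
        by_cases hb : Lt μ κ ∧ Heavy μ κ i h b
        · have := hb.2.2
          rw [div_le_iff₀ (by positivity)] at this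
          rw [ind_pos hb, mul_comm]
          exact this
        · rw [ind_neg hb]
          exact mul_nonneg (by positivity) (Nw_nonneg hμ (fun _ _ => ind_nonneg _) κ)
    _ ≤ _ := by
        rw [← Finset.mul_sum, Nw_sum]
        gcongr
        refine (Nw_mono hμ (fun u _ => sum_Wsp ((u i).1 h)) κ).trans ?_
        rw [Nw_const]
        exact mul_le_mul_of_nonneg_right hL (by positivity)

omit [Algebra (ZMod 2) F] in
theorem dens_co {μ : Un P F → ℝ} (hμ : ∀ u, 0 ≤ μ u) (i h : Bool) (x : Bool × Bool → F)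
    (ξ : Bool × Bool → Pt P F) (co : Fin (P.K + 1) → F) :
    𝔼 v : Vx P F, ind (Lt μ (rsh (jn i (fun c => vp v (c.2, x c)) ξ)) ∧
      Heavy μ (rsh (jn i (fun c => vp v (c.2, x c)) ξ)) i h (∑ a, co a • hc (v.1 h) a)) ≤
      (Fintype.card F : ℝ) ^ (P.n / 2) * (2 * (Fintype.card F : ℝ) ^ (P.K + 1)) /
        (Fintype.card F : ℝ) ^ P.n := by
  have hq : (0 : ℝ) < Fintype.card F := by exact_mod_cast Fintype.card_pos
  by_cases hco : co ∈ Submodule.span F
    (Set.range fun (j : Bool) (a : Fin (P.K + 1)) => x (j, h) ^ (a : ℕ))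
  · refine expect_le_of_le (by positivity) fun v => ?_
    rw [ind_neg]
    · positivity
    rintro ⟨-, hb, -⟩
    apply hb
    obtain ⟨e, rfl⟩ := (Submodule.mem_span_range_iff_exists_fun F).1 hco
    simp only [Finset.sum_apply, Finset.sum_smul, Pi.smul_apply, smul_assoc]
    rw [Finset.sum_comm]
    refine Submodule.sum_mem _ fun j _ => ?_
    rw [← Finset.smul_sum, ← hom_pt]
    refine Submodule.smul_mem _ _ (Submodule.subset_span ⟨(i, j), ?_⟩)
    simp only [rsh, jn_self, vp]
  obtain ⟨φ, hφ, hφ0⟩ := Submodule.exists_dual_map_eq_bot_of_notMem hco inferInstance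
  let lam : Fin (P.K + 1) → F := fun a => (φ co)⁻¹ * φ fun j => if a = j then 1 else 0
  have hlam : ∀ y : Fin (P.K + 1) → F, ∑ a, y a * lam a = (φ co)⁻¹ * φ y := by
    intro y
    rw [LinearMap.pi_apply_eq_sum_univ φ y, Finset.mul_sum]
    exact Finset.sum_congr rfl fun a _ => by simp only [lam, smul_eq_mul]; ring
  have h1 : ∑ a, co a * lam a = 1 := by rw [hlam, inv_mul_cancel₀ hφ]
  have h2 : ∀ j, ∑ a : Fin (P.K + 1), x (j, h) ^ (a : ℕ) * lam a = 0 := by
    intro j
    rw [hlam, (Submodule.eq_bot_iff _).1 hφ0 _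
      (Submodule.mem_map_of_mem (Submodule.subset_span ⟨j, rfl⟩)), mul_zero]
  let dw : Pt P F → Vx P F := fun w => (Pi.single h fun a => lam a • w, 0)
  let io : Pt P F → HV P F := fun w o => o.elim 0 w
  have h3 : ∀ (w : Pt P F) (c : Bool × Bool), vp (dw w) (c.2, x c) = 0 := by
    rintro w ⟨j, h'⟩
    funext o
    by_cases hh : h' = h
    · subst hh
      simp only [vp, dw, pt, Pi.single_eq_same, Pi.smul_apply, smul_eq_mul, Pi.zero_apply]
      rw [← mul_zero (w o), ← h2 j, Finset.mul_sum]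
      exact Finset.sum_congr rfl fun a _ => by ring
    · simp [vp, dw, pt, Pi.single_eq_of_ne hh]
  have h4 : ∀ (v : Vx P F) (w : Pt P F),
      ∑ a, co a • hc ((v + dw w).1 h) a = ∑ a, co a • hc (v.1 h) a + io w := by
    intro v w
    funext o
    cases o with
    | none => simp [hc, io]
    | some o =>
      simp only [hc, io, dw, Finset.sum_apply, Pi.add_apply, Pi.smul_apply, Prod.fst_add,
        Pi.single_eq_same, Option.elim_some, smul_eq_mul, mul_add, Finset.sum_add_distrib,
        ← mul_assoc, ← Finset.sum_mul, h1, one_mul]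
  have h5 : Function.Injective io := fun w w' hw => funext fun o => congrFun hw (some o)
  set G : Vx P F → ℝ := fun v => ind (Lt μ (rsh (jn i (fun c => vp v (c.2, x c)) ξ)) ∧
      Heavy μ (rsh (jn i (fun c => vp v (c.2, x c)) ξ)) i h (∑ a, co a • hc (v.1 h) a)) with hG
  calc 𝔼 v, G v = 𝔼 w : Pt P F, 𝔼 v, G (v + dw w) := by
        simp only [expect_add_right G]
        exact (Finset.expect_const univ_nonempty _).symm
    _ = 𝔼 v, 𝔼 w : Pt P F, G (v + dw w) := Finset.expect_comm _ _ _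
    _ ≤ _ := by
        refine expect_le_of_le (by positivity) fun v => ?_
        simp only [hG, IndepAux.vp_add, h3, add_zero, h4]
        rw [Fintype.expect_eq_sum_div_card, Fintype.card_fun, Fintype.card_fin, Nat.cast_pow]
        gcongr
        refine le_trans ?_ (heavy_card hμ (rsh (jn i (fun c => vp v (c.2, x c)) ξ)) i h)
        classical
        rw [← Finset.sum_image (s := univ) (g := fun w => ∑ a, co a • hc (v.1 h) a + io w)
          (f := fun b => ind (Lt μ (rsh (jn i (fun c => vp v (c.2, x c)) ξ)) ∧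
            Heavy μ (rsh (jn i (fun c => vp v (c.2, x c)) ξ)) i h b))
          fun w _ w' _ hw => h5 (add_left_cancel hw)]
        exact Finset.sum_le_sum_of_subset_of_nonneg (subset_univ _) fun _ _ _ => ind_nonneg _

/-- the bad event for vertex `i` and half `h` -/
def TB (μ : Un P F → ℝ) (i h : Bool) (κ : Key P F) (α : Cur P F) : Prop :=
  Lt μ κ ∧ ∃ b, Heavy μ κ i h b ∧ b ∈ Wsp α

omit [Algebra (ZMod 2) F] in
theorem dens {μ : Un P F → ℝ} (hμ : ∀ u, 0 ≤ μ u) (i h : Bool) (x : Bool × Bool → F)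
    (ξ : Bool × Bool → Pt P F) :
    𝔼 v : Vx P F, ind (TB μ i h (rsh (jn i (fun c => vp v (c.2, x c)) ξ)) (v.1 h)) ≤
      (Fintype.card F : ℝ) ^ (P.K + 1) * ((Fintype.card F : ℝ) ^ (P.n / 2) *
        (2 * (Fintype.card F : ℝ) ^ (P.K + 1)) / (Fintype.card F : ℝ) ^ P.n) := by
  have h1 := Finset.sum_le_sum fun co (_ : co ∈ univ) => dens_co hμ i h x ξ co
  rw [Finset.sum_const, card_univ, nsmul_eq_mul, Fintype.card_fun, Fintype.card_fin, Nat.cast_pow,
    ← Finset.expect_sum_comm] at h1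
  refine le_trans (expect_mono fun v => le_trans (ind_mono ?_) (ind_exists_le _)) h1
  rintro ⟨hL, b, hb, hW⟩
  obtain ⟨co, rfl⟩ := (Submodule.mem_span_range_iff_exists_fun F).1 hW
  exact ⟨co, hL, hb⟩

theorem mass_TB (hP : P.Ok) {μ : Un P F → ℝ} (hμ : Adm μ) (hq : (2 : ℝ) ≤ Fintype.card F)
    (i h : Bool) : mass μ (fun u ω => ind (TB μ i h (key (crv u) ω) ((u i).1 h))) ≤
      3218 / (Fintype.card F : ℝ) := by
  obtain ⟨m, hm, hm'⟩ : ∃ m, P.n = 4 * m ∧ 200 * (P.K + 1) ≤ m :=
    ⟨200 * (P.R + 1) * (P.K + 1), by rw [hP.hn]; ring,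
      Nat.mul_le_mul_right _ (by omega)⟩
  have hK := hP.K_ge
  set q : ℝ := (Fintype.card F : ℝ) with hqdef
  have hq0 : 0 < q := by linarith
  have hq1 : 1 ≤ q := by linarith
  have hex : ∀ g : Un P F → (Bool × Bool → F) → ℝ,
      𝔼 a : Vx P F × (Bool × Bool → F), 𝔼 b, g (jn i a.1 b) a.2 = 𝔼 u, 𝔼 x, g u x := by
    intro g
    rw [expect_prod', expect_jn i]
    exact Finset.expect_congr rfl fun v _ => Finset.expect_comm _ _ _
  have h1 := rare2 (P.K + 1) (vp : Vx P F → Bool × F → Pt P F) indep_vp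
    (fun c : Bool × Bool => c.2) 200 (by simp; omega)
    (fun (a : Vx P F × (Bool × Bool → F)) b => μ (jn i a.1 b)) (q ^ (30 * P.n)) √q
    (q ^ (P.K + 2) / q ^ m) (fun _ _ => hμ.nonneg _) (fun _ _ => hμ.le _)
    (by
      rw [hex fun u _ => μ u]
      simp only [Finset.expect_const univ_nonempty]
      exact hμ.total.le)
    (Real.sqrt_nonneg _)
    (fun g hg => by
      have := hex fun u x => μ u * g (u i, x)
      simp only [jn_self] at this
      rw [this, expect_prod' g]
      simp only [← Finset.mul_expect]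
      exact hμ.marg i (fun v => 𝔼 x, g (v, x)) fun v => expect_nonneg' fun _ => hg _)
    (fun a _ ξ => TB μ i h (rsh (jn i (fun c => vp a.1 (c.2, a.2 c)) ξ)) (a.1.1 h))
    (by positivity)
    (by
      simp only [Finset.expect_const univ_nonempty]
      rw [expect_prod', Finset.expect_comm]
      refine expect_le_of_le (by positivity) fun x => ?_
      rw [Finset.expect_comm]
      refine expect_le_of_le (by positivity) fun ξ => (dens hμ.nonneg i h x ξ).trans ?_
      rw [← hqdef, hm, show 4 * m / 2 = 2 * m by omega]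
      calc _ = 2 * (q ^ (P.K + 1) / q ^ m) ^ 2 := by
            field_simp
            ring
        _ ≤ q ^ 2 * (q ^ (P.K + 1) / q ^ m) ^ 2 := by
            gcongr
            nlinarith
        _ = _ := by
            field_simp
            ring)
  have h2 := hex fun u x => μ u * 𝔼 y, ind (TB μ i h (key (crv u) (rsh (jn i x y))) ((u i).1 h))
  simp only [key_jn, jn_self] at h2
  rw [h2] at h1
  have h3 : mass μ (fun u ω => ind (TB μ i h (key (crv u) ω) ((u i).1 h))) =
      𝔼 u, 𝔼 x, μ u * 𝔼 y, ind (TB μ i h (key (crv u) (rsh (jn i x y))) ((u i).1 h)) := by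
    rw [mass_eq]
    refine Finset.expect_congr rfl fun u _ => ?_
    rw [← Finset.mul_expect, expect_rsh, expect_jn i]
  rw [h3]
  refine h1.trans ?_
  have h4 : √q * (q ^ (P.K + 2) / q ^ m) ≤ 1 / q := by
    have : √q ≤ q := Real.sqrt_le_iff.2 ⟨hq0.le, by nlinarith⟩
    calc _ ≤ q * (q ^ (P.K + 2) / q ^ m) := by gcongr
      _ ≤ _ := by
        rw [← mul_div_assoc, div_le_div_iff₀ (by positivity) hq0, one_mul, ← pow_succ', ← pow_succ]
        exact pow_le_pow_right₀ hq1 (by omega)
  have h5 : q ^ (30 * P.n) * (q ^ 4 * (q ^ (P.K + 2) / q ^ m)) ^ 200 ≤ 1 / q := by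
    rw [← mul_div_assoc, div_pow, ← mul_div_assoc, div_le_div_iff₀ (by positivity) hq0, one_mul,
      ← pow_add, ← pow_mul, ← pow_mul, ← pow_add, ← pow_succ]
    exact pow_le_pow_right₀ hq1 (by omega)
  simp only [Fintype.card_prod, Fintype.card_bool, ← hqdef]
  have h6 : (3218 : ℝ) / q = 1 / q + 1 / q + 3216 / q := by ring
  rw [h6]
  norm_num at h4 h5 ⊢
  linarith

end CleanAux

open CleanAux

theorem spread_of_clean (μ : Un P F → ℝ) (hμ : ∀ u, 0 ≤ μ u) (w : Un P F → Lab F → ℝ)
    (hw : ∀ u ω, 0 ≤ w u ω ∧ w u ω ≤ 1)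
    (hc : ∀ u ω, w u ω ≠ 0 → Lt μ (key (crv u) ω) ∧ ¬ Dirty μ (crv u) ω) : Spread μ w := by
  intro κ i h b hb
  by_cases hH : Heavy μ κ i h b
  · have : Nw μ (fun u ω => w u ω * ind (b ∈ Wsp ((u i).1 h))) κ = 0 := by
      have h0 : ∀ u ω, w u ω * ind (b ∈ Wsp ((u i).1 h)) * ind (key (crv u) ω = κ) = 0 := by
        intro u ω
        by_contra hne
        have h1 := hc u ω (left_ne_zero_of_mul (left_ne_zero_of_mul hne))
        have h2 := ind_ne_zero.1 (right_ne_zero_of_mul (left_ne_zero_of_mul hne))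
        have h3 := ind_ne_zero.1 (right_ne_zero_of_mul hne)
        exact h1.2 ⟨h1.1, i, h, b, h3 ▸ hH, h2⟩
      simp [Nw, mass, h0]
    rw [this]
    positivity
  · refine (Nw_mono hμ (fun u ω => ?_) κ).trans (not_le.1 fun h' => hH ⟨hb, h'⟩).le
    exact mul_le_of_le_one_left (ind_nonneg _) (hw u ω).2

theorem dirty_mass (P : Par) (hP : P.Ok) (ε : ℝ) (hε : 0 < ε) :
    Ev P fun _ _ _ _ _ μ => mass μ (fun u ω => ind (Dirty μ (crv u) ω)) ≤ ε := by
  refine ((ev_card P 2).and (ev_card P (4 * 3218 / ε))).mono fun F _ _ _ _ μ hμ ⟨h1, h2⟩ => ?_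
  have h3 : mass μ (fun u ω => ind (Dirty μ (crv u) ω)) ≤
      mass μ fun u ω => ∑ c : Bool × Bool, ind (TB μ c.1 c.2 (key (crv u) ω) ((u c.1).1 c.2)) :=
    mass_mono hμ.nonneg fun u ω => le_trans (ind_mono fun ⟨hL, i, h, hb⟩ => ⟨(i, h), hL, hb⟩)
      (ind_exists_le fun c : Bool × Bool => TB μ c.1 c.2 (key (crv u) ω) ((u c.1).1 c.2))
  simp only [Fintype.sum_prod_type, Fintype.sum_bool, mass_add] at h3
  have h4 := mass_TB hP hμ h1
  have h5 : 4 * (3218 / (Fintype.card F : ℝ)) ≤ ε := by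
    rw [div_le_iff₀ hε] at h2
    rw [← mul_div_assoc, div_le_iff₀ (by linarith)]
    linarith
  linarith [h4 true true, h4 true false, h4 false true, h4 false false]

end Vale.Agent.P060
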