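import Vale.Agent.P060.NiceP

/-!
# Most vertices satisfy G4 (task G4P)
The coefficient of X^(3K) in fp f α is sum_ι f ι * prod_φ hc α (last) (ι φ).  If α (last) ≠ 0 (fails with
probability q^(-n)) this is a nonzero F-linear functional of f; for d ≠ 0 the form
sum d l • v.2 h (some l) is uniform (translate one coordinate), so the coefficient vanishes with
probability 1/q.  Union over h, d (2 * 2^R) and the marginal bound sqrt q.
-/

open Finset Polynomial
open scoped BigOperators

namespace Vale.Agent.P060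

open NicePAux

namespace G4PAux

variable {P : Par} {F : Type} [Field F]

theorem cp_coeff_last (α : Cur P F) (o : Option (Fin P.n)) :
    (cp α o).coeff P.K = hc α (Fin.last _) o := by
  rw [cp, finsetSum_coeff, Finset.sum_eq_single (Fin.last P.K)]
  · simp
  · intro a _ ha
    rw [coeff_C_mul_X_pow, if_neg]
    intro h
    exact ha (Fin.ext h.symm)
  · simp

theorem fp_coeff (f : Ten P F) (α : Cur P F) :
    (fp f α).coeff (3 * P.K) = ∑ ι, f ι * ∏ φ, hc α (Fin.last _) (ι φ) := by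
  rw [fp, finsetSum_coeff]
  refine Finset.sum_congr rfl fun ι _ => ?_
  have := coeff_prod_of_natDegree_le (s := (univ : Finset (Fin 3))) (fun φ => cp α (ι φ)) P.K
    fun _ _ => cp_natDegree _ _
  rw [Finset.card_univ, Fintype.card_fin] at this
  rw [coeff_C_mul, this]
  simp only [cp_coeff_last]

variable [Fintype F] [DecidableEq F] [Algebra (ZMod 2) F]

theorem form_prob (α : Cur P F) (h : Bool) (d : Fin P.R → ZMod 2) :
    𝔼 fo : Fo P F, ind (d ≠ 0 ∧ α (Fin.last _) ≠ 0 ∧
      (fp (∑ l, d l • fo h (some l)) α).coeff (3 * P.K) = 0) ≤ 1 / (Fintype.card F : ℝ) := by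
  by_cases hd : d ≠ 0 ∧ α (Fin.last _) ≠ 0
  · obtain ⟨l0, hl0⟩ := Function.ne_iff.1 hd.1
    obtain ⟨i0, hi0⟩ := Function.ne_iff.1 hd.2
    have hl1 : d l0 = 1 := (zmod2_cases _).resolve_left hl0
    let φ : Fo P F →+ F :=
      { toFun := fun fo => ∑ ι, (∑ l, d l • fo h (some l)) ι * ∏ φ, hc α (Fin.last _) (ι φ)
        map_zero' := by simp
        map_add' := fun _ _ => by simp [Finset.sum_add_distrib, add_mul] }
    have hφ : Function.Surjective φ := by
      intro y
      have ht : (∏ _φ : Fin 3, hc α (Fin.last _) (some i0)) ≠ 0 :=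
        Finset.prod_ne_zero_iff.2 fun _ _ => hi0
      refine ⟨fun _ o => if o = some l0 then Pi.single (fun _ => some i0)
        (y / ∏ _φ : Fin 3, hc α (Fin.last _) (some i0)) else 0, ?_⟩
      have e : (∑ l, d l • (if some l = some l0 then Pi.single (fun _ => some i0)
          (y / ∏ _φ : Fin 3, hc α (Fin.last _) (some i0)) else 0 : Ten P F)) =
          Pi.single (fun _ => some i0) (y / ∏ _φ : Fin 3, hc α (Fin.last _) (some i0)) := by
        rw [Finset.sum_eq_single l0]
        · simp [hl1]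
        · intro l _ hl
          simp [hl]
        · simp
      change ∑ ι, (∑ l, d l • (if some l = some l0 then Pi.single (fun _ => some i0)
          (y / ∏ _φ : Fin 3, hc α (Fin.last _) (some i0)) else 0 : Ten P F)) ι *
          ∏ φ, hc α (Fin.last _) (ι φ) = y
      rw [e, Finset.sum_eq_single (fun _ => some i0)]
      · rw [Pi.single_eq_same, div_mul_cancel₀ _ ht]
      · intro ι _ hι
        rw [Pi.single_eq_of_ne hι, zero_mul]
      · simp
    have h2 := expect_surj φ hφ (fun y => ind (y = 0))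
    rw [expect_ind_eq] at h2
    rw [← h2]
    refine expect_mono fun fo => ind_mono fun h3 => ?_
    rw [← h3.2.2, fp_coeff]
    rfl
  · refine expect_le_of_le (by positivity) fun v => ?_
    rw [ind_neg (fun h => hd ⟨h.1, h.2.1⟩)]
    positivity

theorem g4_vertex (hP : P.Ok) :
    𝔼 v : Vx P F, ind (¬ G4 v) ≤ 2 * (1 + 2 ^ P.R) / (Fintype.card F : ℝ) := by
  have hq1 : (1 : ℝ) ≤ Fintype.card F := by exact_mod_cast Fintype.card_pos
  have hn : 1 ≤ P.n := by
    rw [hP.hn]
    exact Nat.succ_le_of_lt (by positivity)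
  have h1 : ∀ h, 𝔼 v : Vx P F, ind (v.1 h (Fin.last _) = 0) ≤ 1 / (Fintype.card F : ℝ) := by
    intro h
    let φ : Vx P F →+ Pt P F :=
      { toFun := fun v => v.1 h (Fin.last _)
        map_zero' := rfl
        map_add' := fun _ _ => rfl }
    refine (expect_surj φ (fun ξ => ⟨(fun _ _ => ξ, 0), rfl⟩) fun ξ => ind (ξ = 0)).trans_le ?_
    rw [expect_ind_eq]
    have := pow_div_le hq1 (a := 0) (b := P.n) hn
    simpa using this
  have h2 : ∀ h (d : Fin P.R → ZMod 2), 𝔼 v : Vx P F, ind (d ≠ 0 ∧ v.1 h (Fin.last _) ≠ 0 ∧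
      (fp (∑ l, d l • v.2 h (some l)) (v.1 h)).coeff (3 * P.K) = 0) ≤
      1 / (Fintype.card F : ℝ) := by
    intro h d
    refine (expect_prod' _).trans_le (expect_le_of_le (by positivity) fun A => ?_)
    exact form_prob (A h) h d
  calc _ ≤ 𝔼 v : Vx P F, ∑ h, (ind (v.1 h (Fin.last _) = 0) + ∑ d : Fin P.R → ZMod 2,
        ind (d ≠ 0 ∧ v.1 h (Fin.last _) ≠ 0 ∧
          (fp (∑ l, d l • v.2 h (some l)) (v.1 h)).coeff (3 * P.K) = 0)) := by
        refine expect_mono fun v => ?_
        refine le_trans (ind_mono (q := ∃ h, v.1 h (Fin.last _) = 0 ∨ ∃ d : Fin P.R → ZMod 2,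
          d ≠ 0 ∧ v.1 h (Fin.last _) ≠ 0 ∧
          (fp (∑ l, d l • v.2 h (some l)) (v.1 h)).coeff (3 * P.K) = 0) fun hb => ?_)
          ((ind_exists_le _).trans (Finset.sum_le_sum fun h _ => (ind_or_le _ _).trans
            (add_le_add le_rfl (ind_exists_le _))))
        by_contra hc
        push Not at hc
        exact hb fun h d hd => (hc h).2 d hd (hc h).1
    _ = ∑ h, ((𝔼 v : Vx P F, ind (v.1 h (Fin.last _) = 0)) + ∑ d : Fin P.R → ZMod 2,
        𝔼 v : Vx P F, ind (d ≠ 0 ∧ v.1 h (Fin.last _) ≠ 0 ∧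
          (fp (∑ l, d l • v.2 h (some l)) (v.1 h)).coeff (3 * P.K) = 0)) := by
        simp only [Finset.expect_add_distrib, Finset.expect_sum_comm]
    _ ≤ ∑ _h : Bool, (1 / (Fintype.card F : ℝ) + ∑ _d : Fin P.R → ZMod 2,
        1 / (Fintype.card F : ℝ)) :=
        Finset.sum_le_sum fun h _ => add_le_add (h1 h) (Finset.sum_le_sum fun d _ => h2 h d)
    _ = _ := by simp; ring

end G4PAux

theorem g4_prob (P : Par) (hP : P.Ok) (ε : ℝ) (hε : 0 < ε) :
    Ev P fun _ _ _ _ _ μ => 𝔼 u, μ u * ind (¬ ∀ i, G4 (u i)) ≤ ε := by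
  refine (ev_sqrt P (2 * (2 * (1 + 2 ^ P.R))) ε hε).mono fun F _ _ _ _ μ hμ hq => le_trans ?_ hq
  have hq0 : (0 : ℝ) < Fintype.card F := by exact_mod_cast Fintype.card_pos
  have h1 : ∀ i, 𝔼 u, μ u * ind (¬ G4 (u i)) ≤ 2 * (1 + 2 ^ P.R) / √(Fintype.card F : ℝ) := by
    intro i
    refine (hμ.marg i (fun v => ind (¬ G4 v)) fun _ => ind_nonneg _).trans ?_
    rw [← sqrt_mul_div hq0]
    exact mul_le_mul_of_nonneg_left (G4PAux.g4_vertex hP) (Real.sqrt_nonneg _)
  calc _ ≤ 𝔼 u, ∑ i, μ u * ind (¬ G4 (u i)) := by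
        refine expect_mono fun u => ?_
        rw [← Finset.mul_sum]
        exact mul_le_mul_of_nonneg_left ((ind_mono not_forall.1).trans (ind_exists_le _))
          (hμ.nonneg u)
    _ = ∑ i, 𝔼 u, μ u * ind (¬ G4 (u i)) := Finset.expect_sum_comm _ _ _
    _ ≤ ∑ _i : Bool, 2 * (1 + 2 ^ P.R) / √(Fintype.card F : ℝ) := Finset.sum_le_sum fun i _ => h1 i
    _ = _ := by simp; ring

theorem niceU_prob (P : Par) (hP : P.Ok) (ε : ℝ) (hε : 0 < ε) :
    Ev P fun _ _ _ _ _ μ => 𝔼 u, μ u * ind (¬ NiceU u) ≤ ε := by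
  refine ((niceK_prob P hP (ε / 2) (by positivity)).and
    (g4_prob P hP (ε / 2) (by positivity))).mono fun F _ _ _ _ μ hμ h => ?_
  calc _ ≤ 𝔼 u, (μ u * ind (¬ ∀ h, NiceK (cur (crv u) h)) + μ u * ind (¬ ∀ i, G4 (u i))) := by
        refine expect_mono fun u => ?_
        rw [← mul_add]
        exact mul_le_mul_of_nonneg_left ((ind_mono not_and_or.1).trans (ind_or_le _ _))
          (hμ.nonneg u)
    _ ≤ ε := by
        rw [Finset.expect_add_distrib]
        linarith [h.1, h.2]

end Vale.Agent.P060
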