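import Vale.Agent.P060.Basic

/-!
# Fourier expansion of the agreement event (task Four)
EE = {ζ | InE c ζ} and EE0 = {ζ | InE0 κ ζ} are ZMod 2-subspaces of UF with
|EE| = prod_h |Esp c h|^(2(R+1)), likewise EE0, so rat = |EE| / |EE0|; EE0 ≤ EE when κ = key c ω.
With g = f + fs: Agree c pv f iff pr g kills EE; sum over EE of sgn (pr g ζ) = |EE| ind (that), and the
sum over EE0 is |EE0| because f and fs agree at the keys.
card_Esp: tau (pt α x) = sum over a ≤ 3K of x^a • (a fixed tensor: the coefficients of prod cp), so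
Esp c h lies in an F-span of 2(3K+1) tensors.
-/

open Finset Polynomial
open scoped BigOperators

namespace Vale.Agent.P060

variable {P : Par} {F : Type} [Field F] [Fintype F] [DecidableEq F] [Algebra (ZMod 2) F]

omit [Fintype F] [DecidableEq F] in
theorem pr_add_right (f ζ ζ' : UF P F) : pr f (ζ + ζ') = pr f ζ + pr f ζ' := by
  simp only [pr, Pi.add_apply, ev_add_right, Finset.sum_add_distrib]

omit [Fintype F] [DecidableEq F] in
theorem pr_zero_right (f : UF P F) : pr f 0 = 0 := by
  simp [pr, ev, tr_zero]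

namespace FourAux

omit [DecidableEq F]

theorem expect_sgn_add {A : Type} [AddCommGroup A] [Fintype A] (f : A → ZMod 2)
    (h : ∀ a b, f (a + b) = f a + f b) : 𝔼 a, sgn (f a) = ind (∀ a, f a = 0) :=
  (expect_sgn_hom (AddMonoidHom.mk' f h)).trans (ind_congr DFunLike.ext_iff)

omit [Fintype F] in
theorem pr_add_left (f f' ζ : UF P F) : pr (f + f') ζ = pr f ζ + pr f' ζ := by
  simp only [pr, Pi.add_apply, ev_add_left, Finset.sum_add_distrib]

omit [Fintype F] in
theorem ev_comm (f ζ : Ten P F) : ev f ζ = ev ζ f := by simp only [ev, mul_comm]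

omit [Fintype F] in
theorem pr_comm (f ζ : UF P F) : pr f ζ = pr ζ f := by simp only [pr, ev_comm (f _ _ _)]

/-- a family of tensors with one nonzero entry -/
def one (j h : Bool) (l : Option (Fin P.R)) (t : Ten P F) : UF P F :=
  fun j' h' l' => if j' = j ∧ h' = h ∧ l' = l then t else 0

omit [Fintype F] in
theorem pr_one (f : UF P F) (j h : Bool) (l : Option (Fin P.R)) (t : Ten P F) :
    pr f (one j h l t) = ev (f j h l) t := by
  have h0 : ∀ g : Ten P F, ev g 0 = 0 := fun g => by simp [ev, tr_zero]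
  rw [pr, Finset.sum_eq_single j, Finset.sum_eq_single h, Finset.sum_eq_single l] <;>
    simp +contextual [one, h0]

/-- families with entries in given subspaces -/
def EE (S : Bool → Submodule (ZMod 2) (Ten P F)) : AddSubgroup (UF P F) where
  carrier := {ζ | ∀ j h l, ζ j h l ∈ S h}
  zero_mem' := fun _ _ _ => zero_mem _
  add_mem' := fun ha hb j h l => add_mem (ha j h l) (hb j h l)
  neg_mem' := fun ha j h l => neg_mem (ha j h l)

omit [Fintype F] in
theorem card_EE (S : Bool → Submodule (ZMod 2) (Ten P F)) :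
    Nat.card (EE S) = ∏ h, Nat.card (S h) ^ (2 * (P.R + 1)) := by
  have e : EE S ≃ (Bool → (h : Bool) → Option (Fin P.R) → S h) :=
    { toFun := fun ζ j h l => ⟨ζ.1 j h l, ζ.2 j h l⟩
      invFun := fun ζ => ⟨fun j h l => ζ j h l, fun j h l => (ζ j h l).2⟩
      left_inv := fun _ => rfl
      right_inv := fun _ => rfl }
  rw [Nat.card_congr e]
  simp only [Nat.card_pi, Finset.prod_const, card_univ, Fintype.card_option, Fintype.card_fin,
    Fintype.card_bool, ← Finset.prod_pow, ← pow_mul, mul_comm]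

theorem sum_EE (S : Bool → Submodule (ZMod 2) (Ten P F)) (g : UF P F) :
    ∑ ζ, ind (ζ ∈ EE S) * sgn (pr g ζ) = Nat.card (EE S) * ind (∀ ζ ∈ EE S, pr g ζ = 0) := by
  classical
  have h := expect_sgn_add (fun ζ : EE S => pr g ζ) fun a b => pr_add_right g a b
  rw [Finset.expect_eq_sum_div_card, div_eq_iff (by simp), card_univ, Subtype.forall] at h
  rw [Nat.card_eq_fintype_card, mul_comm, ← h]
  simp only [ind_eq_ite, ite_mul, one_mul, zero_mul]
  rw [← Finset.sum_filter]
  exact Finset.sum_subtype _ (by simp) fun ζ => sgn (pr g ζ)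

omit [Fintype F] in
theorem kill_EE {Y : Type} (t : Bool → Y → Ten P F) (g : UF P F) :
    (∀ ζ ∈ EE fun h => Submodule.span (ZMod 2) (Set.range (t h)), pr g ζ = 0) ↔
      ∀ j h l y, ev (g j h l) (t h y) = 0 := by
  refine ⟨fun H j h l y => ?_, fun H ζ hζ => ?_⟩
  · rw [← pr_one]
    refine H _ fun j' h' l' => ?_
    unfold one
    split_ifs with h1
    · rw [h1.2.1]
      exact Submodule.subset_span ⟨y, rfl⟩
    · exact zero_mem _
  · refine Finset.sum_eq_zero fun j _ => Finset.sum_eq_zero fun h _ =>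
      Finset.sum_eq_zero fun l _ => ?_
    have h1 := hζ j h l
    generalize ζ j h l = x at h1
    induction h1 using Submodule.span_induction with
    | mem x hx => obtain ⟨y, rfl⟩ := hx; exact H j h l y
    | zero => simp [ev, tr_zero]
    | add x y _ _ hx hy => rw [ev_add_right, hx, hy, add_zero]
    | smul c x _ hx => rw [ev_smul_right, hx, mul_zero]

end FourAux

open FourAux

omit [DecidableEq F] in
theorem expect_sgn_pr (ζ : UF P F) : 𝔼 f, sgn (pr f ζ) = ind (ζ = 0) := by
  refine (expect_sgn_add _ fun a b => pr_add_left a b ζ).trans (ind_congr ⟨fun h => ?_, fun h f => ?_⟩)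
  · funext j h' l
    refine ev_nondeg fun g => ?_
    have h1 := h (one j h' l g)
    rwa [pr_comm, pr_one, ev_comm] at h1
  · rw [h, pr_zero_right]

omit [DecidableEq F] in
theorem card_Esp (c : UC P F) (h : Bool) :
    Nat.card (Esp c h) ≤ Fintype.card F ^ (2 * (3 * P.K + 1)) := by
  let T : Bool × Fin (3 * P.K + 1) → Ten P F := fun y ι => (∏ φ, cp (c y.1 h) (ι φ)).coeff y.2
  have h1 : Esp c h ≤ (Submodule.span F (Set.range T)).restrictScalars (ZMod 2) := by
    refine Submodule.span_le.2 ?_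
    rintro _ ⟨⟨i, x⟩, rfl⟩
    have h2 : tau (pt (c i h) x) = ∑ a : Fin (3 * P.K + 1), x ^ (a : ℕ) • T (i, a) := by
      funext ι
      have h3 : (∏ φ, cp (c i h) (ι φ)).natDegree < 3 * P.K + 1 := by
        refine Nat.lt_succ_of_le ((natDegree_prod_le _ _).trans ?_)
        exact (Finset.sum_le_sum fun φ _ => cp_natDegree _ _).trans (by simp)
      simp only [tau, ← cp_eval, ← eval_prod, eval_eq_sum_range' h3, Finset.sum_range,
        Finset.sum_apply, Pi.smul_apply, smul_eq_mul, T, mul_comm (x ^ _)]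
    show tau (pt (c i h) x) ∈ Submodule.span F (Set.range T)
    rw [h2]
    exact Submodule.sum_mem _ fun a _ => Submodule.smul_mem _ _ (Submodule.subset_span ⟨_, rfl⟩)
  choose w hw using fun ζ : Esp c h => (Submodule.mem_span_range_iff_exists_fun F).1 (h1 ζ.2)
  refine (Nat.card_le_card_of_injective w fun a b hab => Subtype.ext ?_).trans (by simp)
  rw [← hw a, ← hw b, hab]

omit [Fintype F] [DecidableEq F] in
theorem rat_nonneg (c : UC P F) (κ : Key P F) : 0 ≤ rat c κ := by
  unfold rat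
  positivity

omit [DecidableEq F] in
theorem FourAux.card_InE_le (c : UC P F) :
    (Nat.card (EE (Esp c)) : ℝ) ≤ (Fintype.card F : ℝ) ^ P.L := by
  rw [card_EE]
  have h := Finset.prod_le_prod' (s := univ) fun h _ =>
    Nat.pow_le_pow_left (card_Esp c h) (2 * (P.R + 1))
  rw [Finset.prod_const, card_univ, Fintype.card_bool, ← pow_mul, ← pow_mul,
    show 2 * (3 * P.K + 1) * (2 * (P.R + 1) * 2) = P.L by unfold Par.L; ring] at h
  exact_mod_cast h

omit [Fintype F] [DecidableEq F] in
theorem FourAux.rat_eq (c : UC P F) (κ : Key P F) :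
    rat c κ = Nat.card (EE (Esp c)) / Nat.card (EE (E0sp κ)) := by
  simp only [rat, card_EE, div_pow, Finset.prod_div_distrib, Nat.cast_prod, Nat.cast_pow]

omit [DecidableEq F] in
theorem FourAux.one_le_card (κ : Key P F) : (1 : ℝ) ≤ Nat.card (EE (E0sp κ)) := by
  exact_mod_cast Nat.card_pos

omit [DecidableEq F] in
theorem rat_le (c : UC P F) (κ : Key P F) : rat c κ ≤ (Fintype.card F : ℝ) ^ P.L := by
  rw [rat_eq]
  exact (div_le_self (Nat.cast_nonneg _) (one_le_card κ)).trans (card_InE_le c)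

omit [DecidableEq F] in
theorem ecoef_sum_le (c : UC P F) (κ : Key P F) (fs : UF P F) :
    ∑ ζ, |ecoef c κ fs ζ| ≤ (Fintype.card F : ℝ) ^ P.L := by
  have h := sum_EE (Esp c) 0
  simp only [pr_comm 0, pr_zero_right, sgn_zero, mul_one, implies_true, ind_pos] at h
  refine le_trans (Finset.sum_le_sum fun ζ _ => ?_) (h.le.trans (card_InE_le c))
  rw [ecoef, abs_div, abs_mul, abs_sgn, mul_one, abs_of_nonneg (ind_nonneg _), Nat.abs_cast]
  exact (div_le_self (ind_nonneg _) (one_le_card κ)).trans (ind_mono fun h => h.1)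

omit [DecidableEq F] in
theorem four_id (c : UC P F) (ω : Lab F) (pv : PV P F) (fs f : UF P F) (hfs : Agree c pv fs)
    (hf : ∀ j s h l, ev (f j h l) (tau (key c ω s h)) = pv s.1 j h l (ω s h)) :
    AA c ω pv f - 1 = ∑ ζ, ecoef c (key c ω) fs ζ * sgn (pr f ζ) := by
  have h2 : ∀ a b : ZMod 2, a + b = 0 ↔ b = a := by decide
  have hle : ∀ ζ, ζ ∈ EE (E0sp (key c ω)) → ζ ∈ EE (Esp c) := fun ζ hζ j h l =>
    Submodule.span_mono (by rintro _ ⟨s, rfl⟩; exact ⟨(s.1, ω s h), rfl⟩) (hζ j h l)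
  have h1 : ∀ ζ, ecoef c (key c ω) fs ζ * sgn (pr f ζ) =
      (ind (ζ ∈ EE (Esp c)) * sgn (pr (fs + f) ζ) -
        ind (ζ ∈ EE (E0sp (key c ω))) * sgn (pr (fs + f) ζ)) / Nat.card (EE (E0sp (key c ω))) := by
    intro ζ
    have h3 : ind (InE c ζ ∧ ¬ InE0 (key c ω) ζ) =
        ind (ζ ∈ EE (Esp c)) - ind (ζ ∈ EE (E0sp (key c ω))) := by
      by_cases h4 : ζ ∈ EE (E0sp (key c ω))
      · rw [ind_neg fun h => h.2 h4, ind_pos h4, ind_pos (hle ζ h4), sub_self]
      · rw [ind_neg h4, sub_zero]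
        exact ind_congr ⟨fun h => h.1, fun h => ⟨h, h4⟩⟩
    rw [ecoef, h3, pr_add_left, sgn_add, div_mul_eq_mul_div]
    congr 1
    ring
  have h3 : (∀ ζ ∈ EE (Esp c), pr (fs + f) ζ = 0) ↔ Agree c pv f := by
    refine (kill_EE (fun h (y : Bool × F) => tau (pt (c y.1 h) y.2)) _).trans ?_
    simp only [Pi.add_apply, ev_add_left, h2, hfs _ _ _ _ _]
    exact ⟨fun H i j h l x => H j h l (i, x), fun H j h l y => H y.1 j h l y.2⟩
  have h4 : ∀ ζ ∈ EE (E0sp (key c ω)), pr (fs + f) ζ = 0 := by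
    refine (kill_EE (fun h s => tau (key c ω s h)) _).2 fun j h l s => ?_
    simp only [Pi.add_apply, ev_add_left, h2, hf]
    exact (hfs s.1 j h l (ω s h)).symm
  have h5 := one_le_card (key c ω)
  simp only [h1]
  rw [← Finset.sum_div, Finset.sum_sub_distrib, sum_EE, sum_EE, ind_pos h4, ind_congr h3, AA, rat_eq]
  field_simp

end Vale.Agent.P060
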