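import Vale.Agent.P060.KO

/-!
# Relations among tensors force hits (task Tens)
two_good.  Extension: if W ⊓ A ≤ Kk ≤ A and g kills Kk there is g' equal to g on W and killing A
(functionals on HV are dot g, the dot form is perfect).  evT is linear in each g φ (Function.update).
Step 1: if all g φ kill Kk and one of them kills W1 then evT g ζ0 = 0: replace the other two by
extensions from W0 killing A and B respectively (this does not change evT g ζ0 by Sup W0), and use the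
relation.  Symmetrically for ζ1.  Step 2: for g killing Kk replace g 0 by an extension from W0 killing A
and g 1 by one killing B; by Step 1 and Sup the value on ζ0 + ζ1 is unchanged, and it is now 0.
hit_of_rel: otherwise apply two_good in the half h where ζ s0 is not in the key span, with A (B) the key
span plus the spans of the earlier (later) curves, and then ko.  (U α z satisfies Sup (Wsp α).)
hitC_mass: union over i, h and b in a subspace of dimension ≤ 4 + 2 (K+1) |T|; each term by Spread.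
-/

open Finset Polynomial
open scoped BigOperators

namespace Vale.Agent.P060

variable {P : Par} {F : Type} [Field F] [Fintype F] [DecidableEq F] [Algebra (ZMod 2) F]

namespace TensAux

omit [Fintype F] [DecidableEq F] [Algebra (ZMod 2) F]

/-- `dot g` as a linear map. -/
def dotL (g : HV P F) : HV P F →ₗ[F] F where
  toFun := dot g
  map_add' v w := by simp [dot, mul_add, Finset.sum_add_distrib]
  map_smul' c v := by
    simp only [dot, Pi.smul_apply, smul_eq_mul, RingHom.id_apply, Finset.mul_sum]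
    exact Finset.sum_congr rfl fun o _ => by ring

theorem dotL_apply (g v : HV P F) : dotL g v = dot g v := rfl

theorem exists_dot (ψ : HV P F →ₗ[F] F) : ∃ g, ∀ v, dot g v = ψ v := by
  refine ⟨fun o => ψ fun j => if o = j then 1 else 0, fun v => ?_⟩
  rw [LinearMap.pi_apply_eq_sum_univ ψ v, dot]
  exact Finset.sum_congr rfl fun o _ => by rw [smul_eq_mul, mul_comm]

theorem dot_sub (g g' v : HV P F) : dot (g - g') v = dot g v - dot g' v := by
  simp [dot, sub_mul, Finset.sum_sub_distrib]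

theorem exists_ext {Kk W A : Submodule F (HV P F)} (h : W ⊓ A ≤ Kk) {g : HV P F}
    (hg : ∀ v ∈ Kk, dot g v = 0) :
    ∃ g', (∀ v ∈ W, dot g' v = dot g v) ∧ ∀ v ∈ A, dot g' v = 0 := by
  let f1 : HV P F →ₗ.[F] F := ⟨W, (dotL g).domRestrict W⟩
  let f2 : HV P F →ₗ.[F] F := ⟨A, 0⟩
  have hc : ∀ (x : f1.domain) (y : f2.domain), (x : HV P F) = y → f1 x = f2 y := by
    intro x y hxy
    have hx : (x : HV P F) ∈ W ⊓ A := ⟨x.2, hxy ▸ y.2⟩
    exact hg _ (h hx)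
  obtain ⟨ψ, hψ⟩ := LinearMap.exists_extend (f1.sup f2 hc).toFun
  obtain ⟨g', hg'⟩ := exists_dot ψ
  have key : ∀ z : (f1.sup f2 hc).domain, ψ z = f1.sup f2 hc z := fun z =>
    LinearMap.congr_fun hψ z
  refine ⟨g', fun v hv => ?_, fun v hv => ?_⟩
  · rw [hg', key ⟨v, Submodule.mem_sup_left hv⟩]
    exact ((LinearPMap.left_le_sup f1 f2 hc).2 (x := ⟨v, hv⟩) rfl).symm
  · rw [hg', key ⟨v, Submodule.mem_sup_right hv⟩]
    exact ((LinearPMap.right_le_sup f1 f2 hc).2 (x := ⟨v, hv⟩) rfl).symm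

theorem tele {Kk W : Submodule F (HV P F)} {ζ : Ten P F}
    (hs : ∀ (g : Fin 3 → HV P F) (φ : Fin 3), (∀ ψ, ∀ v ∈ Kk, dot (g ψ) v = 0) →
      (∀ v ∈ W, dot (g φ) v = 0) → evT g ζ = 0) {g g' : Fin 3 → HV P F}
    (hg : ∀ ψ, ∀ v ∈ Kk, dot (g ψ) v = 0) (hg' : ∀ ψ, ∀ v ∈ Kk, dot (g' ψ) v = 0)
    (h : ∀ ψ, ∀ v ∈ W, dot (g' ψ) v = dot (g ψ) v) : evT g' ζ = evT g ζ := by
  have hd : ∀ ψ, ∀ v ∈ Kk, dot (g' ψ - g ψ) v = 0 := fun ψ v hv => by
    rw [dot_sub, hg ψ v hv, hg' ψ v hv, sub_zero]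
  have hw : ∀ ψ, ∀ v ∈ W, dot (g' ψ - g ψ) v = 0 := fun ψ v hv => by
    rw [dot_sub, h ψ v hv, sub_self]
  have h0 := hs ![g' 0 - g 0, g 1, g 2] 0
    (fun ψ => by fin_cases ψ; exacts [hd 0, hg 1, hg 2]) (hw 0)
  have h1 := hs ![g' 0, g' 1 - g 1, g 2] 1
    (fun ψ => by fin_cases ψ; exacts [hg' 0, hd 1, hg 2]) (hw 1)
  have h2 := hs ![g' 0, g' 1, g' 2 - g 2] 2
    (fun ψ => by fin_cases ψ; exacts [hg' 0, hg' 1, hd 2]) (hw 2)
  have e : evT g' ζ = evT g ζ + (evT ![g' 0 - g 0, g 1, g 2] ζ + evT ![g' 0, g' 1 - g 1, g 2] ζ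
      + evT ![g' 0, g' 1, g' 2 - g 2] ζ) := by
    simp only [evT, ← Finset.sum_add_distrib, Fin.prod_univ_three]
    refine Finset.sum_congr rfl fun ι _ => ?_
    simp only [Matrix.cons_val_zero, Matrix.cons_val_one, Matrix.cons_val, Pi.sub_apply]
    ring
  rw [e, h0, h1, h2]
  ring

theorem step1 {Kk W0 W1 A B : Submodule F (HV P F)} (hA : Kk ≤ A) (hB : Kk ≤ B)
    (h0A : W0 ⊓ A ≤ Kk) (h0B : W0 ⊓ B ≤ Kk)
    {ζ0 ζ1 a b : Ten P F} (s0 : Sup W0 ζ0) (s1 : Sup W1 ζ1) (sa : Sup A a) (sb : Sup B b)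
    (hsum : ζ0 + ζ1 + a + b = 0) (g : Fin 3 → HV P F) (φ : Fin 3)
    (hg : ∀ ψ, ∀ v ∈ Kk, dot (g ψ) v = 0) (hφ : ∀ v ∈ W1, dot (g φ) v = 0) : evT g ζ0 = 0 := by
  obtain ⟨φ1, φ2, n1, n2, n3⟩ : ∃ φ1 φ2 : Fin 3, φ ≠ φ1 ∧ φ ≠ φ2 ∧ φ2 ≠ φ1 := by
    clear hφ; revert φ; decide
  obtain ⟨eA, hA1, hA2⟩ := exists_ext h0A (hg φ1)
  obtain ⟨eB, hB1, hB2⟩ := exists_ext h0B (hg φ2)
  let g' : Fin 3 → HV P F := fun ψ => if ψ = φ1 then eA else if ψ = φ2 then eB else g ψ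
  have e0 : evT g' ζ0 = evT g ζ0 := by
    refine tele (Kk := Kk) (W := W0) (fun g φ _ h => s0 g φ h) hg (fun ψ v hv => ?_)
      fun ψ v hv => ?_
    · simp only [g']
      split_ifs
      exacts [hA2 v (hA hv), hB2 v (hB hv), hg ψ v hv]
    · simp only [g']
      split_ifs with c1 c2
      · rw [c1]; exact hA1 v hv
      · rw [c2]; exact hB1 v hv
      · rfl
  have e1 : evT g' ζ1 = 0 := s1 g' φ (by simpa only [g', if_neg n1, if_neg n2] using hφ)
  have e2 : evT g' a = 0 := sa g' φ1 (by simpa only [g', if_pos rfl] using hA2)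
  have e3 : evT g' b = 0 := sb g' φ2 (by simpa only [g', if_neg n3, if_true] using hB2)
  have e4 : evT g' (ζ0 + ζ1 + a + b) = 0 := by rw [hsum]; simp [evT]
  rw [evT_add, evT_add, evT_add, e0, e1, e2, e3] at e4
  simpa using e4

theorem sup_mono {W W' : Submodule F (HV P F)} (h : W ≤ W') {ζ : Ten P F} (hs : Sup W ζ) :
    Sup W' ζ := fun g φ hg => hs g φ fun v hv => hg v (h hv)

theorem sup_add {W : Submodule F (HV P F)} {ζ ζ' : Ten P F} (hs : Sup W ζ) (hs' : Sup W ζ') :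
    Sup W (ζ + ζ') := fun g φ hg => by rw [evT_add, hs g φ hg, hs' g φ hg, add_zero]

theorem sup_sum {W : Submodule F (HV P F)} {ι : Type} (s : Finset ι) {ζ : ι → Ten P F}
    (hs : ∀ i ∈ s, Sup W (ζ i)) : Sup W (∑ i ∈ s, ζ i) :=
  Finset.sum_induction ζ (Sup W) (fun _ _ => sup_add) (fun g _ _ => by simp [evT]) hs

theorem finrank_Wsp (α : Cur P F) : Module.finrank F (Wsp α) ≤ P.K + 1 := by
  exact (finrank_range_le_card (R := F) (hc α)).trans (by simp)

theorem finrank_Ksp (κ : Key P F) (h : Bool) : Module.finrank F (Ksp κ h) ≤ 4 := by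
  exact (finrank_range_le_card (R := F) fun s => hom (κ s h)).trans (by simp)

theorem finrank_biSup (h : Bool) (T : Finset (Un P F × Lab F)) :
    Module.finrank F (⨆ y' ∈ T, ⨆ i', Wsp ((y'.1 i').1 h) : Submodule F (HV P F))
      ≤ 2 * (P.K + 1) * T.card := by
  classical
  induction T using Finset.induction_on with
  | empty => simp
  | insert y T hy ih =>
    rw [Finset.iSup_insert, Finset.card_insert_of_notMem hy, iSup_bool_eq]
    have h1 := Submodule.finrank_add_le_finrank_add_finrank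
      (Wsp ((y.1 true).1 h) ⊔ Wsp ((y.1 false).1 h)) (⨆ y' ∈ T, ⨆ i', Wsp ((y'.1 i').1 h))
    have h2 := Submodule.finrank_add_le_finrank_add_finrank
      (Wsp ((y.1 true).1 h)) (Wsp ((y.1 false).1 h))
    have h3 := finrank_Wsp ((y.1 true).1 h)
    have h4 := finrank_Wsp ((y.1 false).1 h)
    rw [mul_add]
    omega

end TensAux

omit [DecidableEq F] in
theorem TensAux.sup_U (α : Cur P F) (z : F → ZMod 2) : Sup (Wsp α) (U α z) := by
  intro g φ hg
  rw [evT_U]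
  refine Finset.sum_eq_zero fun x _ => ?_
  rw [Polynomial.eval_prod, Finset.prod_eq_zero (mem_univ φ), smul_zero]
  rw [pl_eval]
  exact hg _ (hom_pt_mem α x)

omit [DecidableEq F] [Algebra (ZMod 2) F] in
theorem TensAux.Nw_sum {ι : Type} (s : Finset ι) (μ : Un P F → ℝ)
    (w : ι → Un P F → Lab F → ℝ) (κ : Key P F) :
    Nw μ (fun u ω => ∑ i ∈ s, w i u ω) κ = ∑ i ∈ s, Nw μ (w i) κ := by
  simp only [Nw, mass, Finset.sum_mul, Finset.mul_sum, Finset.expect_sum_comm]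

open TensAux

theorem two_good (Kk W0 W1 A B : Submodule F (HV P F)) (hA : Kk ≤ A) (hB : Kk ≤ B)
    (h0A : W0 ⊓ A ≤ Kk) (h0B : W0 ⊓ B ≤ Kk) (h1A : W1 ⊓ A ≤ Kk) (h1B : W1 ⊓ B ≤ Kk)
    (ζ0 ζ1 a b : Ten P F) (s0 : Sup W0 ζ0) (s1 : Sup W1 ζ1) (sa : Sup A a) (sb : Sup B b)
    (hsum : ζ0 + ζ1 + a + b = 0) (g : Fin 3 → HV P F) (hg : ∀ φ, ∀ v ∈ Kk, dot (g φ) v = 0) :
    evT g (ζ0 + ζ1) = 0 := by
  have h1 := step1 hA hB h1A h1B s1 s0 sa sb (by rw [← hsum]; abel)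
  obtain ⟨eA, hA1, hA2⟩ := exists_ext h0A (hg 0)
  obtain ⟨eB, hB1, hB2⟩ := exists_ext h0B (hg 1)
  have k1 : ∀ ψ, ∀ v ∈ Kk, dot (![eA, eB, g 2] ψ) v = 0 := fun ψ v hv => by
    fin_cases ψ
    exacts [hA2 v (hA hv), hB2 v (hB hv), hg 2 v hv]
  have k2 : ∀ ψ, ∀ v ∈ W0, dot (![eA, eB, g 2] ψ) v = dot (g ψ) v := fun ψ v hv => by
    fin_cases ψ
    exacts [hA1 v hv, hB1 v hv, rfl]
  have e0 := tele (Kk := Kk) (W := W0) (fun g φ _ h => s0 g φ h) hg k1 k2
  have e1 := tele h1 hg k1 k2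
  have e2 : evT ![eA, eB, g 2] a = 0 := sa _ 0 hA2
  have e3 : evT ![eA, eB, g 2] b = 0 := sb _ 1 hB2
  have e4 : evT ![eA, eB, g 2] (ζ0 + ζ1 + a + b) = 0 := by rw [hsum]; simp [evT]
  rw [evT_add, evT_add, evT_add, e0, e1, e2, e3] at e4
  rw [evT_add]
  simpa using e4

theorem hit_of_rel [DecidableEq (Un P F × Lab F)] (hP : P.Ok) (κ : Key P F) {N : ℕ}
    (y : Fin N → Un P F × Lab F)
    (ζ : Fin N → UF P F) (hκ : ∀ s, key (crv (y s).1) (y s).2 = κ)
    (hN : ∀ s h, NiceK (cur (crv (y s).1) h)) (hT : ∀ s, Typ (crv (y s).1) (y s).2)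
    (hE : ∀ s, InE (crv (y s).1) (ζ s)) (hsum : ∑ s, ζ s = 0) (s0 : Fin N)
    (h0 : ¬ InE0 κ (ζ s0)) :
    HitC κ (y s0) ((univ.filter fun s => s < s0).image y) ∨
      HitC κ (y s0) ((univ.filter fun s => s0 < s).image y) := by
  by_contra hcon
  rw [not_or] at hcon
  apply h0
  intro j h l
  rw [← hκ s0]
  refine ko hP _ _ h (hN s0 h) (hT s0) _ (hE s0 j h l) fun g hg => ?_
  rw [hκ s0] at hg
  obtain ⟨Z, hZ⟩ := (mem_Esp_iff _ _ _).1 (hE s0 j h l)
  have hsup : ∀ S : Finset (Fin N), Sup (Ksp κ h ⊔ (⨆ y' ∈ S.image y, ⨆ i', Wsp ((y'.1 i').1 h)))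
      (∑ s ∈ S, ζ s j h l) := by
    intro S
    refine sup_sum S fun s hs => ?_
    obtain ⟨Z', hZ'⟩ := (mem_Esp_iff _ _ _).1 (hE s j h l)
    have hle : ∀ i, Wsp (crv (y s).1 i h) ≤
        Ksp κ h ⊔ (⨆ y' ∈ S.image y, ⨆ i', Wsp ((y'.1 i').1 h)) := fun i =>
      le_sup_of_le_right (le_iSup₂_of_le (y s) (Finset.mem_image_of_mem y hs)
        (le_iSup (fun i' => Wsp (((y s).1 i').1 h)) i))
    rw [hZ']
    exact sup_add (sup_mono (hle false) (sup_U _ _)) (sup_mono (hle true) (sup_U _ _))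
  have hinf : ∀ (T : Finset (Un P F × Lab F)), ¬ HitC κ (y s0) T → ∀ i, Wsp (crv (y s0).1 i h) ⊓
      (Ksp κ h ⊔ (⨆ y' ∈ T, ⨆ i', Wsp ((y'.1 i').1 h))) ≤ Ksp κ h := by
    intro T hT i b hb
    by_contra hb'
    exact hT ⟨i, h, b, hb.1, hb.2, hb'⟩
  rw [hZ]
  refine two_good (Ksp κ h) _ _ _ _ le_sup_left le_sup_left (hinf _ hcon.1 false)
    (hinf _ hcon.2 false) (hinf _ hcon.1 true) (hinf _ hcon.2 true) _ _ _ _ (sup_U _ _) (sup_U _ _)
    (hsup _) (hsup _) ?_ g fun φ v hv => ?_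
  · rw [← hZ]
    have e1 : ∑ s, ζ s j h l = 0 := by
      have := congrFun (congrFun (congrFun hsum j) h) l
      simpa only [Finset.sum_apply, Pi.zero_apply] using this
    have e2 : (univ : Finset (Fin N)).filter (fun s => ¬ s < s0) =
        insert s0 (univ.filter fun s => s0 < s) := by
      ext s
      simp only [mem_filter, mem_univ, true_and, mem_insert, not_lt]
      exact le_iff_eq_or_lt.trans (or_congr eq_comm Iff.rfl)
    rw [← Finset.sum_filter_add_sum_filter_not univ (fun s => s < s0), e2,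
      Finset.sum_insert (by simp)] at e1
    rw [← e1]
    abel
  · have : Ksp κ h ≤ LinearMap.ker (dotL (g φ)) := by
      rw [Ksp, Submodule.span_le]
      rintro _ ⟨s, rfl⟩
      exact hg φ s
    exact this hv

theorem hitC_mass (μ : Un P F → ℝ) (hμ : ∀ u, 0 ≤ μ u) (w : Un P F → Lab F → ℝ)
    (hw : ∀ u ω, 0 ≤ w u ω) (hS : Spread μ w) (κ : Key P F) (m : ℕ)
    (T : Finset (Un P F × Lab F)) (hT : T.card ≤ m) :
    Nw μ (fun u ω => w u ω * ind (HitC κ (u, ω) T)) κ ≤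
      4 * (Fintype.card F : ℝ) ^ (4 + 2 * (P.K + 1) * m) / (Fintype.card F : ℝ) ^ (P.n / 2) := by
  classical
  let S : Bool → Submodule F (HV P F) := fun h =>
    Ksp κ h ⊔ (⨆ y' ∈ T, ⨆ i', Wsp ((y'.1 i').1 h))
  obtain ⟨B, hBm⟩ : ∃ B : Bool → Finset (HV P F), ∀ h b, b ∈ B h ↔ b ∈ S h ∧ b ∉ Ksp κ h :=
    ⟨fun h => univ.filter fun b => b ∈ S h ∧ b ∉ Ksp κ h, fun h b => by simp⟩
  have hq : 1 ≤ Fintype.card F := Fintype.card_pos
  have hB : ∀ h, (B h).card ≤ Fintype.card F ^ (4 + 2 * (P.K + 1) * m) := by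
    intro h
    have h1 : (B h).card ≤ Fintype.card (S h) := by
      rw [Fintype.card_subtype]
      exact Finset.card_le_card fun b hb => mem_filter.2 ⟨mem_univ _, ((hBm h b).1 hb).1⟩
    refine h1.trans ?_
    rw [Module.card_eq_pow_finrank (K := F)]
    refine Nat.pow_le_pow_right hq ?_
    have h2 := Submodule.finrank_add_le_finrank_add_finrank (Ksp κ h)
      (⨆ y' ∈ T, ⨆ i', Wsp ((y'.1 i').1 h))
    have h3 := finrank_Ksp κ h
    have h4 := finrank_biSup h T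
    have h5 : 2 * (P.K + 1) * T.card ≤ 2 * (P.K + 1) * m := Nat.mul_le_mul_left _ hT
    exact h2.trans (by omega)
  have hle : ∀ u ω, w u ω * ind (HitC κ (u, ω) T) ≤
      ∑ ih : Bool × Bool, ∑ b ∈ B ih.2, w u ω * ind (b ∈ Wsp ((u ih.1).1 ih.2)) := by
    intro u ω
    have hn : ∀ (ih : Bool × Bool) (b : HV P F), 0 ≤ w u ω * ind (b ∈ Wsp ((u ih.1).1 ih.2)) :=
      fun ih b => mul_nonneg (hw u ω) (ind_nonneg _)
    by_cases hH : HitC κ (u, ω) T
    · obtain ⟨i, h, b, h1, h2, h3⟩ := hH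
      have hb : b ∈ B h := (hBm h b).2 ⟨h2, h3⟩
      have c1 : w u ω * ind (HitC κ (u, ω) T) ≤ w u ω * ind (b ∈ Wsp ((u i).1 h)) :=
        mul_le_mul_of_nonneg_left (ind_mono fun _ => h1) (hw u ω)
      have c2 := Finset.single_le_sum (f := fun b => w u ω * ind (b ∈ Wsp ((u i).1 h)))
        (fun b _ => hn (i, h) b) hb
      have c3 := Finset.single_le_sum
        (f := fun ih : Bool × Bool => ∑ b ∈ B ih.2, w u ω * ind (b ∈ Wsp ((u ih.1).1 ih.2)))
        (fun ih _ => Finset.sum_nonneg fun b _ => hn ih b) (mem_univ (i, h))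
      dsimp only at c2 c3
      exact c1.trans (c2.trans c3)
    · rw [ind_neg hH, mul_zero]
      exact Finset.sum_nonneg fun ih _ => Finset.sum_nonneg fun b _ => hn ih b
  refine (Nw_mono hμ hle κ).trans ?_
  rw [Nw_sum]
  have hterm : ∀ ih : Bool × Bool,
      Nw μ (fun u ω => ∑ b ∈ B ih.2, w u ω * ind (b ∈ Wsp ((u ih.1).1 ih.2))) κ ≤
        (Fintype.card F : ℝ) ^ (4 + 2 * (P.K + 1) * m) / (Fintype.card F : ℝ) ^ (P.n / 2) := by
    intro ih
    rw [Nw_sum]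
    have hb1 : ∀ b ∈ B ih.2, Nw μ (fun u ω => w u ω * ind (b ∈ Wsp ((u ih.1).1 ih.2))) κ ≤
        1 / (Fintype.card F : ℝ) ^ (P.n / 2) := by
      intro b hb
      exact hS κ ih.1 ih.2 b ((hBm _ b).1 hb).2
    refine (Finset.sum_le_card_nsmul _ _ _ hb1).trans ?_
    rw [nsmul_eq_mul, mul_one_div]
    refine div_le_div_of_nonneg_right ?_ (by positivity)
    have := (Nat.cast_le (α := ℝ)).2 (hB ih.2)
    rwa [Nat.cast_pow] at this
  refine (Finset.sum_le_card_nsmul _ _ _ fun ih _ => hterm ih).trans (le_of_eq ?_)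
  simp only [card_univ, Fintype.card_prod, Fintype.card_bool, nsmul_eq_mul]
  push_cast
  ring

end Vale.Agent.P060
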