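import Vale.Agent.P060.Hit
import Vale.Agent.P060.Tens
import Vale.Agent.P060.Four

/-!
# The gradient step (task Grad)
Choose fs u ω with Agree when w u ω ≠ 0.  For c' : UC, ω', f' : UF let κ = tp (key c' ω'),
Err c' ω' f' = sum over y = (u, ω) of ν y * sum_ζ co y ζ * sgn (pr f' ζ), where
ν y = |Key| μ u w u ω ind (key (crv u) ω = κ) / (|Un| |Lab|) (total Nw μ w κ ≤ 2) and
co y ζ = B u ω c' ω' * ecoef (crv u) κ (fs u ω) ζ (sum of |co| ≤ q^L q^L).  By four_id the quantity is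
avg over u', ω' of μ u' w' u' ω' Err (crv u') ω' (frm u'), so with t = 120 its 2t-th power is at most
avg μ u' Err^(2t) (pow_expect_le) ≤ q^(30 n) max over c', ω' of avg_f' Err^(2t) (expect_un), which grad_mom
(Hit = HitC κ, hit_of_rel, hitC_mass with m = 2t) bounds by
q^(4 t L) 2 4^t (2 * 4 q^(4 + 4 t (K+1)) / q^(n/2))^t.  Exponent:
30 n + 480 L + 120 (4 + 480 (K+1)) - 60 n ≤ -1 as n = 800 (R+1)(K+1), L ≤ 24 (R+1)(K+1).
-/

open Finset Polynomial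
open scoped BigOperators

namespace Vale.Agent.P060

namespace GradAux

section
variable {P : Par} {F : Type} [Field F] [Fintype F] [DecidableEq F] [Algebra (ZMod 2) F]

/-- the weight of a labelled unit with the key `κ` -/
noncomputable def nuW (μ : Un P F → ℝ) (w : Un P F → Lab F → ℝ) (κ : Key P F)
    (y : Un P F × Lab F) : ℝ :=
  (Fintype.card (Key P F) : ℝ) * (μ y.1 * (w y.1 y.2 * ind (key (crv y.1) y.2 = κ))) /
    (Fintype.card (Un P F × Lab F) : ℝ)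

omit [DecidableEq F] [Algebra (ZMod 2) F] in
theorem sum_nuW (μ : Un P F → ℝ) (w : Un P F → Lab F → ℝ) (κ : Key P F)
    (g : Un P F × Lab F → ℝ) :
    ∑ y, nuW μ w κ y * g y = Nw μ (fun u ω => w u ω * g (u, ω)) κ := by
  have h := expect_prod' (fun y : Un P F × Lab F =>
    μ y.1 * (w y.1 y.2 * g y * ind (key (crv y.1) y.2 = κ)))
  simp only [Nw, mass]
  rw [← h, Fintype.expect_eq_sum_div_card, Finset.sum_div, Finset.mul_sum]
  refine Finset.sum_congr rfl fun y _ => ?_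
  simp only [nuW]
  ring

omit [DecidableEq F] [Algebra (ZMod 2) F] in
theorem nuW_nonneg {μ : Un P F → ℝ} (hμ : ∀ u, 0 ≤ μ u) {w : Un P F → Lab F → ℝ}
    (hw : ∀ u ω, 0 ≤ w u ω) (κ : Key P F) (y : Un P F × Lab F) : 0 ≤ nuW μ w κ y := by
  have := hμ y.1
  have := hw y.1 y.2
  have := ind_nonneg (key (crv y.1) y.2 = κ)
  unfold nuW
  positivity

omit [Algebra (ZMod 2) F] in
theorem nuW_ne {μ : Un P F → ℝ} {w : Un P F → Lab F → ℝ} {κ : Key P F} {y : Un P F × Lab F}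
    (h : nuW μ w κ y ≠ 0) : w y.1 y.2 ≠ 0 ∧ key (crv y.1) y.2 = κ := by
  constructor
  · intro h0
    apply h
    simp [nuW, h0]
  · by_contra h0
    apply h
    simp [nuW, ind_neg h0]

/-- the error term seen from the second unit -/
noncomputable def Err (μ : Un P F → ℝ) (w : Un P F → Lab F → ℝ) (fs : Un P F → Lab F → UF P F)
    (B : Un P F → Lab F → UC P F → Lab F → ℝ) (c' : UC P F) (ω' : Lab F) (f' : UF P F) : ℝ :=
  ∑ y, nuW μ w (tp (key c' ω')) y * ∑ ζ,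
    (B y.1 y.2 c' ω' * ecoef (crv y.1) (tp (key c' ω')) (fs y.1 y.2) ζ) * sgn (pr f' ζ)

theorem swap4 {A B C D : Type} [Fintype A] [Fintype B] [Fintype C] [Fintype D]
    (G : A → B → C → D → ℝ) :
    𝔼 a, 𝔼 b, 𝔼 c, 𝔼 d, G a b c d = 𝔼 c, 𝔼 d, 𝔼 a, 𝔼 b, G a b c d := by
  have h1 : ∀ a, 𝔼 b, 𝔼 c, 𝔼 d, G a b c d = 𝔼 c, 𝔼 d, 𝔼 b, G a b c d := by
    intro a
    rw [Finset.expect_comm]
    exact Finset.expect_congr rfl fun c _ => Finset.expect_comm _ _ _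
  simp only [h1]
  rw [Finset.expect_comm]
  exact Finset.expect_congr rfl fun c _ => Finset.expect_comm _ _ _

theorem err_pt (μ : Un P F → ℝ) (w : Un P F → Lab F → ℝ) (pv : Un P F → Lab F → PV P F)
    (B : Un P F → Lab F → UC P F → Lab F → ℝ) (fs : Un P F → Lab F → UF P F)
    (hfs : ∀ u ω, w u ω ≠ 0 → Agree (crv u) (pv u ω) (fs u ω)) (c' : UC P F) (ω' : Lab F)
    (f' : UF P F)
    (hk : ∀ u ω, w u ω ≠ 0 → key (crv u) ω = tp (key c' ω') →
      ∀ j s h l, ev (f' j h l) (tau (key (crv u) ω s h)) = pv u ω s.1 j h l (ω s h)) :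
    Err μ w fs B c' ω' f' = Nw μ (fun u ω => w u ω *
      (B u ω c' ω' * (AA (crv u) ω (pv u ω) f' - 1))) (tp (key c' ω')) := by
  rw [← sum_nuW μ w (tp (key c' ω'))
    (fun y => B y.1 y.2 c' ω' * (AA (crv y.1) y.2 (pv y.1 y.2) f' - 1))]
  refine Finset.sum_congr rfl fun y _ => ?_
  by_cases h0 : nuW μ w (tp (key c' ω')) y = 0
  · rw [h0, zero_mul, zero_mul]
  obtain ⟨a1, a2⟩ := nuW_ne h0
  rw [four_id (crv y.1) y.2 (pv y.1 y.2) (fs y.1 y.2) f' (hfs _ _ a1) (hk _ _ a1 a2), a2,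
    Finset.mul_sum (a := B y.1 y.2 c' ω')]
  congr 1
  exact Finset.sum_congr rfl fun ζ _ => mul_assoc _ _ _

theorem pair_eq (μ : Un P F → ℝ) (w w' : Un P F → Lab F → ℝ) (pv : Un P F → Lab F → PV P F)
    (B : Un P F → Lab F → UC P F → Lab F → ℝ) (fs : Un P F → Lab F → UF P F)
    (hfs : ∀ u ω, w u ω ≠ 0 → Agree (crv u) (pv u ω) (fs u ω))
    (hk : ∀ u ω u' ω', w u ω ≠ 0 → w' u' ω' ≠ 0 → key (crv u) ω = tp (key (crv u') ω') →
      ∀ j s h l, ev (frm u' j h l) (tau (key (crv u) ω s h)) = pv u ω s.1 j h l (ω s h)) :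
    (pairE μ fun u ω u' ω' => w u ω * w' u' ω' * B u ω (crv u') ω' *
        (AA (crv u) ω (pv u ω) (frm u') - 1)) =
      𝔼 z : Un P F × Lab F, μ z.1 * (w' z.1 z.2 * Err μ w fs B (crv z.1) z.2 (frm z.1)) := by
  rw [expect_prod']
  unfold pairE
  rw [swap4, Finset.mul_expect]
  refine Finset.expect_congr rfl fun u' _ => ?_
  rw [Finset.mul_expect]
  refine Finset.expect_congr rfl fun ω' _ => ?_
  by_cases h0 : w' u' ω' = 0
  · simp only [h0, zero_mul, mul_zero, Fintype.expect_const]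
  rw [err_pt μ w pv B fs hfs (crv u') ω' (frm u') (fun u ω h1 h2 => hk u ω u' ω' h1 h0 h2)]
  simp only [Nw, mass, Finset.mul_expect]
  refine Finset.expect_congr rfl fun u _ => Finset.expect_congr rfl fun ω _ => ?_
  ring

theorem err_mom (hP : P.Ok) (μ : Un P F → ℝ) (hμ : ∀ u, 0 ≤ μ u) (w : Un P F → Lab F → ℝ)
    (B : Un P F → Lab F → UC P F → Lab F → ℝ) (fs : Un P F → Lab F → UF P F)
    (hw : ∀ u ω, 0 ≤ w u ω) (hN : ∀ κ, Nw μ w κ ≤ 2) (hS : Spread μ w)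
    (hn : ∀ u ω, w u ω ≠ 0 → (∀ h, NiceK (cur (crv u) h)) ∧ Typ (crv u) ω)
    (hB : ∀ u ω c' ω', 0 ≤ B u ω c' ω' ∧ B u ω c' ω' ≤ (Fintype.card F : ℝ) ^ P.L)
    (t : ℕ) (c' : UC P F) (ω' : Lab F) :
    𝔼 f', Err μ w fs B c' ω' f' ^ (2 * t) ≤
      ((Fintype.card F : ℝ) ^ P.L * (Fintype.card F : ℝ) ^ P.L) ^ (2 * t) *
        (2 * 4 ^ t * (2 * (4 * (Fintype.card F : ℝ) ^ (4 + 2 * (P.K + 1) * (2 * t)) /
          (Fintype.card F : ℝ) ^ (P.n / 2))) ^ t) := by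
  classical
  refine grad_mom (fun f ζ => sgn (pr f ζ)) (fun f => by rw [pr_zero_right, sgn_zero])
    (fun f ζ ζ' => by rw [pr_add_right, sgn_add]) expect_sgn_pr
    (nuW μ w (tp (key c' ω'))) (nuW_nonneg hμ hw _) 2 _ _ ?_ t (HitC (tp (key c' ω'))) ?_
    (fun y ζ => B y.1 y.2 c' ω' * ecoef (crv y.1) (tp (key c' ω')) (fs y.1 y.2) ζ) ?_ ?_
  · have := sum_nuW μ w (tp (key c' ω')) (fun _ => 1)
    simp only [mul_one] at this
    rw [this]
    exact hN _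
  · intro T hT
    rw [sum_nuW μ w (tp (key c' ω')) (fun y => ind (HitC (tp (key c' ω')) y T))]
    exact hitC_mass μ hμ w hw hS _ (2 * t) T hT
  · intro y _
    simp only [abs_mul, ← Finset.mul_sum]
    rw [abs_of_nonneg (hB _ _ _ _).1]
    exact mul_le_mul (hB _ _ _ _).2 (ecoef_sum_le _ _ _)
      (Finset.sum_nonneg fun _ _ => abs_nonneg _) (by positivity)
  · intro y ζ h1 h2 h3 s
    have h4 : ∀ s, InE (crv (y s).1) (ζ s) ∧ ¬ InE0 (tp (key c' ω')) (ζ s) := by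
      intro s
      by_contra h0
      apply h2 s
      simp [ecoef, ind_neg h0]
    exact hit_of_rel hP _ y ζ (fun s => (nuW_ne (h1 s)).2)
      (fun s => (hn _ _ (nuW_ne (h1 s)).1).1) (fun s => (hn _ _ (nuW_ne (h1 s)).1).2)
      (fun s => (h4 s).1) h3 s (h4 s).2

theorem pow_bound (μ : Un P F → ℝ) (hμ : Adm μ) (w' : Un P F → Lab F → ℝ)
    (hw' : ∀ u ω, 0 ≤ w' u ω ∧ w' u ω ≤ 1) (E : UC P F → Lab F → UF P F → ℝ) (t : ℕ)
    (ht : 1 ≤ t) (M : ℝ) (hM0 : 0 ≤ M) (hM : ∀ c ω, 𝔼 f, E c ω f ^ (2 * t) ≤ M) :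
    |𝔼 z : Un P F × Lab F, μ z.1 * (w' z.1 z.2 * E (crv z.1) z.2 (frm z.1))| ^ (2 * t) ≤
      (Fintype.card F : ℝ) ^ (30 * P.n) * M := by
  have h1 : |𝔼 z : Un P F × Lab F, μ z.1 * (w' z.1 z.2 * E (crv z.1) z.2 (frm z.1))| ≤
      𝔼 z : Un P F × Lab F, μ z.1 * |E (crv z.1) z.2 (frm z.1)| := by
    refine (abs_expect_le _).trans (expect_mono fun z => ?_)
    rw [abs_mul, abs_mul, abs_of_nonneg (hμ.nonneg _), abs_of_nonneg (hw' _ _).1]
    exact mul_le_mul_of_nonneg_left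
      (mul_le_of_le_one_left (abs_nonneg _) (hw' _ _).2) (hμ.nonneg _)
  have h2 := pow_expect_le (fun z : Un P F × Lab F => μ z.1)
    (fun z => |E (crv z.1) z.2 (frm z.1)|) (fun z => hμ.nonneg _)
    (by rw [expect_prod']; simp only [Fintype.expect_const]; exact hμ.total.le)
    (fun z => abs_nonneg _) (2 * t) (by omega)
  refine ((pow_le_pow_left₀ (abs_nonneg _) h1 _).trans h2).trans ?_
  have h3 : 𝔼 z : Un P F × Lab F, μ z.1 * |E (crv z.1) z.2 (frm z.1)| ^ (2 * t) ≤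
      𝔼 z : Un P F × Lab F, (Fintype.card F : ℝ) ^ (30 * P.n) *
        E (crv z.1) z.2 (frm z.1) ^ (2 * t) := by
    refine expect_mono fun z => ?_
    rw [(even_two_mul t).pow_abs]
    exact mul_le_mul_of_nonneg_right (hμ.le _) ((even_two_mul t).pow_nonneg _)
  refine h3.trans ?_
  rw [← Finset.mul_expect]
  refine mul_le_mul_of_nonneg_left ?_ (by positivity)
  rw [expect_prod', Finset.expect_comm]
  refine expect_le_of_le hM0 fun ω => ?_
  rw [expect_un (fun c f => E c ω f ^ (2 * t))]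
  exact expect_le_of_le hM0 fun c => hM c ω

end

theorem expo (P : Par) (hP : P.Ok) :
    30 * P.n + 480 * P.L + (4 + 2 * (P.K + 1) * (2 * 120)) * 120 + 1 ≤ P.n / 2 * 120 := by
  have h1 : P.n / 2 = 400 * (P.R + 1) * (P.K + 1) := by
    rw [hP.hn]
    have : 800 * (P.R + 1) * (P.K + 1) = 2 * (400 * (P.R + 1) * (P.K + 1)) := by ring
    omega
  have h2 : 187 ≤ P.R := by have := hP.hR; have := hP.hk; omega
  rw [h1, hP.hn, Par.L]
  obtain ⟨R', hR'⟩ := Nat.exists_eq_add_of_le h2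
  rw [hR']
  nlinarith [Nat.zero_le (R' * P.K), Nat.zero_le R', Nat.zero_le P.K]

theorem numer (q : ℝ) (hq : 1 ≤ q) (n L a b t : ℕ) (h : n + 4 * t * L + a * t + 1 ≤ b * t) :
    q ^ n * ((q ^ L * q ^ L) ^ (2 * t) * (2 * 4 ^ t * (2 * (4 * q ^ a / q ^ b)) ^ t)) ≤
      2 * 4 ^ t * 8 ^ t / q := by
  have hq0 : 0 < q := by linarith
  have e : q ^ n * ((q ^ L * q ^ L) ^ (2 * t) * (2 * 4 ^ t * (2 * (4 * q ^ a / q ^ b)) ^ t)) =
      2 * 4 ^ t * 8 ^ t * (q ^ (n + 4 * t * L + a * t) / q ^ (b * t)) := by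
    have e1 : 2 * (4 * q ^ a / q ^ b) = 8 * (q ^ a / q ^ b) := by ring
    have e2 : (q ^ L * q ^ L) ^ (2 * t) = q ^ (4 * t * L) := by
      rw [← pow_add, ← pow_mul]; congr 1; ring
    rw [e1, e2, mul_pow, div_pow, ← pow_mul, ← pow_mul, pow_add, pow_add]
    ring
  rw [e, div_eq_mul_one_div _ q]
  refine mul_le_mul_of_nonneg_left ?_ (by positivity)
  rw [div_le_div_iff₀ (by positivity) hq0, one_mul, ← pow_succ]
  exact pow_le_pow_right₀ hq h

end GradAux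

open GradAux in
theorem grad (P : Par) (hP : P.Ok) (ε : ℝ) (hε : 0 < ε) :
    Ev P fun F _ _ _ _ μ => ∀ (w w' : Un P F → Lab F → ℝ) (pv : Un P F → Lab F → PV P F)
      (B : Un P F → Lab F → UC P F → Lab F → ℝ),
      (∀ u ω, 0 ≤ w u ω ∧ w u ω ≤ 1) → (∀ u ω, 0 ≤ w' u ω ∧ w' u ω ≤ 1) →
      (∀ κ, Nw μ w κ ≤ 2) → Spread μ w →
      (∀ u ω, w u ω ≠ 0 → (∀ h, NiceK (cur (crv u) h)) ∧ Typ (crv u) ω ∧
        ∃ fs, Agree (crv u) (pv u ω) fs) →
      (∀ u ω u' ω', w u ω ≠ 0 → w' u' ω' ≠ 0 → key (crv u) ω = tp (key (crv u') ω') →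
        ∀ j s h l, ev (frm u' j h l) (tau (key (crv u) ω s h)) = pv u ω s.1 j h l (ω s h)) →
      (∀ u ω c' ω', 0 ≤ B u ω c' ω' ∧ B u ω c' ω' ≤ (Fintype.card F : ℝ) ^ P.L) →
      |pairE μ fun u ω u' ω' => w u ω * w' u' ω' * B u ω (crv u') ω' *
        (AA (crv u) ω (pv u ω) (frm u') - 1)| ≤ ε := by
  obtain ⟨t, ht⟩ : ∃ t : ℕ, t = 120 := ⟨_, rfl⟩
  refine (ev_card P (2 * 4 ^ t * 8 ^ t / ε ^ (2 * t))).mono ?_
  intro F _ _ _ _ μ hμ hq w w' pv B hw hw' hN hS hn hk hB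
  have h0 : ∀ u ω, ∃ fs, w u ω ≠ 0 → Agree (crv u) (pv u ω) fs := by
    intro u ω
    by_cases h : w u ω = 0
    · exact ⟨0, fun h' => absurd h h'⟩
    · obtain ⟨fs, hfs⟩ := (hn u ω h).2.2
      exact ⟨fs, fun _ => hfs⟩
  choose fs hfs using h0
  rw [pair_eq μ w w' pv B fs hfs hk]
  have hq1 : (1 : ℝ) ≤ Fintype.card F := by exact_mod_cast Fintype.card_pos
  have h1 := pow_bound μ hμ w' hw' (Err μ w fs B) t (by omega) _ (by positivity)
    (err_mom hP μ hμ.nonneg w B fs (fun u ω => (hw u ω).1) hN hS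
      (fun u ω h => ⟨(hn u ω h).1, (hn u ω h).2.1⟩) hB t)
  have h2 := numer (Fintype.card F : ℝ) hq1 (30 * P.n) P.L (4 + 2 * (P.K + 1) * (2 * t))
    (P.n / 2) t (by have := expo P hP; rw [ht]; omega)
  have h3 : 2 * 4 ^ t * 8 ^ t / (Fintype.card F : ℝ) ≤ ε ^ (2 * t) := by
    rw [div_le_iff₀ (by positivity)] at hq ⊢
    linarith
  exact le_of_pow_le_pow_left₀ (by omega) hε.le ((h1.trans h2).trans h3)

end Vale.Agent.P060
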