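import Vale.Agent.P060.FL
import Vale.Agent.P060.KB

/-!
# Prescribed values (task Pres)
flin_good: gram follows from W0 since smat e σ σ' false j + smat e σ σ' true j = σ and
gam u false (ω (0,j)) + gam u true (ω (1,j)) = sig π j; row and oc from the hypotheses on π'.
pres_consistent: for fixed j h l define the ZMod 2-linear functional on pairs Z by
sum_i sum_x Z i x * pres i j h l x = sum_i (L i j h (l' ↦ Bf l' (Z i) (dl (ω (i,j) !h))) + eta (Z i) • c i j h) l.
It vanishes on the kernel of Z ↦ U (c 0 h) (Z 0) + U (c 1 h) (Z 1) (IsKB.span, Bf_congr, mom_zero_exp,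
eta_eq_of_U, Spec.ker), so it factors through a linear functional on Ten; use exists_ev.
pres_key: Spec.keyT, Spec.keyF, Bf_comm.
conf_of_agree: witnesses z h = dl (ω (i,j) h), z' h = dl (ω' (j,i) h), s = smat 0 σ σ' i j; Spec.form.
-/

open Finset Polynomial
open scoped BigOperators

namespace Vale.Agent.P060

variable {P : Par} {F : Type} [Field F] [Fintype F] [DecidableEq F] [Algebra (ZMod 2) F]

namespace PresAux

omit [Fintype F] [DecidableEq F] in
theorem sig_eq (u : Un P F) (ω : Lab F) (j : Bool) :
    sig (prof (frm u) (key (crv u) ω)) j = gam u true (ω (true, j)) + gam u false (ω (false, j)) :=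
  rfl

theorem Bf_vec (z : F → ZMod 2) (w : F → ZMod 2) :
    (fun l' => Bf P l' z w) = ∑ x, z x • fun l' => Bf P l' (dl x) w := by
  funext l'
  conv_lhs => rw [← sum_smul_dl z]
  simp only [Bf_sum_left, Bf_smul_left, Finset.sum_apply, Pi.smul_apply, smul_eq_mul]

theorem sum_pres (L : (Fin P.r → ZMod 2) →ₗ[ZMod 2] (Option (Fin P.R) → ZMod 2))
    (c : Option (Fin P.R) → ZMod 2) (z w : F → ZMod 2) (l : Option (Fin P.R)) :
    ∑ x, z x * (L (fun l' => Bf P l' (dl x) w) + c) l =
      (L (fun l' => Bf P l' z w) + eta z • c) l := by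
  rw [Bf_vec z w, map_sum]
  simp only [map_smul, Pi.add_apply, Finset.sum_apply, Pi.smul_apply, smul_eq_mul, eta, mul_add,
    Finset.sum_add_distrib, Finset.sum_mul]

theorem uf_agree {c : UC P F} {ω : Lab F} {π' : Prof P} {s : Bool → Bool → ZMod 2}
    (hS : (flin c ω π' s).Spec (fl (flin c ω π' s))) {u' : Un P F}
    (hA : Agree c (pres c ω π' s) (frm u')) (i j : Bool) (x : Bool → F) :
    uf (u' j) (pts (c i) x) = s i j + TT P (fun h => dl (ω (i, j) h)) fun h => dl (x h) := by
  have h1 := hS.form i j (fun l' => Bf P l' (dl (x true)) (dl (ω (i, j) false)))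
    (fun l' => Bf P l' (dl (x false)) (dl (ω (i, j) true)))
  have h2 : uf (u' j) (pts (c i) x) = uval fun h l => pres c ω π' s i j h l (x h) :=
    congrArg uval (funext fun h => funext fun l => hA i j h l (x h))
  rw [h2, TT]
  simp only [Bf_comm _ (dl (ω (i, j) true))]
  refine Eq.trans (congrArg uval (funext fun h => ?_)) h1
  cases h <;> rfl

end PresAux

open PresAux

theorem flin_good (u : Un P F) (ω : Lab F) (π π' : Prof P) (e : ZMod 2) (hW : W0 u ω)
    (hG : Gen (crv u) ω) (hπ : prof (frm u) (key (crv u) ω) = π) (hoc : OC π')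
    (hs : sig π' false = sig π' true) :
    (flin (crv u) ω π' (smat e (sig π false) (sig π' false))).Good := by
  have hsig : ∀ j, sig π false = gam u true (ω (true, j)) + gam u false (ω (false, j)) := by
    intro j
    rw [← hπ, sig_eq]
    cases j
    · rfl
    · rw [add_comm, hW.2, add_comm]
  refine ⟨hG, fun j s t => ?_, fun j i h => hoc j i h, fun i => ?_⟩
  · have h1 := congrFun (congrFun (hW.1 j) s) t
    change Gm (crv u) false (ω (false, j)) s t + gam u false (ω (false, j)) * nu (crv u) s t =
      Gm (crv u) true (ω (true, j)) s t + gam u true (ω (true, j)) * nu (crv u) s t at h1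
    change Gm (crv u) false (ω (false, j)) s t +
        smat e (sig π false) (sig π' false) false j * nu (crv u) s t =
      Gm (crv u) true (ω (true, j)) s t +
        smat e (sig π false) (sig π' false) true j * nu (crv u) s t
    rw [hsig j]
    simp only [smat, bz, if_true, Bool.false_eq_true, if_false, zero_mul, add_zero, one_mul]
    revert h1
    generalize Gm (crv u) false (ω (false, j)) s t = a
    generalize Gm (crv u) true (ω (true, j)) s t = b
    generalize gam u false (ω (false, j)) = c
    generalize gam u true (ω (true, j)) = d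
    generalize nu (crv u) s t = n
    generalize (if j = true then (1 : ZMod 2) else 0) * sig π' false = m
    revert a b c d n m e
    decide
  · change smat e (sig π false) (sig π' false) i false + smat e (sig π false) (sig π' false) i true =
      sig π' i
    have h1 : sig π' i = sig π' false := by
      cases i
      · rfl
      · exact hs.symm
    rw [h1]
    simp only [smat, bz, if_true, Bool.false_eq_true, if_false, zero_mul, add_zero, one_mul]
    rw [← add_assoc, zmod2_add_self, zero_add]

theorem flin_spec (hP : P.Ok) (c : UC P F) (ω : Lab F) (π' : Prof P) (s : Bool → Bool → ZMod 2)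
    (h : (flin c ω π' s).Good) : (flin c ω π' s).Spec (fl (flin c ω π' s)) := by
  refine fl_spec (k := P.k) _ (kd_le c) ?_ hP.hR.ge h
  have := hP.hk
  have := hP.hr
  nlinarith

theorem sig_eq_of_W0 (u : Un P F) (ω : Lab F) (hW : W0 u ω) :
    sig (prof (frm u) (key (crv u) ω)) false = sig (prof (frm u) (key (crv u) ω)) true := by
  rw [sig_eq, sig_eq, add_comm, hW.2, add_comm]

theorem pres_consistent (hP : P.Ok) (c : UC P F) (ω : Lab F) (π' : Prof P)
    (s : Bool → Bool → ZMod 2) (hN : ∀ h, NiceK (cur c h))
    (hS : (flin c ω π' s).Spec (fl (flin c ω π' s))) : ∃ fs, Agree c (pres c ω π' s) fs := by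
  have key : ∀ j h l, ∃ f : Ten P F, ∀ i x, ev f (tau (pt (c i h) x)) = pres c ω π' s i j h l x := by
    intro j h l
    let M : (Bool → F → ZMod 2) →ₗ[ZMod 2] Ten P F :=
      { toFun := fun Z => U (c false h) (Z false) + U (c true h) (Z true)
        map_add' := fun Z Z' => by simp only [Pi.add_apply, U_add]; abel
        map_smul' := fun a Z => by simp only [Pi.smul_apply, U_smul, smul_add, RingHom.id_apply] }
    let ψ : (Bool → F → ZMod 2) →ₗ[ZMod 2] ZMod 2 :=
      { toFun := fun Z => ∑ i, ∑ x, Z i x * pres c ω π' s i j h l x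
        map_add' := fun Z Z' => by simp only [Pi.add_apply, add_mul, Finset.sum_add_distrib]
        map_smul' := fun a Z => by
          simp only [Pi.smul_apply, smul_eq_mul, RingHom.id_apply, Finset.mul_sum, mul_assoc] }
    have hψ : ψ ∈ (LinearMap.ker M).dualAnnihilator := by
      rw [Submodule.mem_dualAnnihilator]
      intro Z hZ
      have hU : U (c false h) (Z false) = U (c true h) (Z true) := by
        funext ι
        have := congrFun (LinearMap.mem_ker.1 hZ) ι
        change U (c false h) (Z false) ι + U (c true h) (Z true) ι = 0 at this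
        rw [eq_neg_of_add_eq_zero_left this, eq_comm, eq_neg_iff_add_eq_zero, add_self_F]
      have hK := isKB_kb hP (cur c h) (hN h)
      obtain ⟨co, hco⟩ := hK.span Z hU
      have e1 : ∀ i, (fun l' => Bf P l' (Z i) (dl (ω (i, j) (!h)))) =
          ∑ t, co t • (flin c ω π' s).cell i j h t := by
        intro i
        funext l'
        rw [Bf_congr hP l' _ (hco i), KD.comb, Bf_sum_left, Finset.sum_apply]
        exact Finset.sum_congr rfl fun t _ => Bf_smul_left _ _ _ _
      have e2 : ∀ i, eta (Z i) = ∑ t, co t * (flin c ω π' s).et h t := by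
        intro i
        have h0 := hco i 0 (Nat.zero_le _)
        rw [mom_zero_exp, mom_zero_exp] at h0
        rw [(algebraMap (ZMod 2) F).injective h0, KD.comb, eta_sum]
        refine Finset.sum_congr rfl fun t _ => (eta_smul _ _).trans ?_
        cases i
        · rfl
        · exact congrArg _ (eta_eq_of_U (hK.ker t)).symm
      have e3 : ∀ i, ∑ x, Z i x * pres c ω π' s i j h l x =
          ∑ t, co t * ((fl (flin c ω π' s)).L i j h ((flin c ω π' s).cell i j h t) +
            (flin c ω π' s).et h t • (fl (flin c ω π' s)).c i j h) l := by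
        intro i
        refine (sum_pres _ _ _ _ _).trans ?_
        rw [e1, e2, map_sum]
        simp only [map_smul, Pi.add_apply, Finset.sum_apply, Pi.smul_apply, smul_eq_mul, mul_add,
          Finset.sum_add_distrib, Finset.sum_mul, mul_assoc]
      change ∑ i, ∑ x, Z i x * pres c ω π' s i j h l x = 0
      rw [Fintype.sum_bool, e3, e3, ← Finset.sum_add_distrib]
      refine Finset.sum_eq_zero fun t _ => ?_
      rw [hS.ker j h t]
      exact zmod2_add_self _
    rw [← LinearMap.range_dualMap_eq_dualAnnihilator_ker] at hψ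
    obtain ⟨φ, hφ⟩ := hψ
    obtain ⟨f, hf⟩ := exists_ev φ
    refine ⟨f, fun i x => ?_⟩
    have h1 := LinearMap.congr_fun hφ (Pi.single i (dl x))
    change φ (U (c false h) ((Pi.single i (dl x) : Bool → F → ZMod 2) false) +
      U (c true h) ((Pi.single i (dl x) : Bool → F → ZMod 2) true)) =
      ∑ i', ∑ y, (Pi.single i (dl x) : Bool → F → ZMod 2) i' y * pres c ω π' s i' j h l y at h1
    have h0 : ∀ α : Cur P F, U α 0 = 0 := fun α => by simp [U]
    rw [hf]
    cases i <;> simpa [h0, U_dl, dl] using h1
  choose f hf using key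
  exact ⟨f, fun i j h l x => hf j h l i x⟩

theorem pres_key (c : UC P F) (ω : Lab F) (π' : Prof P) (s : Bool → Bool → ZMod 2)
    (hS : (flin c ω π' s).Spec (fl (flin c ω π' s))) (hb : BOk c ω π' s) (i j j' h : Bool)
    (l : Option (Fin P.R)) : pres c ω π' s i j h l (ω (i, j') h) = π' j (j', i) h l := by
  cases h
  · have h1 := hS.keyF i j j'
    rw [← hb] at h1
    refine Eq.trans ?_ (congrFun h1 l)
    simp only [pres, Bf_comm _ (dl (ω (i, j') false))]
    rfl
  · have h1 := hS.keyT i j j'
    rw [← hb] at h1
    exact congrFun h1 l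

theorem conf_of_agree (u u' : Un P F) (ω ω' : Lab F) (π π' : Prof P) (σ σ' : ZMod 2)
    (hk : key (crv u) ω = tp (key (crv u') ω'))
    (hS : (flin (crv u) ω π' (smat 0 σ σ')).Spec (fl (flin (crv u) ω π' (smat 0 σ σ'))))
    (hS' : (flin (crv u') ω' π (smat 1 σ' σ)).Spec (fl (flin (crv u') ω' π (smat 1 σ' σ))))
    (hA : Agree (crv u) (pres (crv u) ω π' (smat 0 σ σ')) (frm u'))
    (hA' : Agree (crv u') (pres (crv u') ω' π (smat 1 σ' σ)) (frm u)) : Conf u u' := by
  intro i j
  refine ⟨fun h => dl (ω (i, j) h), fun h => dl (ω' (j, i) h), smat 0 σ σ' i j,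
    fun h => eta_dl _, fun h => eta_dl _, fun h => ?_, uf_agree hS hA i j, fun x => ?_⟩
  · rw [U_dl, U_dl]
    exact congrArg tau (congrFun (congrFun hk (i, j)) h)
  · refine (uf_agree hS' hA' j i x).trans ?_
    simp only [smat]
    ring

end Vale.Agent.P060
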