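import Vale.Agent.P060.KeyStage
import Vale.Agent.P060.BStep
import Vale.Agent.P060.Clean
import Vale.Agent.P060.Grad
import Vale.Agent.P060.Pres
import Vale.Agent.P060.G4P
import Vale.Agent.P060.ChainAux

/-!
# From the key stage to conflicts (helper60)
-/

open Finset Polynomial
open scoped BigOperators

namespace Vale.Agent.P060

section
variable {P : Par} {F : Type} [Field F] [Fintype F] [DecidableEq F] [Algebra (ZMod 2) F]

/-- event after fixing the profile -/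
def A1 (π : Prof P) (u : Un P F) (ω : Lab F) : Prop :=
  NiceU u ∧ W0 u ω ∧ Gen (crv u) ω ∧ prof (frm u) (key (crv u) ω) = π

/-- event after fixing the `b` vectors -/
def A2 (π π' : Prof P) (s : Bool → Bool → ZMod 2) (u : Un P F) (ω : Lab F) : Prop :=
  NiceU u ∧ W0 u ω ∧ Gen (crv u) ω ∧ prof (frm u) (key (crv u) ω) = π ∧ BOk (crv u) ω π' s

def GoodP (π : Prof P) : Prop := OC π ∧ sig π false = sig π true

def BStepP (μ : Un P F → ℝ) (ε : ℝ) : Prop :=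
  ∀ (π π' : Prof P) (s : Bool → Bool → ZMod 2) (g : Key P F → ℝ),
      (∀ κ, 0 ≤ g κ ∧ g κ ≤ 2) →
      mass μ (fun u ω => ind (A1 π u ω) * g (key (crv u) ω)) / 2 ^ (8 * P.r) - ε ≤
        mass μ fun u ω => ind (A2 π π' s u ω) * g (key (crv u) ω)

def GradP (μ : Un P F → ℝ) (ε : ℝ) : Prop :=
  ∀ (w w' : Un P F → Lab F → ℝ) (pv : Un P F → Lab F → PV P F)
      (B : Un P F → Lab F → UC P F → Lab F → ℝ),
      (∀ u ω, 0 ≤ w u ω ∧ w u ω ≤ 1) → (∀ u ω, 0 ≤ w' u ω ∧ w' u ω ≤ 1) →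
      (∀ κ, Nw μ w κ ≤ 2) → Spread μ w →
      (∀ u ω, w u ω ≠ 0 → (∀ h, NiceK (cur (crv u) h)) ∧ Typ (crv u) ω ∧
        ∃ fs, Agree (crv u) (pv u ω) fs) →
      (∀ u ω u' ω', w u ω ≠ 0 → w' u' ω' ≠ 0 → key (crv u) ω = tp (key (crv u') ω') →
        ∀ j s h l, ev (frm u' j h l) (tau (key (crv u) ω s h)) = pv u ω s.1 j h l (ω s h)) →
      (∀ u ω c' ω', 0 ≤ B u ω c' ω' ∧ B u ω c' ω' ≤ (Fintype.card F : ℝ) ^ P.L) →
      |pairE μ fun u ω u' ω' => w u ω * w' u' ω' * B u ω (crv u') ω' *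
        (AA (crv u) ω (pv u ω) (frm u') - 1)| ≤ ε

theorem stage_profile (hP : P.Ok) {μ : Un P F → ℝ} (hμ : Adm μ) {ε c1 : ℝ} (hε : 0 ≤ ε)
    (hc1 : 0 < c1) (hW : Weyl F (3 * P.K) ε)
    (hks : c1 ≤ Qf μ (fun u ω => ind (W0 u ω ∧ Lt μ (key (crv u) ω)))
      (fun u ω => ind (W0 u ω ∧ Lt μ (key (crv u) ω))))
    (hN : 𝔼 u, μ u * ind (¬ NiceU u) ≤ ε)
    (hsmall : 4 * (ε + 2 ^ (4 * P.k + 2) * (1 / 2 ^ P.r + ε) + 8 * (1 / 2 ^ P.R + ε)) ≤ c1 / 2) :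
    ∃ π π' : Prof P, GoodP π ∧ GoodP π' ∧ c1 / 2 / (Fintype.card (Prof P) : ℝ) ^ 2 ≤
      Qf μ (fun u ω => ind (A1 π u ω ∧ Lt μ (key (crv u) ω)))
        (fun u ω => ind (A1 π' u ω ∧ Lt μ (key (crv u) ω))) := by
  set w1 : Un P F → Lab F → ℝ := fun u ω => ind (NiceU u ∧ W0 u ω ∧ Gen (crv u) ω ∧
    OC (prof (frm u) (key (crv u) ω)) ∧ Lt μ (key (crv u) ω)) with hw1
  set b : Un P F → Lab F → ℝ := fun u ω => ind (¬ NiceU u) + ind (NiceU u ∧ ¬ Gen (crv u) ω) +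
    ind (NiceU u ∧ ¬ OC (prof (frm u) (key (crv u) ω))) with hb
  have hle : ∀ u ω, ind (W0 u ω ∧ Lt μ (key (crv u) ω)) ≤ w1 u ω + b u ω := by
    intro u ω
    simp only [hw1, hb]
    have n1 := ind_nonneg (¬ NiceU u)
    have n2 := ind_nonneg (NiceU u ∧ ¬ Gen (crv u) ω)
    have n3 := ind_nonneg (NiceU u ∧ ¬ OC (prof (frm u) (key (crv u) ω)))
    have n4 := ind_nonneg (NiceU u ∧ W0 u ω ∧ Gen (crv u) ω ∧
      OC (prof (frm u) (key (crv u) ω)) ∧ Lt μ (key (crv u) ω))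
    have n5 := ind_le_one (W0 u ω ∧ Lt μ (key (crv u) ω))
    by_cases h0 : W0 u ω ∧ Lt μ (key (crv u) ω)
    swap
    · rw [ind_neg h0]; linarith
    by_cases h1 : NiceU u
    swap
    · rw [ind_pos h1]; linarith
    by_cases h2 : Gen (crv u) ω
    swap
    · rw [ind_pos (p := NiceU u ∧ ¬ Gen (crv u) ω) ⟨h1, h2⟩]; linarith
    by_cases h3 : OC (prof (frm u) (key (crv u) ω))
    swap
    · rw [ind_pos (p := NiceU u ∧ ¬ OC _) ⟨h1, h3⟩]; linarith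
    rw [ind_pos (p := NiceU u ∧ W0 u ω ∧ Gen (crv u) ω ∧
      OC (prof (frm u) (key (crv u) ω)) ∧ Lt μ (key (crv u) ω)) ⟨h1, h0.1, h2, h3, h0.2⟩]
    linarith
  have hd := Q_drop2 (μ := μ) hμ.nonneg (w := fun u ω => ind (W0 u ω ∧ Lt μ (key (crv u) ω)))
    (w' := fun u ω => ind (W0 u ω ∧ Lt μ (key (crv u) ω))) (w1 := w1) (w1' := w1) (b := b)
    (fun u ω => ind_nonneg _) (fun u ω => ind_mono fun h => h.2) (fun u ω => ind_nonneg _)
    (fun u ω => ind_mono fun h => h.2.2.2.2)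
    (fun u ω => add_nonneg (add_nonneg (ind_nonneg _) (ind_nonneg _)) (ind_nonneg _)) hle hle
  have hm : mass μ b ≤ ε + 2 ^ (4 * P.k + 2) * (1 / 2 ^ P.r + ε) + 8 * (1 / 2 ^ P.R + ε) := by
    rw [hb, mass_add, mass_add]
    have m1 : mass μ (fun u _ => ind (¬ NiceU u)) ≤ ε := by
      rw [mass_eq]; simpa using hN
    have m2 := mass_le_of_cond hμ.nonneg hμ.total NiceU (fun u ω => ¬ Gen (crv u) ω)
      (c := 2 ^ (4 * P.k + 2) * (1 / 2 ^ P.r + ε)) (by positivity)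
      fun u hu => gen_prob hP hε hW _ hu.1
    have m3 := mass_le_of_cond hμ.nonneg hμ.total NiceU
      (fun u ω => ¬ OC (prof (frm u) (key (crv u) ω))) (c := 8 * (1 / 2 ^ P.R + ε))
      (by positivity) fun u hu => oc_prob hP hε hW _ hu.2
    linarith
  have hq : c1 / 2 ≤ Qf μ w1 w1 := by linarith
  obtain ⟨π, π', hπ⟩ := Q_pigeon hμ.nonneg (w := w1)
    (fun π u ω => ind (GoodP π ∧ A1 π u ω ∧ Lt μ (key (crv u) ω))) (fun u ω => ind_nonneg _)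
    (fun π u ω => ind_nonneg _) (fun u ω => by
      refine le_trans (ind_mono fun h => ?_) (ind_exists_le _)
      exact ⟨_, ⟨h.2.2.2.1, sig_eq_of_W0 u ω h.2.1⟩, ⟨h.1, h.2.1, h.2.2.1, rfl⟩, h.2.2.2.2⟩) hq
  have hpos : 0 < c1 / 2 / (Fintype.card (Prof P) : ℝ) ^ 2 := by
    have : (0 : ℝ) < Fintype.card (Prof P) := by exact_mod_cast Fintype.card_pos
    positivity
  have g1 : GoodP π := by
    by_contra hg
    simp only [hg, false_and, ind_neg not_false, Q_zero_left] at hπ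
    linarith
  have g2 : GoodP π' := by
    by_contra hg
    rw [Qf_comm] at hπ
    simp only [hg, false_and, ind_neg not_false, Q_zero_left] at hπ
    linarith
  exact ⟨π, π', g1, g2, by simpa only [g1, g2, true_and] using hπ⟩

theorem stage_b {μ : Un P F → ℝ} (hμ : Adm μ) {ε : ℝ} (hB : BStepP μ ε) (π π' : Prof P)
    (s : Bool → Bool → ZMod 2) (w' : Un P F → Lab F → ℝ) (h0 : ∀ u ω, 0 ≤ w' u ω)
    (h1 : ∀ u ω, w' u ω ≤ ind (Lt μ (key (crv u) ω))) :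
    Qf μ (fun u ω => ind (A1 π u ω ∧ Lt μ (key (crv u) ω))) w' / 2 ^ (8 * P.r) - ε ≤
      Qf μ (fun u ω => ind (A2 π π' s u ω ∧ Lt μ (key (crv u) ω))) w' := by
  have := hB π π' s (fun κ => ind (Lt μ κ) * Nw μ w' (tp κ)) fun κ => by
    have a0 := Nw_nonneg hμ.nonneg h0 (tp κ)
    have a2 := Nw_le_two hμ.nonneg h1 (tp κ)
    have b0 := ind_nonneg (Lt μ κ)
    have b1 := ind_le_one (Lt μ κ)
    constructor <;> nlinarith
  simpa only [Qf_eq_mass, ind_and, mul_assoc] using this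

/-- the final event -/
def A3 (μ : Un P F → ℝ) (π π' : Prof P) (s : Bool → Bool → ZMod 2) (u : Un P F) (ω : Lab F) :
    Prop := (A2 π π' s u ω ∧ Lt μ (key (crv u) ω)) ∧ Typ (crv u) ω ∧ ¬ Dirty μ (crv u) ω

theorem a3_le (μ : Un P F → ℝ) (π π' : Prof P) (s : Bool → Bool → ZMod 2) (u : Un P F)
    (ω : Lab F) : ind (A2 π π' s u ω ∧ Lt μ (key (crv u) ω)) ≤ ind (A3 μ π π' s u ω) +
      (ind (NiceU u ∧ ¬ Typ (crv u) ω) + ind (Dirty μ (crv u) ω)) := by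
  have n1 := ind_nonneg (A3 μ π π' s u ω)
  have n2 := ind_nonneg (NiceU u ∧ ¬ Typ (crv u) ω)
  have n3 := ind_nonneg (Dirty μ (crv u) ω)
  have n5 := ind_le_one (A2 π π' s u ω ∧ Lt μ (key (crv u) ω))
  by_cases h0 : A2 π π' s u ω ∧ Lt μ (key (crv u) ω)
  swap
  · rw [ind_neg h0]; linarith
  by_cases h1 : Typ (crv u) ω
  swap
  · rw [ind_pos (p := NiceU u ∧ ¬ Typ (crv u) ω) ⟨h0.1.1, h1⟩]; linarith
  by_cases h2 : Dirty μ (crv u) ω
  · rw [ind_pos h2]; linarith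
  rw [ind_pos (p := A3 μ π π' s u ω) ⟨h0, h1, h2⟩]; linarith

theorem a3_spec (hP : P.Ok) {μ : Un P F → ℝ} {π π' : Prof P} (g' : GoodP π') (e : ZMod 2)
    {u : Un P F} {ω : Lab F} (h : A3 μ π π' (smat e (sig π false) (sig π' false)) u ω) :
    (flin (crv u) ω π' (smat e (sig π false) (sig π' false))).Spec
      (fl (flin (crv u) ω π' (smat e (sig π false) (sig π' false)))) :=
  flin_spec hP _ _ _ _ (flin_good u ω π π' e h.1.1.2.1 h.1.1.2.2.1 h.1.1.2.2.2.1 g'.1 g'.2)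

theorem AA_bounds (c : UC P F) (ω : Lab F) (pv : PV P F) (f : UF P F) :
    0 ≤ AA c ω pv f ∧ AA c ω pv f ≤ (Fintype.card F : ℝ) ^ P.L := by
  have a0 := rat_nonneg c (key c ω)
  have a1 := rat_le c (key c ω)
  have b0 := ind_nonneg (Agree c pv f)
  have b1 := ind_le_one (Agree c pv f)
  unfold AA
  constructor <;> nlinarith

theorem grad_a3 (hP : P.Ok) {μ : Un P F → ℝ} (hμ : Adm μ) {ε : ℝ} (hG : GradP μ ε)
    {π π' : Prof P} (g' : GoodP π') (e : ZMod 2) (s' : Bool → Bool → ZMod 2)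
    (B : Un P F → Lab F → UC P F → Lab F → ℝ)
    (hB : ∀ u ω c' ω', 0 ≤ B u ω c' ω' ∧ B u ω c' ω' ≤ (Fintype.card F : ℝ) ^ P.L) :
    |pairE μ fun u ω u' ω' => ind (A3 μ π π' (smat e (sig π false) (sig π' false)) u ω) *
      ind (A3 μ π' π s' u' ω') * B u ω (crv u') ω' *
        (AA (crv u) ω (pres (crv u) ω π' (smat e (sig π false) (sig π' false))) (frm u') - 1)| ≤
      ε := by
  refine hG _ _ (fun u ω => pres (crv u) ω π' (smat e (sig π false) (sig π' false))) B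
    (fun u ω => ⟨ind_nonneg _, ind_le_one _⟩) (fun u ω => ⟨ind_nonneg _, ind_le_one _⟩)
    (Nw_le_two hμ.nonneg fun u ω => ind_mono fun h => h.1.2)
    (spread_of_clean μ hμ.nonneg _ (fun u ω => ⟨ind_nonneg _, ind_le_one _⟩) fun u ω h =>
      ⟨(ind_ne_zero.1 h).1.2, (ind_ne_zero.1 h).2.2⟩) (fun u ω h => ?_)
    (fun u ω u' ω' h h' hk j s hh l => ?_) hB
  · have h := ind_ne_zero.1 h
    exact ⟨h.1.1.1.1, h.2.1, pres_consistent hP _ _ _ _ h.1.1.1.1 (a3_spec hP g' e h)⟩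
  · have h := ind_ne_zero.1 h
    have h' := ind_ne_zero.1 h'
    obtain ⟨i, j'⟩ := s
    rw [pres_key _ _ _ _ (a3_spec hP g' e h) h.1.1.2.2.2.2, ← h'.1.1.2.2.2.1, hk]
    rfl

theorem stage_grad (hP : P.Ok) {μ : Un P F → ℝ} (hμ : Adm μ) {ε : ℝ} (hG : GradP μ ε)
    {π π' : Prof P} (g : GoodP π) (g' : GoodP π') :
    Qf μ (fun u ω => ind (A3 μ π π' (smat 0 (sig π false) (sig π' false)) u ω))
      (fun u ω => ind (A3 μ π' π (smat 1 (sig π' false) (sig π false)) u ω)) - 2 * ε ≤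
      (Fintype.card F : ℝ) ^ (8 * P.n + 2 * P.L) * 𝔼 u, 𝔼 u', μ u * μ u' * ind (Conf u u') := by
  set s := smat 0 (sig π false) (sig π' false) with hs
  set s' := smat 1 (sig π' false) (sig π false) with hs'
  have hq1 : (1 : ℝ) ≤ (Fintype.card F : ℝ) ^ P.L :=
    one_le_pow₀ (by exact_mod_cast Fintype.card_pos)
  have e1 := grad_a3 hP hμ hG (π := π) g' 0 s'
    (fun u _ c' ω' => AA c' ω' (pres c' ω' π s') (frm u)) fun u ω c' ω' => AA_bounds _ _ _ _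
  have e2 := grad_a3 hP hμ hG (π := π') g 1 s (fun _ _ _ _ => 1) fun u ω c' ω' =>
    ⟨zero_le_one, hq1⟩
  rw [pairE_swap] at e2
  rw [← hs] at e1
  rw [← hs'] at e2
  have e3 : pairE μ (fun u ω u' ω' => ind (A3 μ π π' s u ω) * ind (A3 μ π' π s' u' ω') *
      AA (crv u') ω' (pres (crv u') ω' π s') (frm u) * AA (crv u) ω (pres (crv u) ω π' s) (frm u')) =
      pairE μ (fun u ω u' ω' => ind (A3 μ π π' s u ω) * ind (A3 μ π' π s' u' ω') *
        AA (crv u') ω' (pres (crv u') ω' π s') (frm u) *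
          (AA (crv u) ω (pres (crv u) ω π' s) (frm u') - 1)) +
      pairE μ (fun u ω u' ω' => ind (A3 μ π' π s' u' ω') * ind (A3 μ π π' s u ω) * 1 *
        (AA (crv u') ω' (pres (crv u') ω' π s') (frm u) - 1)) +
      pairE μ (fun u ω u' ω' => ind (A3 μ π π' s u ω) * ind (A3 μ π' π s' u' ω')) := by
    rw [← pairE_add, ← pairE_add]
    congr 1
    funext u ω u' ω'
    ring
  have e4 := pairE_le hμ.nonneg (fun u ω u' ω' => ind (A3 μ π π' s u ω) * ind (A3 μ π' π s' u' ω') *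
      AA (crv u') ω' (pres (crv u') ω' π s') (frm u) * AA (crv u) ω (pres (crv u) ω π' s) (frm u'))
    (fun u u' => ind (Conf u u') * (Fintype.card F : ℝ) ^ (2 * P.L))
    (fun u u' => mul_nonneg (ind_nonneg _) (by positivity)) fun u ω u' ω' hk => by
      have hnn : 0 ≤ ind (Conf u u') * (Fintype.card F : ℝ) ^ (2 * P.L) :=
        mul_nonneg (ind_nonneg _) (by positivity)
      by_cases h : A3 μ π π' s u ω
      swap
      · simpa [ind_neg h] using hnn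
      by_cases h' : A3 μ π' π s' u' ω'
      swap
      · simpa [ind_neg h'] using hnn
      by_cases ha : Agree (crv u) (pres (crv u) ω π' s) (frm u')
      swap
      · simpa [AA, ind_neg ha] using hnn
      by_cases ha' : Agree (crv u') (pres (crv u') ω' π s') (frm u)
      swap
      · simpa [AA, ind_neg ha'] using hnn
      have hc := conf_of_agree u u' ω ω' π π' _ _ hk (a3_spec hP g' 0 h) (a3_spec hP g 1 h') ha ha'
      rw [ind_pos h, ind_pos h', ind_pos hc, one_mul, one_mul, one_mul, two_mul, pow_add]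
      exact mul_le_mul (AA_bounds _ _ _ _).2 (AA_bounds _ _ _ _).2 (AA_bounds _ _ _ _).1
        (by positivity)
  rw [Qf_eq_pairE]
  simp only [← mul_assoc, ← Finset.expect_mul] at e4
  rw [card_Key] at e4
  push_cast at e4
  have e5 := abs_le.1 e1
  have e6 := abs_le.1 e2
  rw [pow_add]
  linarith [e5.1, e6.1]

theorem chain_core (hP : P.Ok) {μ : Un P F → ℝ} (hμ : Adm μ) {ε c1 : ℝ} (hε : 0 ≤ ε)
    (hc1 : 0 < c1) (hW : Weyl F (3 * P.K) ε)
    (hks : c1 ≤ Qf μ (fun u ω => ind (W0 u ω ∧ Lt μ (key (crv u) ω)))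
      (fun u ω => ind (W0 u ω ∧ Lt μ (key (crv u) ω))))
    (hN : 𝔼 u, μ u * ind (¬ NiceU u) ≤ ε)
    (hsmall : 4 * (ε + 2 ^ (4 * P.k + 2) * (1 / 2 ^ P.r + ε) + 8 * (1 / 2 ^ P.R + ε)) ≤ c1 / 2)
    (hB : BStepP μ ε) (hG : GradP μ ε)
    (hD : mass μ (fun u ω => ind (Dirty μ (crv u) ω)) ≤ ε)
    (hT : (4 + 8 * P.k) / (Fintype.card F : ℝ) ≤ ε) :
    c1 / 2 / (Fintype.card (Prof P) : ℝ) ^ 2 / 2 ^ (8 * P.r) / 2 ^ (8 * P.r) - 12 * ε ≤
      (Fintype.card F : ℝ) ^ (8 * P.n + 2 * P.L) * 𝔼 u, 𝔼 u', μ u * μ u' * ind (Conf u u') := by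
  obtain ⟨π, π', g, g', h1⟩ := stage_profile hP hμ hε hc1 hW hks hN hsmall
  set s := smat 0 (sig π false) (sig π' false) with hs
  set s' := smat 1 (sig π' false) (sig π false) with hs'
  have h2 := stage_b hμ hB π π' s (fun u ω => ind (A1 π' u ω ∧ Lt μ (key (crv u) ω)))
    (fun u ω => ind_nonneg _) (fun u ω => ind_mono fun h => h.2)
  have h3 := stage_b hμ hB π' π s' (fun u ω => ind (A2 π π' s u ω ∧ Lt μ (key (crv u) ω)))
    (fun u ω => ind_nonneg _) (fun u ω => ind_mono fun h => h.2)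
  rw [Qf_comm μ (fun u ω => ind (A1 π' u ω ∧ Lt μ (key (crv u) ω))),
    Qf_comm μ (fun u ω => ind (A2 π' π s' u ω ∧ Lt μ (key (crv u) ω)))] at h3
  have h4 := Q_drop2 (μ := μ) hμ.nonneg
    (w := fun u ω => ind (A2 π π' s u ω ∧ Lt μ (key (crv u) ω)))
    (w' := fun u ω => ind (A2 π' π s' u ω ∧ Lt μ (key (crv u) ω)))
    (w1 := fun u ω => ind (A3 μ π π' s u ω)) (w1' := fun u ω => ind (A3 μ π' π s' u ω))
    (b := fun u ω => ind (NiceU u ∧ ¬ Typ (crv u) ω) + ind (Dirty μ (crv u) ω))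
    (fun u ω => ind_nonneg _) (fun u ω => ind_mono fun h => h.2) (fun u ω => ind_nonneg _)
    (fun u ω => ind_mono fun h => h.1.2) (fun u ω => add_nonneg (ind_nonneg _) (ind_nonneg _))
    (a3_le μ π π' s) (a3_le μ π' π s')
  rw [mass_add] at h4
  have h5 := mass_le_of_cond hμ.nonneg hμ.total NiceU (fun u ω => ¬ Typ (crv u) ω) hε
    fun u hu => (typ_prob _ hu.1).trans hT
  have h6 := stage_grad hP hμ hG g g'
  rw [← hs, ← hs'] at h6
  have hp : (1 : ℝ) ≤ 2 ^ (8 * P.r) := one_le_pow₀ (by norm_num)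
  have hp0 : (0 : ℝ) < 2 ^ (8 * P.r) := by positivity
  have h7 := div_le_div_of_nonneg_right h1 hp0.le
  have h8 := div_le_div_of_nonneg_right (sub_le_iff_le_add.1 (le_trans (sub_le_sub_right h7 ε) h2))
    hp0.le
  rw [add_div] at h8
  have h9 : ε / 2 ^ (8 * P.r) ≤ ε := div_le_self hε hp
  linarith

end

theorem exists_par (k : ℕ) (hk : 184 ≤ k) (c1 : ℝ) (hc1 : 0 < c1) :
    ∃ P : Par, P.Ok ∧ P.k = k ∧
      4 * (2 ^ (4 * P.k + 2) * (1 / 2 ^ P.r) + 8 * (1 / 2 ^ P.R) : ℝ) ≤ c1 / 4 := by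
  obtain ⟨r0, hr0⟩ := pow_unbounded_of_one_lt ((2 ^ (4 * k + 2) + 8) * 16 / c1 : ℝ)
    (by norm_num : (1 : ℝ) < 2)
  set r := r0 + (2 * k ^ 2 + 14) with hr
  set t := 400000 * (r + k + 3 + 1) + (2 * k * (k + r * k) + 2) with ht
  have ht0 : 1 ≤ t := by omega
  refine ⟨⟨k, r, r + k + 3, t, 16 * t - 1, 800 * (r + k + 3 + 1) * (16 * t - 1 + 1)⟩,
    ⟨hk, by simp only; omega, rfl, by simp only; omega, by simp only; omega, by simp only; omega,
      rfl⟩, rfl, ?_⟩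
  simp only
  have a1 : (2 : ℝ) ^ r0 ≤ 2 ^ r := pow_le_pow_right₀ (by norm_num) (by omega)
  have a2 : (2 : ℝ) ^ r0 ≤ 2 ^ (r + k + 3) := pow_le_pow_right₀ (by norm_num) (by omega)
  have p0 : (0 : ℝ) < 2 ^ r0 := by positivity
  have b1 : (1 / 2 ^ r : ℝ) ≤ 1 / 2 ^ r0 := one_div_le_one_div_of_le p0 a1
  have b2 : (1 / 2 ^ (r + k + 3) : ℝ) ≤ 1 / 2 ^ r0 := one_div_le_one_div_of_le p0 a2
  have pk : (0 : ℝ) < 2 ^ (4 * k + 2) := by positivity
  have b3 : ((2 : ℝ) ^ (4 * k + 2) + 8) * (1 / 2 ^ r0) ≤ c1 / 16 := by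
    rw [div_lt_iff₀ hc1] at hr0
    rw [mul_one_div, div_le_div_iff₀ p0 (by norm_num)]
    linarith
  nlinarith [mul_le_mul_of_nonneg_left b1 pk.le]

theorem chain_aux (k : ℕ) (hk : 184 ≤ k) : ∃ P : Par, P.Ok ∧ ∃ c : ℝ, 0 < c ∧
    Ev P fun F _ _ _ _ μ => c / (Fintype.card F : ℝ) ^ (8 * P.n + 2 * P.L) ≤
      𝔼 u, 𝔼 u', μ u * μ u' * ind (Conf u u') := by
  obtain ⟨c1, hc1, hks⟩ := keystage k
  obtain ⟨P, hP, hPk, hr⟩ := exists_par k hk c1 hc1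
  set c3 := c1 / 2 / (Fintype.card (Prof P) : ℝ) ^ 2 / 2 ^ (8 * P.r) / 2 ^ (8 * P.r) with hc3
  have hc30 : 0 < c3 := by
    have : (0 : ℝ) < Fintype.card (Prof P) := by exact_mod_cast Fintype.card_pos
    positivity
  set ε := min (c1 / (16 * (9 + 2 ^ (4 * P.k + 2)))) (c3 / 24) with hε
  have hε0 : 0 < ε := lt_min (by positivity) (by positivity)
  have hε1 : ε * (16 * (9 + 2 ^ (4 * P.k + 2))) ≤ c1 := by
    rw [← le_div_iff₀ (by positivity)]; exact min_le_left _ _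
  have hε2 : ε ≤ c3 / 24 := min_le_right _ _
  refine ⟨P, hP, c3 / 2, by positivity, ?_⟩
  refine ((((((((hks P hP hPk).and (ev_weyl P ε hε0)).and (niceU_prob P hP ε hε0)).and
    (bstep P hP ε hε0)).and (grad P hP ε hε0)).and (dirty_mass P hP ε hε0)).and
    (ev_card P ((4 + 8 * P.k) / ε)))).mono ?_
  rintro F _ _ _ _ μ hμ ⟨⟨⟨⟨⟨⟨h1, h2⟩, h3⟩, h4⟩, h5⟩, h6⟩, h7⟩
  have hq : (0 : ℝ) < Fintype.card F := by exact_mod_cast Fintype.card_pos
  have h := chain_core hP hμ hε0.le hc1 h2 h1 h3 (by linarith) h4 h5 h6 (by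
    rw [div_le_iff₀ hε0] at h7
    rw [div_le_iff₀ hq]; linarith)
  rw [div_le_iff₀ (by positivity), mul_comm]
  linarith

theorem chain : ∃ P : Par, P.Ok ∧ ∃ c : ℝ, 0 < c ∧
    Ev P fun F _ _ _ _ μ => c / (Fintype.card F : ℝ) ^ (8 * P.n + 2 * P.L) ≤
      𝔼 u, 𝔼 u', μ u * μ u' * ind (Conf u u') := chain_aux 184 le_rfl

end Vale.Agent.P060
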