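import Mathlib

/-!
# P060: definitions for the counterexample to Hadwiger's conjecture

See `notes/P060/PROOF.md` for the whole proof.  Conventions: `F` is a finite field of
characteristic two (given as a `ZMod 2`-algebra), `q = card F`.  `Bool` indices: vertex `i` of a
unit, column `j`, half `h` (`true` is the plus half).  Probabilities are averages `𝔼 x, ind (p x)`.
-/

open Finset Polynomial
open scoped BigOperators

namespace Vale.Agent.P060

/-- Real indicator of a proposition. -/
noncomputable def ind (p : Prop) : ℝ := by classical exact if p then 1 else 0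

/-- The sign character of `ZMod 2`. -/
noncomputable def sgn (a : ZMod 2) : ℝ := if a = 0 then 1 else -1

/-- The bias of a two-valued function. -/
noncomputable def bias {X : Type} [Fintype X] (g : X → ZMod 2) : ℝ := 𝔼 x, sgn (g x)

/-- `Bool` as `ZMod 2`. -/
def bz (b : Bool) : ZMod 2 := if b then 1 else 0

/-- Constants of the construction. -/
structure Par where
  k : ℕ
  r : ℕ
  R : ℕ
  t : ℕ
  K : ℕ
  n : ℕ

/-- Side conditions on the constants (the field size tends to infinity after they are fixed). -/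
structure Par.Ok (P : Par) : Prop where
  hk : 184 ≤ P.k
  hr : 2 * P.k ^ 2 + 14 ≤ P.r
  hR : P.R = P.r + P.k + 3
  hK : P.K + 1 = 16 * P.t
  ht1 : 400000 * (P.R + 1) ≤ P.t
  ht2 : 2 * P.k * (P.k + P.r * P.k) + 2 ≤ P.t
  hn : P.n = 800 * (P.R + 1) * (P.K + 1)

/-- The odd exponent attached to `(l, a)`. -/
def Par.ex (P : Par) (l : Fin P.r) (a : Fin P.k) : ℕ := 2 * (P.k + l * P.k + a) + 1

/-- Exponent of the number of characters in the gradient step. -/
def Par.L (P : Par) : ℕ := 8 * (P.R + 1) * (3 * P.K + 1)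

section Types
variable (P : Par) (F : Type)

abbrev Pt := Fin P.n → F
abbrev Cur := Fin (P.K + 1) → Fin P.n → F
abbrev HV := Option (Fin P.n) → F
abbrev Ten := (Fin 3 → Option (Fin P.n)) → F
/-- the two curves (halves) of a vertex -/
abbrev Fr := Bool → Cur P F
/-- the forms of a vertex -/
abbrev Fo := Bool → Option (Fin P.R) → Ten P F
abbrev Vx := Fr P F × Fo P F
/-- a unit is an ordered pair of vertices -/
abbrev Un := Bool → Vx P F
abbrev UC := Bool → Fr P F
abbrev UF := Bool → Fo P F
/-- keys: slot `(i, j)` (vertex `i`, column `j`), half `h` -/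
abbrev Key := Bool × Bool → Bool → Pt P F
/-- values of the forms of vertex `a` at the key of slot `c`, half `h` -/
abbrev Prof := Bool → Bool × Bool → Bool → Option (Fin P.R) → ZMod 2

instance instFinPt [Fintype F] : Fintype (Pt P F) := Pi.instFintype
instance instFinCur [Fintype F] : Fintype (Cur P F) := Pi.instFintype
instance instFinHV [Fintype F] : Fintype (HV P F) := Pi.instFintype
instance instFinTen [Fintype F] : Fintype (Ten P F) := Pi.instFintype
instance instFinFr [Fintype F] : Fintype (Fr P F) := Pi.instFintype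
instance instFinFo [Fintype F] : Fintype (Fo P F) := Pi.instFintype
instance instFinVx [Fintype F] : Fintype (Vx P F) := instFintypeProd _ _
instance instFinUn [Fintype F] : Fintype (Un P F) := Pi.instFintype
instance instFinUC [Fintype F] : Fintype (UC P F) := Pi.instFintype
instance instFinUF [Fintype F] : Fintype (UF P F) := Pi.instFintype
instance instFinKey [Fintype F] : Fintype (Key P F) := Pi.instFintype
instance instFinProf : Fintype (Prof P) := Pi.instFintype

end Types

/-- labels: slot `(i, j)`, half `h` -/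
abbrev Lab (F : Type) := Bool × Bool → Bool → F

/-- transpose of slots -/
def tp {X : Type} (κ : Bool × Bool → X) : Bool × Bool → X := fun c => κ c.swap

/-- take slot `c` from the first argument and the other slots from the second -/
def mixS {X : Type} (c : Bool × Bool) (x y : Bool × Bool → X) : Bool × Bool → X :=
  fun s => if s = c then x s else y s

/-- take the plus halves from the first argument and the minus halves from the second -/
def mixH {X : Type} (x y : Bool × Bool → Bool → X) : Bool × Bool → Bool → X :=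
  fun s h => if h then x s h else y s h

/-- two pairs are in conflict when all four cross pairs are related -/
def ConfP {Ω : Type} (H : Ω → Ω → Prop) (u u' : Ω × Ω) : Prop :=
  H u.1 u'.1 ∧ H u.1 u'.2 ∧ H u.2 u'.1 ∧ H u.2 u'.2

/-- rank of the second difference of a two-variable function -/
noncomputable def rk {X : Type} (φ : X → X → ZMod 2) : ℕ :=
  Module.finrank (ZMod 2) (Submodule.span (ZMod 2) (Set.range fun y : X × X => fun x : X × X =>
    φ x.1 y.1 + φ x.2 y.1 + φ x.1 y.2 + φ x.2 y.2))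

/-- the bi-affine value of a pair of form vectors -/
def uval {R : ℕ} (v : Bool → Option (Fin R) → ZMod 2) : ZMod 2 :=
  ∑ l, v true (some l) * v false (some l) + v true none + v false none

/-- column sums required from the matrix of constants -/
def sig {P : Par} (π : Prof P) (j : Bool) : ZMod 2 :=
  uval (π false (true, j)) + uval (π true (false, j))

/-- own value differs from cross value -/
def OC {P : Par} (π : Prof P) : Prop :=
  ∀ a j h, ∃ l : Fin P.R, π a (false, j) h (some l) ≠ π a (true, j) h (some l)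

/-- the matrix of constants -/
def smat (e σ σ' : ZMod 2) (i j : Bool) : ZMod 2 := e + bz i * σ + bz j * σ'

section Field
variable {P : Par} {F : Type} [Field F] [Fintype F] [DecidableEq F] [Algebra (ZMod 2) F]

noncomputable def tr (x : F) : ZMod 2 := Algebra.trace (ZMod 2) F x

def pt (α : Cur P F) (x : F) : Pt P F := fun i => ∑ a, α a i * x ^ (a : ℕ)

def hom (ξ : Pt P F) : HV P F := fun o => o.elim 1 ξ

def tau (ξ : Pt P F) : Ten P F := fun ι => ∏ φ, hom ξ (ι φ)

noncomputable def ev (f ζ : Ten P F) : ZMod 2 := tr (∑ ι, f ι * ζ ι)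

def dl (x : F) : F → ZMod 2 := fun y => if y = x then 1 else 0

def eta (z : F → ZMod 2) : ZMod 2 := ∑ x, z x

def mom (z : F → ZMod 2) (a : ℕ) : F := ∑ x, z x • x ^ a

def U (α : Cur P F) (z : F → ZMod 2) : Ten P F := ∑ x, z x • tau (pt α x)

noncomputable def Bm (P : Par) (l : Fin P.r) (m m' : ℕ → F) : ZMod 2 :=
  tr (∑ a : Fin P.k, (m a * m' (P.ex l a) + m (P.ex l a) * m' a))

noncomputable def Bf (P : Par) (l : Fin P.r) (z z' : F → ZMod 2) : ZMod 2 :=
  Bm P l (mom z) (mom z')

noncomputable def TT (P : Par) (z w : Bool → F → ZMod 2) : ZMod 2 :=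
  ∑ l, Bf P l (w true) (z false) * Bf P l (z true) (w false)

/-- the value of the bi-affine form of `Y` at a pair of points -/
noncomputable def uf (Y : Vx P F) (ξ : Bool → Pt P F) : ZMod 2 :=
  uval fun h l => ev (Y.2 h l) (tau (ξ h))

/-- the pair of points of a vertex with labels `x` -/
def pts (A : Fr P F) (x : Bool → F) : Bool → Pt P F := fun h => pt (A h) (x h)

/-- The triangle-free graph (the complement of the counterexample). -/
def H (X Y : Vx P F) : Prop :=
  ∃ (z z' : Bool → F → ZMod 2) (s : ZMod 2), (∀ h, eta (z h) = 1) ∧ (∀ h, eta (z' h) = 1) ∧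
    (∀ h, U (X.1 h) (z h) = U (Y.1 h) (z' h)) ∧
    (∀ x : Bool → F, uf Y (pts X.1 x) = s + TT P z fun h => dl (x h)) ∧
    (∀ x : Bool → F, uf X (pts Y.1 x) = s + 1 + TT P z' fun h => dl (x h))

def Conf (u u' : Un P F) : Prop := ∀ i j, H (u i) (u' j)

/-- Admissible densities on units. -/
structure Adm (μ : Un P F → ℝ) : Prop where
  nonneg : ∀ u, 0 ≤ μ u
  le : ∀ u, μ u ≤ (Fintype.card F : ℝ) ^ (30 * P.n)
  total : 𝔼 u, μ u = 1
  marg : ∀ (i : Bool) (g : Vx P F → ℝ), (∀ v, 0 ≤ g v) →
    𝔼 u, μ u * g (u i) ≤ √(Fintype.card F : ℝ) * 𝔼 v, g v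
  supp : ∀ u, μ u ≠ 0 → ¬ H (u false) (u true)

def crv (u : Un P F) : UC P F := fun i => (u i).1
def frm (u : Un P F) : UF P F := fun i => (u i).2
/-- the two curves of a unit in half `h` -/
def cur (c : UC P F) (h : Bool) : Bool → Cur P F := fun i => c i h

def key (c : UC P F) (ω : Lab F) : Key P F := fun s => pts (c s.1) (ω s)

noncomputable def mass (μ : Un P F → ℝ) (w : Un P F → Lab F → ℝ) : ℝ :=
  𝔼 u, 𝔼 ω, μ u * w u ω

/-- density of the key under the weight `w` -/
noncomputable def Nw (μ : Un P F → ℝ) (w : Un P F → Lab F → ℝ) (κ : Key P F) : ℝ :=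
  (Fintype.card (Key P F) : ℝ) * mass μ fun u ω => w u ω * ind (key (crv u) ω = κ)

noncomputable def Qf (μ : Un P F → ℝ) (w w' : Un P F → Lab F → ℝ) : ℝ :=
  𝔼 κ, Nw μ w κ * Nw μ w' (tp κ)

/-- light keys -/
def Lt (μ : Un P F → ℝ) (κ : Key P F) : Prop := Nw μ (fun _ _ => 1) κ ≤ 2

/-! ### polynomials attached to curves -/

/-- homogeneous coefficient vectors of a curve -/
def hc (α : Cur P F) (a : Fin (P.K + 1)) : HV P F :=
  fun o => o.elim (if a = 0 then 1 else 0) (α a)

def dot (g v : HV P F) : F := ∑ o, g o * v o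

/-- the polynomial `x ↦ dot g (hom (pt α x))` -/
noncomputable def pl (α : Cur P F) (g : HV P F) : F[X] := ∑ a, C (dot g (hc α a)) * X ^ (a : ℕ)

/-- the coordinate polynomial `x ↦ hom (pt α x) o` -/
noncomputable def cp (α : Cur P F) (o : Option (Fin P.n)) : F[X] :=
  ∑ a, C (hc α a o) * X ^ (a : ℕ)

/-- the polynomial whose trace is `x ↦ ev f (tau (pt α x))` -/
noncomputable def fp (f : Ten P F) (α : Cur P F) : F[X] := ∑ ι, C (f ι) * ∏ φ, cp α (ι φ)

/-- product functional on tensors -/
def evT (g : Fin 3 → HV P F) (ζ : Ten P F) : F := ∑ ι, (∏ φ, g φ (ι φ)) * ζ ι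

def Wsp (α : Cur P F) : Submodule F (HV P F) := Submodule.span F (Set.range (hc α))

/-- span of the four homogeneous keys of half `h` -/
def Ksp (κ : Key P F) (h : Bool) : Submodule F (HV P F) :=
  Submodule.span F (Set.range fun s => hom (κ s h))

def Nice1 (α : Cur P F) : Prop := ∀ p : F[X], p.natDegree ≤ P.K → ∃ g, pl α g = p

def IsF0 (α : Bool → Cur P F) (i : Bool) (f : F[X]) : Prop :=
  f ≠ 0 ∧ f.natDegree < P.k ∧
    ∀ p : F[X], p.natDegree ≤ 2 → ∃ g, pl (α i) g = f * p ∧ pl (α !i) g = 0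

def NiceK (α : Bool → Cur P F) : Prop := ∀ i, Nice1 (α i) ∧ ∃ f, IsF0 α i f

noncomputable def f0 (α : Bool → Cur P F) (i : Bool) : F[X] := by
  classical exact if h : ∃ f, IsF0 α i f then h.choose else 1

def G4 (v : Vx P F) : Prop :=
  ∀ (h : Bool) (d : Fin P.R → ZMod 2), d ≠ 0 →
    (fp (∑ l, d l • v.2 h (some l)) (v.1 h)).coeff (3 * P.K) ≠ 0

def NiceU (u : Un P F) : Prop := (∀ h, NiceK (cur (crv u) h)) ∧ ∀ i, G4 (u i)

def Typ (c : UC P F) (ω : Lab F) : Prop :=
  ∀ i h, ω (i, false) h ≠ ω (i, true) h ∧ ∀ j, (f0 (cur c h) i).eval (ω (i, j) h) ≠ 0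

/-! ### kernel bases, cells, classes -/

structure KD (F : Type) where
  kd : ℕ
  Φ : Fin kd → Bool → F → ZMod 2

def KD.comb (D : KD F) (c : Fin D.kd → ZMod 2) (i : Bool) : F → ZMod 2 := ∑ s, c s • D.Φ s i

structure IsKB (α : Bool → Cur P F) (D : KD F) : Prop where
  le : D.kd ≤ P.k
  ker : ∀ s, U (α false) (D.Φ s false) = U (α true) (D.Φ s true)
  span : ∀ Z : Bool → F → ZMod 2, U (α false) (Z false) = U (α true) (Z true) →
    ∃ c, ∀ i a, a ≤ P.K → mom (Z i) a = mom (D.comb c i) a
  indep : ∀ c, c ≠ 0 → ∀ i, ∃ a < P.k, mom (D.comb c i) a ≠ 0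

noncomputable def kb (α : Bool → Cur P F) : KD F := by
  classical exact if h : ∃ D, IsKB α D then h.choose else ⟨0, fun s => s.elim0⟩

/-- size of the kernel basis in half `h` -/
noncomputable def kd (c : UC P F) (h : Bool) : ℕ := (kb (cur c h)).kd

noncomputable def ph (c : UC P F) (h : Bool) (s : Fin (kd c h)) (i : Bool) : F → ZMod 2 :=
  (kb (cur c h)).Φ s i

/-- cell of a label `y` of half `!h` against the kernel basis of half `h`, for vertex `i` -/
noncomputable def cl (c : UC P F) (i h : Bool) (y : F) (s : Fin (kd c h)) (l : Fin P.r) : ZMod 2 :=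
  Bf P l (ph c h s i) (dl y)

noncomputable def et (c : UC P F) (h : Bool) (s : Fin (kd c h)) : ZMod 2 := eta (ph c h s false)

abbrev JJ (c : UC P F) := Fin (kd c true) → Fin (kd c false) → ZMod 2

noncomputable def nu (c : UC P F) : JJ c := fun s t => et c true s * et c false t

noncomputable def Gm (c : UC P F) (i : Bool) (x : Bool → F) : JJ c :=
  fun s t => ∑ l, cl c i true (x false) s l * cl c i false (x true) t l

noncomputable def gam (u : Un P F) (i : Bool) (x : Bool → F) : ZMod 2 :=
  uf (u !i) (pts (u i).1 x)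

noncomputable def Jm (u : Un P F) (i : Bool) (x : Bool → F) : JJ (crv u) :=
  Gm (crv u) i x + gam u i x • nu (crv u)

/-- the event of the key stage -/
def W0 (u : Un P F) (ω : Lab F) : Prop :=
  (∀ j, Jm u false (ω (false, j)) = Jm u true (ω (true, j))) ∧
    gam u false (ω (false, false)) + gam u true (ω (true, false)) =
      gam u false (ω (false, true)) + gam u true (ω (true, true))

noncomputable def prof (f : UF P F) (κ : Key P F) : Prof P :=
  fun a s h l => ev (f a h l) (tau (κ s h))

/-- generic cells -/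
def Gen (c : UC P F) (ω : Lab F) : Prop :=
  ∀ (i : Bool) (co : Bool → (h : Bool) → Fin (kd c h) → ZMod 2) (e : ZMod 2),
    (∀ l, ∑ j, ∑ h, ∑ s, co j h s * cl c i h (ω (i, j) (!h)) s l + e = 0) → co = 0 ∧ e = 0

noncomputable def bb (P : Par) (ω : Lab F) (i j' j : Bool) (l : Fin P.r) : ZMod 2 :=
  Bf P l (dl (ω (i, j') true)) (dl (ω (i, j) false))

/-- closeness of classes and key parts to independence -/
def Close {N : ℕ} (part : (Bool → Pt P F) → Fin N) (δ : ℝ) (c : UC P F) : Prop :=
  ∀ (i : Bool) (g : JJ c) (a : Fin N),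
    |(𝔼 x, ind (Gm c i x = g ∧ part (pts (c i) x) = a)) -
      (𝔼 x, ind (Gm c i x = g)) * 𝔼 ξ, ind (part ξ = a)| ≤ δ

/-! ### heavy vectors -/

def Heavy (μ : Un P F → ℝ) (κ : Key P F) (i h : Bool) (b : HV P F) : Prop :=
  b ∉ Ksp κ h ∧
    1 / (Fintype.card F : ℝ) ^ (P.n / 2) ≤ Nw μ (fun u _ => ind (b ∈ Wsp ((u i).1 h))) κ

def Dirty (μ : Un P F → ℝ) (c : UC P F) (ω : Lab F) : Prop :=
  Lt μ (key c ω) ∧ ∃ i h b, Heavy μ (key c ω) i h b ∧ b ∈ Wsp (c i h)

def Spread (μ : Un P F → ℝ) (w : Un P F → Lab F → ℝ) : Prop :=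
  ∀ κ i h b, b ∉ Ksp κ h →
    Nw μ (fun u ω => w u ω * ind (b ∈ Wsp ((u i).1 h))) κ ≤ 1 / (Fintype.card F : ℝ) ^ (P.n / 2)

/-! ### prescribed values -/

/-- prescribed values: vertex `i` (curve), vertex `j` of the other unit (form), half, form, label -/
abbrev PV (P : Par) (F : Type) := Bool → Bool → Bool → Option (Fin P.R) → F → ZMod 2

def Agree (c : UC P F) (pv : PV P F) (f : UF P F) : Prop :=
  ∀ i j h l x, ev (f j h l) (tau (pt (c i h) x)) = pv i j h l x

/-- `ZMod 2`-span of the tensor points of the two curves of half `h` -/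
def Esp (c : UC P F) (h : Bool) : Submodule (ZMod 2) (Ten P F) :=
  Submodule.span (ZMod 2) (Set.range fun y : Bool × F => tau (pt (c y.1 h) y.2))

/-- `ZMod 2`-span of the four key tensors of half `h` -/
def E0sp (κ : Key P F) (h : Bool) : Submodule (ZMod 2) (Ten P F) :=
  Submodule.span (ZMod 2) (Set.range fun s => tau (κ s h))

/-- inverse of the conditional probability of agreement -/
noncomputable def rat (c : UC P F) (κ : Key P F) : ℝ :=
  ∏ h, ((Nat.card (Esp c h) : ℝ) / Nat.card (E0sp κ h)) ^ (2 * (P.R + 1))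

/-- normalised indicator of agreement -/
noncomputable def AA (c : UC P F) (ω : Lab F) (pv : PV P F) (f : UF P F) : ℝ :=
  rat c (key c ω) * ind (Agree c pv f)

/-- pairing of a family of forms with a family of tensors -/
noncomputable def pr (f ζ : UF P F) : ZMod 2 := ∑ j, ∑ h, ∑ l, ev (f j h l) (ζ j h l)

def InE (c : UC P F) (ζ : UF P F) : Prop := ∀ j h l, ζ j h l ∈ Esp c h

def InE0 (κ : Key P F) (ζ : UF P F) : Prop := ∀ j h l, ζ j h l ∈ E0sp κ h

/-- Fourier coefficients of the error term -/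
noncomputable def ecoef (c : UC P F) (κ : Key P F) (fs ζ : UF P F) : ℝ :=
  ind (InE c ζ ∧ ¬ InE0 κ ζ) * sgn (pr fs ζ) / Nat.card {ζ' : UF P F // InE0 κ ζ'}

/-- the tensor `ζ` lies in the tensor cube of `W` -/
def Sup (W : Submodule F (HV P F)) (ζ : Ten P F) : Prop :=
  ∀ (g : Fin 3 → HV P F) (φ : Fin 3), (∀ v ∈ W, dot (g φ) v = 0) → evT g ζ = 0

/-- the span of some curve of `y` meets the span of the curves of `T` outside the key span -/
def HitC (κ : Key P F) (y : Un P F × Lab F) (T : Finset (Un P F × Lab F)) : Prop :=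
  ∃ i h b, b ∈ Wsp ((y.1 i).1 h) ∧ b ∈ Ksp κ h ⊔ (⨆ y' ∈ T, ⨆ i', Wsp ((y'.1 i').1 h)) ∧
    b ∉ Ksp κ h

/-- keys look uniform and independent of labels (doubled labels) -/
def TP2 (μ : Un P F → ℝ) (ε : ℝ) : Prop :=
  ∀ f : Lab F → Lab F → Key P F → Key P F → ℝ, (∀ ω ω' κ κ', |f ω ω' κ κ'| ≤ 1) →
    |(𝔼 u, μ u * 𝔼 ω, 𝔼 ω', f ω ω' (key (crv u) ω) (key (crv u) ω')) -
      𝔼 ω, 𝔼 ω', 𝔼 κ, 𝔼 κ', f ω ω' κ κ'| ≤ ε

/-- Weyl-type property of trace polynomials of degree at most `d` -/
structure Weyl (F : Type) [Field F] [Fintype F] [Algebra (ZMod 2) F] (d : ℕ) (ε : ℝ) : Prop where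
  dich : ∀ p : F[X], p.natDegree ≤ d →
    (∃ c, ∀ x, tr (p.eval x) = c) ∨ |bias fun x => tr (p.eval x)| ≤ ε
  odd : ∀ p : F[X], p.natDegree ≤ d → ∀ e, Odd e → p.coeff e ≠ 0 →
    (∀ j, 1 ≤ j → p.coeff (e * 2 ^ j) = 0) → |bias fun x => tr (p.eval x)| ≤ ε

end Field

/-! ### the linear algebra over `ZMod 2` -/

structure FLin (r R : ℕ) (κ : Bool → ℕ) where
  cell : Bool → Bool → (h : Bool) → Fin (κ h) → Fin r → ZMod 2
  et : (h : Bool) → Fin (κ h) → ZMod 2
  V : Bool → Bool → Bool → Bool → Option (Fin R) → ZMod 2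
  s : Bool → Bool → ZMod 2

structure FLout (r R : ℕ) where
  b : Bool → Bool → Bool → Fin r → ZMod 2
  L : Bool → Bool → Bool → (Fin r → ZMod 2) →ₗ[ZMod 2] (Option (Fin R) → ZMod 2)
  c : Bool → Bool → Bool → Option (Fin R) → ZMod 2

structure FLin.Good {r R : ℕ} {κ : Bool → ℕ} (I : FLin r R κ) : Prop where
  gen : ∀ (i : Bool) (co : Bool → (h : Bool) → Fin (κ h) → ZMod 2) (e : ZMod 2),
    (∀ l, ∑ j, ∑ h, ∑ s, co j h s * I.cell i j h s l + e = 0) → co = 0 ∧ e = 0
  gram : ∀ j s t, ∑ l, I.cell false j true s l * I.cell false j false t l +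
      I.s false j * (I.et true s * I.et false t) =
    ∑ l, I.cell true j true s l * I.cell true j false t l +
      I.s true j * (I.et true s * I.et false t)
  oc : ∀ j i h, ∃ l : Fin R, I.V j i false h (some l) ≠ I.V j i true h (some l)
  row : ∀ i, I.s i false + I.s i true = uval (I.V false i true) + uval (I.V true i false)

structure FLin.Spec {r R : ℕ} {κ : Bool → ℕ} (I : FLin r R κ) (O : FLout r R) : Prop where
  form : ∀ i j (β β' : Fin r → ZMod 2),
    uval (fun h => O.L i j h (if h then β else β') + O.c i j h) = I.s i j + ∑ l, β l * β' l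
  keyT : ∀ i j j', O.L i j true (O.b i j' j) + O.c i j true = I.V j i j' true
  keyF : ∀ i j j', O.L i j false (O.b i j j') + O.c i j false = I.V j i j' false
  ker : ∀ j h s, O.L false j h (I.cell false j h s) + I.et h s • O.c false j h =
    O.L true j h (I.cell true j h s) + I.et h s • O.c true j h

noncomputable def fl {r R : ℕ} {κ : Bool → ℕ} (I : FLin r R κ) : FLout r R := by
  classical exact if h : ∃ O, I.Spec O then h.choose else ⟨0, 0, 0⟩

section Field2
variable {P : Par} {F : Type} [Field F] [Fintype F] [DecidableEq F] [Algebra (ZMod 2) F]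

/-- input of the linear algebra lemma for curves `c`, labels `ω`, against the profile `π'` -/
noncomputable def flin (c : UC P F) (ω : Lab F) (π' : Prof P) (s : Bool → Bool → ZMod 2) :
    FLin P.r P.R (kd c) where
  cell := fun i j h => cl c i h (ω (i, j) (!h))
  et := et c
  V := fun j i j' => π' j (j', i)
  s := s

/-- the prescribed values -/
noncomputable def pres (c : UC P F) (ω : Lab F) (π' : Prof P) (s : Bool → Bool → ZMod 2) :
    PV P F := fun i j h l x =>
  ((fl (flin c ω π' s)).L i j h (fun l' => Bf P l' (dl x) (dl (ω (i, j) (!h)))) +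
    (fl (flin c ω π' s)).c i j h) l

/-- the labels have the prescribed `b` vectors -/
def BOk (c : UC P F) (ω : Lab F) (π' : Prof P) (s : Bool → Bool → ZMod 2) : Prop :=
  bb P ω = (fl (flin c ω π' s)).b

end Field2

/-! ### abstract sampling structure -/

/-- Independence structure: `p b h x` is the point of `b` with half `h` and label `x`.  The points
at `J` distinct places are uniform and independent of the points at other places `J'`. -/
def Indep {B Λ Ξ : Type} [Fintype B] [Fintype Ξ] (D : ℕ) (p : B → Λ → Ξ) : Prop :=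
  ∀ (J J' : Type) [Fintype J] [DecidableEq J] [Fintype J'] (e : J → Λ) (e' : J' → Λ),
    Function.Injective e → (∀ j j', e j ≠ e' j') → Fintype.card J + Fintype.card J' ≤ D →
    ∀ G : (J → Ξ) → (J' → Ξ) → ℝ,
      𝔼 b, G (fun j => p b (e j)) (fun j => p b (e' j)) = 𝔼 b, 𝔼 v, G v (fun j => p b (e' j))

/-- the point of a vertex at (half, label) -/
def vp {P : Par} {F : Type} [Field F] (v : Vx P F) (y : Bool × F) : Pt P F := pt (v.1 y.1) y.2

/-- A mixing operation: `m x y` takes the first part from `x` and the second from `y`. -/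
structure IsMix {X : Type} (m : X → X → X) : Prop where
  same : ∀ x, m x x = x
  left : ∀ x y z, m (m x y) z = m x z
  right : ∀ x y z, m x (m y z) = m x z

noncomputable def Box {X : Type} [Fintype X] (m : X → X → X) (f : X → ℝ) : ℝ :=
  𝔼 x, 𝔼 y, f x * f y * f (m x y) * f (m y x)

/-- the two-unit average over matching keys -/
noncomputable def pairE {P : Par} {F : Type} [Field F] [Fintype F] [DecidableEq F]
    (μ : Un P F → ℝ) (Φ : Un P F → Lab F → Un P F → Lab F → ℝ) : ℝ :=
  (Fintype.card (Key P F) : ℝ) * 𝔼 u, 𝔼 ω, 𝔼 u', 𝔼 ω',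
    μ u * μ u' * ind (key (crv u) ω = tp (key (crv u') ω')) * Φ u ω u' ω'

/-- `p` holds for every large finite field of characteristic two and every admissible density -/
def Ev (P : Par) (p : ∀ (F : Type) [Field F] [Fintype F] [DecidableEq F] [Algebra (ZMod 2) F],
    (Un P F → ℝ) → Prop) : Prop :=
  ∃ q1 : ℕ, ∀ (F : Type) [Field F] [Fintype F] [DecidableEq F] [Algebra (ZMod 2) F],
    q1 ≤ Fintype.card F → ∀ μ : Un P F → ℝ, Adm μ → p F μ

end Vale.Agent.P060
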