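import Vale.Agent.P060.Basic

/-!
# Fourier inversion on F2 vector spaces, and trace polynomials of the forms Bf (task Equi)
equi, coll: write ind (v = 0) as the average over d of sgn (d · v) (expect_sgn_dot).
bf_poly: sum over l of Bf l (zs l) (dl x) is the trace of the polynomial
sum over l, a of C (mom (zs l) a) X^(ex l a) + C (mom (zs l) (ex l a)) X^a.
bf_bias: the coefficient at e = ex l a is mom (zs l) a (the ex are distinct, odd and exceed k > a),
and e 2^j for j ≥ 1 is even and exceeds k, so its coefficient vanishes; use Weyl.odd.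
-/

open Finset Polynomial
open scoped BigOperators

namespace Vale.Agent.P060

variable {P : Par} {F : Type} [Field F] [Fintype F] [DecidableEq F] [Algebra (ZMod 2) F]

theorem ind_eq_expect_sgn {ι : Type} [Fintype ι] [DecidableEq ι] (v w : ι → ZMod 2) :
    2 ^ Fintype.card ι * ind (v = w) =
      ∑ d : ι → ZMod 2, sgn (∑ l, d l * v l) * sgn (∑ l, d l * w l) := by
  have h := expect_sgn_dot (v + w)
  have e : v + w = 0 ↔ v = w := by
    simp only [funext_iff, Pi.add_apply, Pi.zero_apply]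
    exact forall_congr' fun l => by generalize v l = a; generalize w l = b; revert a b; decide
  rw [ind_congr e, Fintype.expect_eq_sum_div_card] at h
  rw [← h]
  simp only [Pi.add_apply, mul_add, Finset.sum_add_distrib, sgn_add, Fintype.card_fun, ZMod.card]
  push_cast
  field_simp

theorem equi {X ι : Type} [Fintype X] [Nonempty X] [Fintype ι] [DecidableEq ι]
    (g : X → ι → ZMod 2) (ε : ℝ) (hε : 0 ≤ ε)
    (h : ∀ d : ι → ZMod 2, d ≠ 0 → |bias fun x => ∑ l, d l * g x l| ≤ ε) (v : ι → ZMod 2) :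
    |(𝔼 x, ind (g x = v)) - 1 / 2 ^ Fintype.card ι| ≤ ε := by
  have h2 : (0 : ℝ) < 2 ^ Fintype.card ι := by positivity
  have e : 2 ^ Fintype.card ι * 𝔼 x, ind (g x = v) =
      ∑ d : ι → ZMod 2, (bias fun x => ∑ l, d l * g x l) * sgn (∑ l, d l * v l) := by
    simp only [Finset.mul_expect, ind_eq_expect_sgn, Finset.expect_sum_comm, bias,
      Finset.expect_mul]
  rw [← Finset.add_sum_erase _ _ (Finset.mem_univ 0)] at e
  simp only [Pi.zero_apply, zero_mul, Finset.sum_const_zero, bias_const, sgn_zero, mul_one] at e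
  have e2 : (𝔼 x, ind (g x = v)) - 1 / 2 ^ Fintype.card ι = (∑ d ∈ Finset.univ.erase (0 : ι → ZMod 2),
      (bias fun x => ∑ l, d l * g x l) * sgn (∑ l, d l * v l)) / 2 ^ Fintype.card ι := by
    field_simp
    linarith
  rw [e2, abs_div, abs_of_pos h2, div_le_iff₀ h2]
  refine (Finset.abs_sum_le_sum_abs _ _).trans ((Finset.sum_le_sum (g := fun _ => ε)
    fun d hd => ?_).trans ?_)
  · rw [abs_mul, abs_sgn, mul_one]
    exact h d (Finset.ne_of_mem_erase hd)
  · rw [Finset.sum_const, nsmul_eq_mul, mul_comm]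
    refine mul_le_mul_of_nonneg_left ?_ hε
    have := Finset.card_erase_le (s := (Finset.univ : Finset (ι → ZMod 2))) (a := 0)
    rw [Finset.card_univ, Fintype.card_fun, ZMod.card] at this
    exact_mod_cast this

theorem coll {X ι : Type} [Fintype X] [Fintype ι] [DecidableEq ι] (g g' : X → ι → ZMod 2) :
    2 ^ Fintype.card ι * (𝔼 x, 𝔼 y, ind (g x = g' y)) =
      ∑ d : ι → ZMod 2, (bias fun x => ∑ l, d l * g x l) * bias fun y => ∑ l, d l * g' y l := by
  simp only [bias, Finset.expect_mul_expect]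
  simp only [Finset.mul_expect, ind_eq_expect_sgn, Finset.expect_sum_comm]

/-- The polynomial attached to a family of forms. -/
noncomputable def bfP (P : Par) (zs : Fin P.r → F → ZMod 2) : F[X] :=
  ∑ l, ∑ a : Fin P.k, (C (mom (zs l) a) * X ^ P.ex l a + C (mom (zs l) (P.ex l a)) * X ^ (a : ℕ))

theorem bfP_eval (zs : Fin P.r → F → ZMod 2) (x : F) :
    ∑ l, Bf P l (zs l) (dl x) = tr ((bfP P zs).eval x) := by
  simp only [bfP, eval_finset_sum, tr_sum, Bf, Bm, mom_dl, eval_add, eval_mul, eval_C, eval_pow,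
    eval_X]

omit [DecidableEq F] in
theorem bfP_natDegree (hP : P.Ok) (zs : Fin P.r → F → ZMod 2) : (bfP P zs).natDegree ≤ P.K := by
  refine natDegree_sum_le_of_forall_le _ _ fun l _ => natDegree_sum_le_of_forall_le _ _
    fun a _ => (natDegree_add_le _ _).trans (max_le ?_ ?_)
  · exact (natDegree_C_mul_X_pow_le _ _).trans (hP.ex_le l a)
  · exact (natDegree_C_mul_X_pow_le _ _).trans
      (a.2.le.trans ((P.lt_ex l a).le.trans (hP.ex_le l a)))

omit [DecidableEq F] in
theorem bfP_coeff (zs : Fin P.r → F → ZMod 2) {e : ℕ} (he : P.k < e) :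
    (bfP P zs).coeff e = ∑ l, ∑ a : Fin P.k, if e = P.ex l a then mom (zs l) a else 0 := by
  simp only [bfP, finset_sum_coeff, coeff_add, coeff_C_mul_X_pow]
  refine Finset.sum_congr rfl fun l _ => Finset.sum_congr rfl fun a _ => ?_
  rw [if_neg (a.2.trans he).ne', add_zero]

theorem bf_poly (hP : P.Ok) (zs : Fin P.r → F → ZMod 2) :
    ∃ p : F[X], p.natDegree ≤ P.K ∧ ∀ x, ∑ l, Bf P l (zs l) (dl x) = tr (p.eval x) := by
  exact ⟨bfP P zs, bfP_natDegree hP zs, bfP_eval zs⟩

theorem bf_bias (hP : P.Ok) {ε : ℝ} (hW : Weyl F (3 * P.K) ε) (zs : Fin P.r → F → ZMod 2)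
    (h : ∃ l, ∃ a < P.k, mom (zs l) a ≠ 0) :
    |bias fun x => ∑ l, Bf P l (zs l) (dl x)| ≤ ε := by
  obtain ⟨l, a, ha, h⟩ := h
  simp only [bfP_eval]
  have hlt := P.lt_ex l ⟨a, ha⟩
  refine hW.odd _ ((bfP_natDegree hP zs).trans (by omega)) (P.ex l ⟨a, ha⟩) (P.ex_odd _ _) ?_
    fun j hj => ?_
  · rw [bfP_coeff zs hlt, Finset.sum_eq_single l (fun l' _ hl => Finset.sum_eq_zero fun a' _ =>
      if_neg fun e => hl (P.ex_inj e).1.symm) (by simp), Finset.sum_eq_single ⟨a, ha⟩
      (fun a' _ hl => if_neg fun e => hl (P.ex_inj e).2.symm) (by simp), if_pos rfl]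
    exact h
  · rw [bfP_coeff zs (hlt.trans_le (Nat.le_mul_of_pos_right _ (by positivity)))]
    refine Finset.sum_eq_zero fun l' _ => Finset.sum_eq_zero fun a' _ => if_neg fun e => ?_
    have h1 := P.ex_odd l' a'
    rw [← e, Nat.odd_mul, Nat.odd_pow_iff (by omega)] at h1
    exact absurd h1.2 (by decide)

end Vale.Agent.P060
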