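import Vale.Agent.P060.Moment
import Vale.Agent.P060.Indep

/-!
# Classes are nearly independent of key parts (task F1)
For fixed i the set {x | Gm c i x = g} depends on the other vertex only through a moment table:
let m : Bool → Fin k → (Fin k ⊕ Fin r × Fin k) → F list mom (ph c h s i) a and mom (ph c h s i) (ex l a)
(zero for s ≥ kd c h; kd_le) and pad g by zero to g' : Fin k → Fin k → ZMod 2; then the set equals
S m g' = {x | padded matrix built from m equals g'}.  So not Close implies that for some i, m, g', a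
the function f x ξ = ind (x ∈ S m g') * ind (part ξ = a) deviates by more than δ for the vertex u i.
Use conc (ι = Bool, hf = id, B = Vx, p = vp, moment t = P.t, 4 t ≤ K + 1), the union bound over
q^(2k(k + r k)) 2^(k^2) N choices, the marginal bound sqrt q and t ≥ 2k(k + r k) + 2.
-/

open Finset Polynomial
open scoped BigOperators

namespace Vale.Agent.P060

namespace F1Aux

variable {P : Par} {F : Type} [Field F] [Fintype F] [DecidableEq F] [Algebra (ZMod 2) F]

/-- moment tables -/
abbrev Tab (P : Par) (F : Type) := Bool → Fin P.k → (Fin P.k ⊕ Fin P.r × Fin P.k) → F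

/-- cell computed from a table -/
noncomputable def clT (T : Tab P F) (h : Bool) (s : Fin P.k) (y : F) (l : Fin P.r) : ZMod 2 :=
  tr (∑ a : Fin P.k, (T h s (Sum.inl a) * mom (dl y) (P.ex l a) +
    T h s (Sum.inr (l, a)) * mom (dl y) a))

/-- the set of labels cut out by a table and a matrix -/
def ST (T : Tab P F) (g : Fin P.k → Fin P.k → ZMod 2) (x : Bool → F) : Prop :=
  ∀ s t, ∑ l, clT T true s (x false) l * clT T false t (x true) l = g s t

omit [DecidableEq F] in
theorem Bf_zero (l : Fin P.r) (w : F → ZMod 2) : Bf P l 0 w = 0 := by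
  have := Bf_smul_left l 0 0 w
  simpa using this

theorem exists_tab (c : UC P F) (i : Bool) (g : JJ c) :
    ∃ (T : Tab P F) (g' : Fin P.k → Fin P.k → ZMod 2), ∀ x, Gm c i x = g ↔ ST T g' x := by
  let z : Bool → Fin P.k → F → ZMod 2 := fun h s =>
    if hs : (s : ℕ) < kd c h then ph c h ⟨s, hs⟩ i else 0
  refine ⟨fun h s => Sum.elim (fun a => mom (z h s) a) fun la => mom (z h s) (P.ex la.1 la.2),
    fun s t => if hs : (s : ℕ) < kd c true then
      if ht : (t : ℕ) < kd c false then g ⟨s, hs⟩ ⟨t, ht⟩ else 0 else 0, fun x => ?_⟩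
  change _ ↔ ∀ s t, ∑ l, Bf P l (z true s) (dl (x false)) * Bf P l (z false t) (dl (x true)) = _
  constructor
  · rintro rfl s t
    by_cases hs : (s : ℕ) < kd c true
    · by_cases ht : (t : ℕ) < kd c false
      · simp only [z, dif_pos hs, dif_pos ht]
        rfl
      · simp only [z, dif_pos hs, dif_neg ht, Bf_zero, mul_zero, Finset.sum_const_zero]
    · simp only [z, dif_neg hs, Bf_zero, zero_mul, Finset.sum_const_zero]
  · intro h
    funext s t
    have := h ⟨s, s.2.trans_le (kd_le c true)⟩ ⟨t, t.2.trans_le (kd_le c false)⟩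
    simp only [z, dif_pos s.2, dif_pos t.2] at this
    exact this

/-- the test function -/
noncomputable def tf {N : ℕ} (part : (Bool → Pt P F) → Fin N) (T : Tab P F)
    (g : Fin P.k → Fin P.k → ZMod 2) (a : Fin N) (x : Bool → F) (ξ : Bool → Pt P F) : ℝ :=
  ind (ST T g x) * ind (part ξ = a)

/-- the deviation event -/
def Dev {N : ℕ} (part : (Bool → Pt P F) → Fin N) (δ : ℝ) (T : Tab P F)
    (g : Fin P.k → Fin P.k → ZMod 2) (a : Fin N) (v : Vx P F) : Prop :=
  δ ≤ |𝔼 x, (tf part T g a x (fun c => vp v (id c, x c)) - 𝔼 ξ, tf part T g a x ξ)|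

theorem exists_dev {N : ℕ} (part : (Bool → Pt P F) → Fin N) (δ : ℝ) (u : Un P F)
    (h : ¬ Close part δ (crv u)) :
    ∃ j : Bool × Tab P F × (Fin P.k → Fin P.k → ZMod 2) × Fin N,
      Dev part δ j.2.1 j.2.2.1 j.2.2.2 (u j.1) := by
  simp only [Close, not_forall, not_le] at h
  obtain ⟨i, g, a, h⟩ := h
  obtain ⟨T, g', hT⟩ := exists_tab (crv u) i g
  refine ⟨(i, T, g', a), h.le.trans (le_of_eq ?_)⟩
  simp only [hT, tf, ind_and, Finset.expect_sub_distrib, ← Finset.mul_expect,
    ← Finset.expect_mul]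
  rfl

theorem dev_prob (hP : P.Ok) {N : ℕ} (part : (Bool → Pt P F) → Fin N) {δ : ℝ} (hδ : 0 < δ)
    (T : Tab P F) (g : Fin P.k → Fin P.k → ZMod 2) (a : Fin N) :
    𝔼 v, ind (Dev part δ T g a v) ≤
      2 * 16 ^ P.t * ((2 * P.t + 1) * 4 / Fintype.card F) ^ P.t / δ ^ (2 * P.t) := by
  have h := conc (P.K + 1) (vp : Vx P F → Bool × F → Pt P F) indep_vp id P.t
    (by rw [Fintype.card_bool, hP.hK]; omega) (tf part T g a) (fun x ξ => by
      rw [tf, ← ind_and]; exact abs_ind_le_one _) δ hδ
  rw [Fintype.card_bool] at h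
  norm_num only at h
  exact h

omit [Field F] [DecidableEq F] [Algebra (ZMod 2) F] in
theorem card_index (N : ℕ) :
    (Fintype.card (Bool × Tab P F × (Fin P.k → Fin P.k → ZMod 2) × Fin N) : ℝ) =
      2 * (2 ^ P.k) ^ P.k * N * (Fintype.card F : ℝ) ^ (2 * P.k * (P.k + P.r * P.k)) := by
  simp only [Fintype.card_prod, Fintype.card_fun, Fintype.card_bool, Fintype.card_fin,
    Fintype.card_sum, ZMod.card]
  push_cast
  ring

end F1Aux

open F1Aux in
theorem close_prob (P : Par) (hP : P.Ok) (N : ℕ) (δ ε : ℝ) (hδ : 0 < δ) (hε : 0 < ε) :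
    Ev P fun F _ _ _ _ μ => ∀ part : (Bool → Pt P F) → Fin N,
      𝔼 u, μ u * ind (¬ Close part δ (crv u)) ≤ ε := by
  set C : ℝ := 2 * (2 ^ P.k) ^ P.k * N *
    (2 * 16 ^ P.t * ((2 * P.t + 1) * 4) ^ P.t / δ ^ (2 * P.t)) with hC
  refine (ev_card P (C / ε)).mono fun F _ _ _ _ μ hμ hq part => ?_
  have hq1 : (1 : ℝ) ≤ Fintype.card F := by exact_mod_cast Fintype.card_pos
  set q : ℝ := (Fintype.card F : ℝ) with hqdef
  have hq0 : 0 < q := by linarith
  set M := 2 * P.k * (P.k + P.r * P.k) with hM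
  have hs : √q ≤ q := by
    rw [Real.sqrt_le_left hq0.le]
    nlinarith
  have hpow : q ^ M * q * q ≤ q ^ P.t := by
    rw [← pow_succ, ← pow_succ]
    exact pow_le_pow_right₀ hq1 hP.ht2
  calc 𝔼 u, μ u * ind (¬ Close part δ (crv u))
      ≤ 𝔼 u, ∑ j : Bool × Tab P F × (Fin P.k → Fin P.k → ZMod 2) × Fin N,
          μ u * ind (Dev part δ j.2.1 j.2.2.1 j.2.2.2 (u j.1)) := by
        refine expect_mono fun u => ?_
        rw [← Finset.mul_sum]
        exact mul_le_mul_of_nonneg_left
          ((ind_mono (exists_dev part δ u)).trans (ind_exists_le _)) (hμ.nonneg u)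
    _ ≤ ∑ _j : Bool × Tab P F × (Fin P.k → Fin P.k → ZMod 2) × Fin N,
          q * (2 * 16 ^ P.t * ((2 * P.t + 1) * 4 / q) ^ P.t / δ ^ (2 * P.t)) := by
        rw [Finset.expect_sum_comm]
        refine Finset.sum_le_sum fun j _ => ?_
        refine (hμ.marg j.1 (fun v => ind (Dev part δ j.2.1 j.2.2.1 j.2.2.2 v))
          fun v => ind_nonneg _).trans ?_
        exact mul_le_mul hs (dev_prob hP part hδ _ _ _) (expect_nonneg' fun v => ind_nonneg _)
          hq0.le
    _ = C * (q ^ M * q / q ^ P.t) := by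
        rw [Finset.sum_const, card_univ, nsmul_eq_mul, card_index, hC, div_pow, ← hqdef, ← hM]
        field_simp
    _ ≤ C * (1 / q) := by
        refine mul_le_mul_of_nonneg_left ?_ (by positivity)
        rw [div_le_div_iff₀ (by positivity) hq0, one_mul]
        exact hpow
    _ ≤ ε := by
        rw [mul_one_div, div_le_iff₀ hq0]
        rw [div_le_iff₀ hε] at hq
        linarith

end Vale.Agent.P060
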