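import Vale.Agent.P060.FL0

/-!
# The linear algebra lemma (task FL)
Notation as in FL0: pairing on E, o, hat V = (V, 1).  For each j choose Yp j s ∈ Option (Fin R) → ZMod 2
(s : Fin (κ true)) so that the (Yp j s, et true s) are independent modulo the span of o and the four
hat V j i j' true; then Ym j t with pairing against (Yp j s, et true s) equal to the common value S j s t of
Good.gram, independent modulo the span of o and the four hat V j i j' false (greedy, repeatedly).
For each i choose b i j' j ∈ Fin r → ZMod 2 in the order b11, b00, b10, b01 (indices j' j), each outside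
the span of the cells of row i, the all-ones vector and the previous b, with
b i j' j · cell i j false t = pairing (hat V j i j' true, Ym j t) + s i j et false t,
cell i j' true s · b i j' j = pairing (Yp j' s, hat V j' i j false) + s i j' et true s, and the products
b i j' j · b i j j'' = pairing (hat V j i j' true, hat V j i j'' false) + s i j for all j j' j''
(b · b = b · 1; the product b10 · b01 is prescribed twice, consistently by Good.row).
Apply ext_lemma for each (i, j) with A = Fin (κ true) ⊕ Bool, B = Fin (κ false) ⊕ Bool,
dp = (cell i j true s ; b i j' j), dm = (cell i j false t ; b i j j'), yp = (Yp j s ; V j i j' true),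
ym = (Ym j t ; V j i j' false); Good.oc gives hyp, hym.
-/

open Finset Polynomial
open scoped BigOperators

namespace Vale.Agent.P060

namespace FLAux

theorem greedy_dot {n : ℕ} {A : Type} [Fintype A] (v : A → Fin n → ZMod 2)
    (hv : LinearIndependent (ZMod 2) v) (val : A → ZMod 2)
    (W : Submodule (ZMod 2) (Fin n → ZMod 2))
    (hW : Module.finrank (ZMod 2) W + Fintype.card A < n) :
    ∃ b, (∀ a, v a ⬝ᵥ b = val a) ∧ b ∉ W :=
  greedy (fun a => dotProductEquiv (ZMod 2) (Fin n) (v a))
    (hv.map' (dotProductEquiv (ZMod 2) (Fin n)).toLinearMap (LinearEquiv.ker _)) val W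
    (by simpa using hW)

theorem step {n : ℕ} {A : Type} [Fintype A] (v : A → Fin n → ZMod 2)
    (hv : LinearIndependent (ZMod 2) v) (val : A → ZMod 2) (hA : 2 * Fintype.card A < n) :
    ∃ b, (∀ a, v a ⬝ᵥ b = val a) ∧
      LinearIndependent (ZMod 2) (fun o => Option.casesOn' o b v : Option A → Fin n → ZMod 2) := by
  obtain ⟨b, h1, h2⟩ := greedy_dot v hv val (Submodule.span _ (Set.range v)) (by
    have := finrank_range_le_card (R := ZMod 2) v
    unfold Set.finrank at this
    omega)
  exact ⟨b, h1, hv.option h2⟩

theorem many {n : ℕ} {A : Type} [Fintype A] (v : A → Fin n → ZMod 2)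
    (hv : LinearIndependent (ZMod 2) v) (m : ℕ) : ∀ (val : Fin m → A → ZMod 2)
    (W : Submodule (ZMod 2) (Fin n → ZMod 2)),
    Module.finrank (ZMod 2) W + m + Fintype.card A ≤ n →
    ∃ y : Fin m → Fin n → ZMod 2, (∀ c a, v a ⬝ᵥ y c = val c a) ∧
      ∀ co : Fin m → ZMod 2, ∑ c, co c • y c ∈ W → co = 0 := by
  induction m with
  | zero => exact fun _ _ _ => ⟨Fin.elim0, fun c => c.elim0, fun co _ => Subsingleton.elim _ _⟩
  | succ m ih =>
    intro val W hW
    obtain ⟨b, h1, h2⟩ := greedy_dot v hv (val 0) W (by omega)
    obtain ⟨y, h3, h4⟩ := ih (fun c => val c.succ) (W ⊔ Submodule.span _ {b}) (by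
      have e1 := Submodule.finrank_add_le_finrank_add_finrank W (Submodule.span (ZMod 2) {b})
      have e2 := finrank_span_le_card (R := ZMod 2) ({b} : Set (Fin n → ZMod 2))
      simp only [Set.toFinset_singleton, card_singleton] at e2
      omega)
    refine ⟨Fin.cons b y, fun c a => Fin.cases (h1 a) (fun c => h3 c a) c, fun co hco => ?_⟩
    rw [Fin.sum_univ_succ] at hco
    simp only [Fin.cons_zero, Fin.cons_succ] at hco
    have h5 : (fun c : Fin m => co c.succ) = 0 := by
      refine h4 _ ?_
      have := Submodule.sub_mem _ (Submodule.mem_sup_left (T := Submodule.span (ZMod 2) {b}) hco)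
        (Submodule.mem_sup_right (Submodule.smul_mem _ (co 0) (Submodule.mem_span_singleton_self b)))
      simpa using this
    have h6 : ∀ c : Fin m, co c.succ = 0 := fun c => congrFun h5 c
    simp only [h6, zero_smul, sum_const_zero, add_zero] at hco
    funext c
    refine Fin.cases ?_ h6 c
    rcases zmod2_cases (co 0) with h | h
    · exact h
    · rw [h, one_smul] at hco
      exact absurd hco h2

theorem row {r k : ℕ} {κ : Bool → ℕ} (hκ : ∀ h, κ h ≤ k) (hr : 8 * k + 10 ≤ r)
    (cell : Bool → (h : Bool) → Fin (κ h) → Fin r → ZMod 2)
    (gen : ∀ (co : Bool → (h : Bool) → Fin (κ h) → ZMod 2) (e : ZMod 2),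
      (∀ l, ∑ j, ∑ h, ∑ s, co j h s * cell j h s l + e = 0) → co = 0 ∧ e = 0)
    (α : Bool → Bool → (h : Bool) → Fin (κ h) → ZMod 2) (G : Bool → Bool → Bool → ZMod 2)
    (hG : G true false true = G false true false) :
    ∃ b : Bool → Bool → Fin r → ZMod 2, (∀ x y j h s, cell j h s ⬝ᵥ b x y = α x y h s) ∧
      (∀ j' j j'', b j' j ⬝ᵥ b j j'' = G j' j j'') ∧
      (∀ j, LinearIndependent (ZMod 2) (Sum.elim (cell j true) fun j' => b j' j)) ∧
      (∀ j, LinearIndependent (ZMod 2) (Sum.elim (cell j false) fun j' => b j j')) := by
  let A := Option (Bool × Σ h : Bool, Fin (κ h))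
  let v : A → Fin r → ZMod 2 := fun o => o.elim (fun _ => 1) fun p => cell p.1 p.2.1 p.2.2
  have hA : Fintype.card A ≤ 4 * k + 1 := by
    have := hκ true
    have := hκ false
    simp only [A, Fintype.card_option, Fintype.card_prod, Fintype.card_bool, Fintype.card_sigma,
      Fintype.card_fin, Fintype.sum_bool]
    omega
  have hv : LinearIndependent (ZMod 2) v := by
    rw [Fintype.linearIndependent_iff]
    intro g hg
    obtain ⟨h1, h2⟩ := gen (fun j h s => g (some (j, ⟨h, s⟩))) (g none) (fun l => by
      have := congrFun hg l
      simp only [A, Fintype.sum_option, Fintype.sum_prod_type, Fintype.sum_sigma, v, Option.elim,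
        Finset.sum_apply, Pi.smul_apply, smul_eq_mul, mul_one, Pi.zero_apply] at this
      rw [add_comm]
      exact this)
    rintro (_ | ⟨j, h, s⟩)
    · exact h2
    · exact congrFun (congrFun (congrFun h1 j) h) s
  let val : Bool → Bool → A → ZMod 2 := fun x y o => o.elim (G x x x) fun p => α x y p.2.1 p.2.2
  obtain ⟨b11, p11, i1⟩ := step v hv (val true true) (by omega)
  obtain ⟨b00, p00, i2⟩ := step _ i1 (fun o => o.elim 0 (val false false))
    (by simp only [Fintype.card_option]; omega)
  obtain ⟨b10, p10, i3⟩ := step _ i2
    (fun o => o.elim (G true false false) fun o => o.elim (G true true false) (val true false))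
    (by simp only [Fintype.card_option]; omega)
  obtain ⟨b01, p01, i4⟩ := step _ i3
    (fun o => o.elim (G false true false) fun o => o.elim (G false false true) fun o =>
      o.elim (G false true true) (val false true))
    (by simp only [Fintype.card_option]; omega)
  have sq : ∀ b : Fin r → ZMod 2, b ⬝ᵥ b = (fun _ => 1) ⬝ᵥ b := fun b => by
    simp only [dotProduct, zmod2_mul_self, one_mul]
  let ix : Bool → Bool → Option (Option (Option (Option A))) := fun x y =>
    if x then if y then some (some (some none)) else some none
    else if y then none else some (some none)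
  let ic : A → Option (Option (Option (Option A))) := fun a => some (some (some (some a)))
  refine ⟨fun x y => if x then if y then b11 else b10 else if y then b01 else b00, ?_, ?_, ?_, ?_⟩
  · rintro (_ | _) (_ | _) j h s
    · exact p00 (some (some (j, ⟨h, s⟩)))
    · exact p01 (some (some (some (some (j, ⟨h, s⟩)))))
    · exact p10 (some (some (some (j, ⟨h, s⟩))))
    · exact p11 (some (j, ⟨h, s⟩))
  · rintro (_ | _) (_ | _) (_ | _)
    · exact (sq _).trans (p00 (some none))
    · exact p01 (some none)
    · exact (dotProduct_comm _ _).trans (p01 none)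
    · exact (dotProduct_comm _ _).trans (p01 (some (some none)))
    · exact (dotProduct_comm _ _).trans (p10 none)
    · exact (p01 none).trans hG.symm
    · exact p10 (some none)
    · exact (sq _).trans (p11 none)
  · intro j
    have := i4.comp (Sum.elim (fun s => ic (some (j, ⟨true, s⟩))) fun j' => ix j' j) (by
      rintro (s | j') (s' | j'') h
      · simpa [ic, A] using h
      · cases j <;> cases j'' <;> simp [ic, ix] at h
      · cases j <;> cases j' <;> simp [ic, ix] at h
      · cases j <;> cases j' <;> cases j'' <;> simp [ix] at h ⊢)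
    convert this using 1
    funext a
    rcases a with s | j'
    · rfl
    · cases j <;> cases j' <;> rfl
  · intro j
    have := i4.comp (Sum.elim (fun s => ic (some (j, ⟨false, s⟩))) fun j' => ix j j') (by
      rintro (s | j') (s' | j'') h
      · simpa [ic, A] using h
      · cases j <;> cases j'' <;> simp [ic, ix] at h
      · cases j <;> cases j' <;> simp [ic, ix] at h
      · cases j <;> cases j' <;> cases j'' <;> simp [ix] at h ⊢)
    convert this using 1
    funext a
    rcases a with s | j'
    · rfl
    · cases j <;> cases j' <;> rfl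

/-- extension by zero at `none` -/
def ex {R : ℕ} (y : Fin R → ZMod 2) : Option (Fin R) → ZMod 2 := fun o => o.elim 0 y

theorem hy {R m : ℕ} (Y : Fin m → Fin R → ZMod 2) (e : Fin m → ZMod 2)
    (V : Bool → Option (Fin R) → ZMod 2) (W : Submodule (ZMod 2) (Fin R → ZMod 2))
    (hW : ∀ j', (fun l => V j' (some l)) ∈ W)
    (hY : ∀ co : Fin m → ZMod 2, ∑ c, co c • Y c ∈ W → co = 0)
    (hoc : ∃ l : Fin R, V false (some l) ≠ V true (some l)) (co : Fin m ⊕ Bool → ZMod 2)
    (h1 : ∀ l, ∑ a, co a * Sum.elim (fun s => ex (Y s)) V a (some l) = 0)
    (h2 : ∑ a, co a * Sum.elim e (fun _ => 1) a = 0) : co = 0 := by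
  simp only [Fintype.sum_sum_type, Sum.elim_inl, Sum.elim_inr, Fintype.sum_bool, ex, Option.elim,
    mul_one] at h1 h2
  have h3 : (fun c => co (Sum.inl c)) = 0 := by
    refine hY _ ?_
    have : ∑ c, co (Sum.inl c) • Y c = -(co (Sum.inr true) • (fun l => V true (some l)) +
        co (Sum.inr false) • fun l => V false (some l)) := by
      funext l
      simp only [Finset.sum_apply, Pi.smul_apply, smul_eq_mul, Pi.neg_apply, Pi.add_apply]
      exact eq_neg_of_add_eq_zero_left (h1 l)
    rw [this]
    exact W.neg_mem (W.add_mem (W.smul_mem _ (hW _)) (W.smul_mem _ (hW _)))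
  have h4 : ∀ c, co (Sum.inl c) = 0 := fun c => congrFun h3 c
  simp only [h4, zero_mul, sum_const_zero, zero_add] at h1 h2
  obtain ⟨l, hl⟩ := hoc
  have h5 := h1 l
  have h6 : co (Sum.inr true) = 0 ∧ co (Sum.inr false) = 0 := by
    revert h2 h5 hl
    generalize co (Sum.inr true) = a
    generalize co (Sum.inr false) = b
    generalize V true (some l) = c
    generalize V false (some l) = d
    revert a b c d
    decide
  funext a
  rcases a with c | _ | _
  · exact h4 c
  · exact h6.2
  · exact h6.1

end FLAux

open FLAux in
theorem exists_spec {r R k : ℕ} {κ : Bool → ℕ} (I : FLin r R κ) (hκ : ∀ h, κ h ≤ k)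
    (hr : 8 * k + 10 ≤ r) (hR : r + k + 3 ≤ R) (hI : I.Good) : ∃ O, I.Spec O := by
  let W : Bool → Bool → Submodule (ZMod 2) (Fin R → ZMod 2) := fun j h =>
    Submodule.span _ (Set.range fun p : Bool × Bool => fun l => I.V j p.1 p.2 h (some l))
  have hW : ∀ j h, Module.finrank (ZMod 2) (W j h) ≤ 4 := fun j h =>
    finrank_range_le_card (R := ZMod 2) fun p : Bool × Bool => fun l => I.V j p.1 p.2 h (some l)
  have hWm : ∀ j h i j', (fun l => I.V j i j' h (some l)) ∈ W j h := fun j h i j' =>
    Submodule.subset_span ⟨(i, j'), rfl⟩
  have kt := hκ true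
  have kf := hκ false
  have hYp := fun j => many (n := R) (A := Empty) Empty.elim linearIndependent_empty_type (κ true)
    (fun _ => Empty.elim) (W j true) (by
      have := hW j true
      simp only [Fintype.card_eq_zero]
      omega)
  choose Yp _ hYp using hYp
  have hYpi : ∀ j, LinearIndependent (ZMod 2) (Yp j) := fun j => by
    rw [Fintype.linearIndependent_iff]
    intro g hg
    exact congrFun (hYp j g (hg ▸ Submodule.zero_mem _))
  have hYm := fun j => many (Yp j) (hYpi j) (κ false)
    (fun t s => ∑ l, I.cell false j true s l * I.cell false j false t l +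
      I.s false j * (I.et true s * I.et false t)) (W j false) (by
      have := hW j false
      simp only [Fintype.card_fin]
      omega)
  choose Ym hS hYm using hYm
  have hb := fun i => row hκ hr (I.cell i) (hI.gen i)
    (fun x y h => match h with
      | true => fun s => ∑ l, Yp x s l * I.V x i y false (some l) +
          I.et true s * I.V x i y false none + I.s i x * I.et true s
      | false => fun t => ∑ l, I.V y i x true (some l) * Ym y t l +
          I.V y i x true none * I.et false t + I.s i y * I.et false t)
    (fun j' j j'' => ∑ l, I.V j i j' true (some l) * I.V j i j'' false (some l) +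
      I.V j i j' true none + I.V j i j'' false none + I.s i j) (by
      have := hI.row i
      simp only [uval] at this
      revert this
      generalize ∑ l, I.V false i true true (some l) * I.V false i true false (some l) +
        I.V false i true true none + I.V false i true false none = a
      generalize ∑ l, I.V true i false true (some l) * I.V true i false false (some l) +
        I.V true i false true none + I.V true i false false none = b
      generalize I.s i false = c
      generalize I.s i true = d
      revert a b c d
      decide)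
  choose b hb1 hb2 hb3 hb4 using hb
  have two : ∀ a c : ZMod 2, a = a + c + c := by decide
  have hext := fun i j => ext_lemma (R := R) (I.s i j)
    (Sum.elim (I.cell i j true) fun j' => b i j' j) (Sum.elim (I.et true) fun _ => 1)
    (Sum.elim (I.cell i j false) fun j' => b i j j') (Sum.elim (I.et false) fun _ => 1)
    (Sum.elim (fun s => ex (Yp j s)) fun j' => I.V j i j' true)
    (Sum.elim (fun t => ex (Ym j t)) fun j' => I.V j i j' false) (hb3 i j) (hb4 i j)
    (hy _ _ _ _ (hWm j true i) (hYp j) (hI.oc j i true))
    (hy _ _ _ _ (hWm j false i) (hYm j) (hI.oc j i false)) (by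
      rintro (s | j') (t | j'') <;>
        simp only [Sum.elim_inl, Sum.elim_inr, ex, Option.elim, zero_mul, mul_zero, add_zero,
          mul_one, one_mul]
      · refine (hS j t s).trans ?_
        cases i
        · rfl
        · exact hI.gram j s t
      · have := hb1 i j j'' j true s
        simp only [dotProduct] at this
        rw [this]
        exact two _ _
      · have := (dotProduct_comm _ _).trans (hb1 i j' j j false t)
        simp only [dotProduct] at this
        rw [this]
        exact two _ _
      · have := hb2 i j' j j''
        simp only [dotProduct] at this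
        rw [this]
        exact two _ _) (by
      simp only [Fintype.card_sum, Fintype.card_fin, Fintype.card_bool]
      omega)
  choose L c h1 h2 h3 using hext
  refine ⟨⟨b, L, c⟩, h1, fun i j j' => ?_, fun i j j' => ?_, fun j h s => ?_⟩
  · simpa using h2 i j (Sum.inr j')
  · simpa using h3 i j (Sum.inr j')
  · cases h
    · exact (h3 false j (Sum.inl s)).trans (h3 true j (Sum.inl s)).symm
    · exact (h2 false j (Sum.inl s)).trans (h2 true j (Sum.inl s)).symm

theorem fl_spec {r R k : ℕ} {κ : Bool → ℕ} (I : FLin r R κ) (hκ : ∀ h, κ h ≤ k)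
    (hr : 8 * k + 10 ≤ r) (hR : r + k + 3 ≤ R) (hI : I.Good) : I.Spec (fl I) := by
  have := exists_spec I hκ hr hR hI
  simp only [fl, dif_pos this]
  exact this.choose_spec

end Vale.Agent.P060
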