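import Vale.Agent.P060.Basic

/-!
# Linear algebra over ZMod 2: greedy choice and extension (task FL0)
greedy: the solution set is a coset of a subspace of dimension finrank V - |A| > finrank W.
ext: homogenise.  D = (Fin r → ZMod 2) × ZMod 2, E = (Option (Fin R) → ZMod 2) × ZMod 2 with the perfect
pairing ((v, η), (v', η')) ↦ sum_l v (some l) v' (some l) + v none η' + η v' none, o = (single none 1, 0),
and the form ((β, η), (β', η')) ↦ β · β' + s η η' on D.  Complete (dp, ep) to a basis of D one vector at a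
time, choosing the image with prescribed pairings against the (ym b, em b) and o and outside the span
of o and the previous images (greedy; dimension ≤ r + 1, |B| + 1 conditions, R + 2 - |B| - 1 > r + 1).
Then the images of the basis together with o are independent, so complete (dm, em) to a basis of D and
choose images with prescribed pairings.  The two linear maps preserve η and the forms; read off
L and c from (β, η) ↦ (L β + η • c, η).
-/

open Finset Polynomial
open scoped BigOperators

namespace Vale.Agent.P060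

namespace FL0

variable {K : Type} [Field K] {D E : Type} [AddCommGroup D] [Module K D] [AddCommGroup E]
  [Module K E]

theorem greedyK [Module.Finite K E] {A : Type} [Fintype A] (φ : A → E →ₗ[K] K)
    (hφ : LinearIndependent K φ) (val : A → K) (W : Submodule K E)
    (hW : Module.finrank K W + Fintype.card A < Module.finrank K E) :
    ∃ b, (∀ a, φ a b = val a) ∧ b ∉ W := by
  classical
  have hsurj : LinearMap.range (LinearMap.pi φ) = ⊤ := by
    by_contra h
    obtain ⟨f, hf, hle⟩ := Submodule.exists_le_ker_of_lt_top _ (lt_top_iff_ne_top.2 h)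
    have h1 : ∑ a, f (Pi.single a 1) • φ a = 0 := by
      ext v
      have h2 : f (LinearMap.pi φ v) = 0 := hle ⟨v, rfl⟩
      rw [LinearMap.pi_apply_eq_sum_univ] at h2
      simp only [LinearMap.coe_sum, Finset.sum_apply, LinearMap.smul_apply, smul_eq_mul,
        LinearMap.zero_apply]
      rw [← h2]
      refine Finset.sum_congr rfl fun a _ => ?_
      rw [mul_comm, LinearMap.pi_apply, smul_eq_mul]
      congr 2
      ext j
      simp [Pi.single_apply, eq_comm]
    have h3 := Fintype.linearIndependent_iff.1 hφ _ h1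
    apply hf
    apply LinearMap.pi_ext'
    intro a
    ext
    simpa using h3 a
  have hk := LinearMap.finrank_range_add_finrank_ker (LinearMap.pi φ)
  rw [hsurj, finrank_top, Module.finrank_fintype_fun_eq_card] at hk
  have hnot : ¬ LinearMap.ker (LinearMap.pi φ) ≤ W := fun h => by
    have := Submodule.finrank_mono h
    omega
  obtain ⟨k, hk1, hk2⟩ := SetLike.not_le_iff_exists.1 hnot
  obtain ⟨b, hb⟩ := LinearMap.range_eq_top.1 hsurj val
  by_cases hbW : b ∈ W
  · refine ⟨b + k, fun a => ?_, fun h => hk2 ((W.add_mem_iff_right hbW).1 h)⟩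
    have h1 := congrFun hb a
    have h2 := congrFun (LinearMap.mem_ker.1 hk1) a
    simp only [LinearMap.pi_apply, Pi.zero_apply] at h1 h2
    rw [map_add, h1, h2, add_zero]
  · exact ⟨b, fun a => congrFun hb a, hbW⟩

theorem exists_map {A : Type} (d : A → D) (hd : LinearIndependent K d) (y : A → E) :
    ∃ T : D →ₗ[K] E, ∀ a, T (d a) = y a := by
  obtain ⟨g, hg⟩ := LinearMap.exists_extend ((Finsupp.linearCombination K y) ∘ₗ hd.repr)
  refine ⟨g, fun a => ?_⟩
  have h1 := LinearMap.congr_fun hg ⟨d a, Submodule.subset_span ⟨a, rfl⟩⟩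
  simp only [LinearMap.comp_apply, Submodule.subtype_apply] at h1
  rw [h1, hd.repr_eq_single a _ rfl]
  simp

theorem extend [Module.Finite K D] [Module.Finite K E] {ι : Type} [Fintype ι] (o : E)
    (Φ : ι → E →ₗ[K] K) (hΦ : LinearIndependent K Φ) (Ψ : ι → D →ₗ[K] K)
    (hdim : Module.finrank K D + Fintype.card ι < Module.finrank K E) (n : ℕ) :
    ∀ (U : Submodule K D) (T : D →ₗ[K] E), Module.finrank K D ≤ Module.finrank K U + n →
      (∀ u ∈ U, ∀ i, Φ i (T u) = Ψ i u) → (∀ u ∈ U, T u ∈ (K ∙ o) → u = 0) →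
      ∃ T' : D →ₗ[K] E, (∀ u ∈ U, T' u = T u) ∧ (∀ u i, Φ i (T' u) = Ψ i u) ∧
        ∀ u, T' u ∈ (K ∙ o) → u = 0 := by
  induction n with
  | zero =>
    intro U T hU h1 h2
    have : U = ⊤ := Submodule.eq_top_of_finrank_eq (le_antisymm (Submodule.finrank_le U) hU)
    subst this
    exact ⟨T, fun _ _ => rfl, fun u => h1 u trivial, fun u => h2 u trivial⟩
  | succ n ih =>
    intro U T hU h1 h2
    by_cases hT : U = ⊤
    · subst hT
      exact ⟨T, fun _ _ => rfl, fun u => h1 u trivial, fun u => h2 u trivial⟩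
    obtain ⟨x, -, hx⟩ := SetLike.exists_of_lt (lt_top_iff_ne_top.2 hT)
    have hlt : Module.finrank K U < Module.finrank K D := Submodule.finrank_lt hT
    have hW : Module.finrank K ↥(U.map T ⊔ (K ∙ o)) ≤ Module.finrank K U + 1 := by
      refine (Submodule.finrank_add_le_finrank_add_finrank _ _).trans
        (add_le_add (Submodule.finrank_map_le _ _) ?_)
      simpa using finrank_span_le_card (R := K) ({o} : Set E)
    obtain ⟨e, he1, he2⟩ := greedyK Φ hΦ (fun i => Ψ i x) (U.map T ⊔ (K ∙ o)) (by omega)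
    obtain ⟨T1, hT1, hT1x⟩ := LinearMap.exists_extend_of_notMem (T.domRestrict U) hx e
    have hT1U : ∀ u ∈ U, T1 u = T u := fun u hu => LinearMap.congr_fun hT1 ⟨u, hu⟩
    have hlt2 : Module.finrank K U < Module.finrank K ↥(U ⊔ (K ∙ x)) :=
      Submodule.finrank_lt_finrank_of_lt (lt_of_le_of_ne le_sup_left fun h => hx (by
        rw [h]; exact Submodule.mem_sup_right (Submodule.mem_span_singleton_self x)))
    obtain ⟨T', h3, h4, h5⟩ := ih (U ⊔ (K ∙ x)) T1 (by omega) (fun u hu i => by
      obtain ⟨y, hy, z, hz, rfl⟩ := Submodule.mem_sup.1 hu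
      obtain ⟨c, rfl⟩ := Submodule.mem_span_singleton.1 hz
      simp [hT1U y hy, hT1x, h1 y hy, he1]) (fun u hu hu' => by
      obtain ⟨y, hy, z, hz, rfl⟩ := Submodule.mem_sup.1 hu
      obtain ⟨c, rfl⟩ := Submodule.mem_span_singleton.1 hz
      rw [map_add, map_smul, hT1U y hy, hT1x] at hu'
      by_cases hc : c = 0
      · subst hc
        rw [zero_smul, add_zero] at hu' ⊢
        exact h2 y hy hu'
      · exfalso
        apply he2
        have h6 : c • e ∈ U.map T ⊔ (K ∙ o) := by
          have h7 : T y ∈ U.map T ⊔ (K ∙ o) := Submodule.mem_sup_left ⟨y, hy, rfl⟩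
          exact (Submodule.add_mem_iff_right _ h7).1 (Submodule.mem_sup_right hu')
        exact (Submodule.smul_mem_iff _ hc).1 h6)
    exact ⟨T', fun u hu => by rw [h3 u (Submodule.mem_sup_left hu), hT1U u hu], h4, h5⟩

theorem ext_abs [Module.Finite K D] [Module.Finite K E] {A B : Type} [Fintype A] [Fintype B]
    (BE : E →ₗ[K] E →ₗ[K] K) (hBE : ∀ e, (∀ e', BE e' e = 0) → e = 0) (o : E)
    (BD : D →ₗ[K] D →ₗ[K] K) (η : D →ₗ[K] K)
    (dp : A → D) (dm : B → D) (yp : A → E) (ym : B → E)
    (hdp : LinearIndependent K dp) (hdm : LinearIndependent K dm)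
    (hyp : ∀ co : A → K, ∑ a, co a • yp a ∈ (K ∙ o) → co = 0)
    (hym : LinearIndependent K (fun i : Option B => i.elim o ym))
    (gram : ∀ a b, BE (yp a) (ym b) = BD (dp a) (dm b))
    (hp : ∀ a, BE (yp a) o = η (dp a)) (hm : ∀ b, BE o (ym b) = η (dm b))
    (hdim : Module.finrank K D + (Fintype.card B + 1) < Module.finrank K E) :
    ∃ Tp Tm : D →ₗ[K] E, (∀ x y, BE (Tp x) (Tm y) = BD x y) ∧ (∀ x, BE (Tp x) o = η x) ∧
      (∀ y, BE o (Tm y) = η y) ∧ (∀ a, Tp (dp a) = yp a) ∧ ∀ b, Tm (dm b) = ym b := by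
  have hinj : Function.Injective BE.flip := by
    rw [injective_iff_map_eq_zero]
    exact fun e he => hBE e fun e' => LinearMap.congr_fun he e'
  have hsurj : Function.Surjective BE.flip :=
    (LinearMap.injective_iff_surjective_of_finrank_eq_finrank
      (Subspace.dual_finrank_eq (K := K) (V := E)).symm).1 hinj
  obtain ⟨T0, hT0⟩ := exists_map dp hdp yp
  obtain ⟨Tp, h1, h2, h3⟩ := extend o (fun i : Option B => BE.flip (i.elim o ym))
    (hym.map' BE.flip (LinearMap.ker_eq_bot.2 hinj))
    (fun i : Option B => i.elim η (fun b => BD.flip (dm b))) (by simpa using hdim)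
    (Module.finrank K D) (Submodule.span K (Set.range dp)) T0 (by omega)
    (fun u hu i => by
      obtain ⟨co, rfl⟩ := (Submodule.mem_span_range_iff_exists_fun K).1 hu
      rcases i with _ | b <;> simp [hT0, gram, hp])
    (fun u hu hu' => by
      obtain ⟨co, rfl⟩ := (Submodule.mem_span_range_iff_exists_fun K).1 hu
      simp only [map_sum, map_smul, hT0] at hu'
      simp [hyp co hu'])
  have ho : o ≠ 0 := hym.ne_zero none
  let J : D × K →ₗ[K] E := Tp.coprod (LinearMap.toSpanSingleton K E o)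
  have hJ : Function.Injective J := by
    rw [injective_iff_map_eq_zero]
    rintro ⟨x, c⟩ h
    simp only [J, LinearMap.coprod_apply, LinearMap.toSpanSingleton_apply] at h
    have hx : x = 0 := h3 x (Submodule.mem_span_singleton.2 ⟨-c, by
      rw [neg_smul]; exact (eq_neg_of_add_eq_zero_left h).symm⟩)
    subst hx
    rw [map_zero, zero_add, smul_eq_zero] at h
    rw [h.resolve_right ho]; rfl
  let Θ : E →ₗ[K] Module.Dual K (D × K) := J.dualMap ∘ₗ BE.flip
  have hΘ : Function.Surjective Θ := (LinearMap.dualMap_surjective_of_injective hJ).comp hsurj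
  obtain ⟨σ, hσ⟩ := Θ.exists_rightInverse_of_surjective (LinearMap.range_eq_top.2 hΘ)
  let Ξ : D →ₗ[K] Module.Dual K (D × K) :=
    (BD.coprod (LinearMap.toSpanSingleton K (D →ₗ[K] K) η)).flip
  have hker : ∀ b, ym b - σ (Ξ (dm b)) ∈ LinearMap.ker Θ := by
    intro b
    have h4 : Θ (σ (Ξ (dm b))) = Ξ (dm b) := LinearMap.congr_fun hσ _
    rw [LinearMap.mem_ker, map_sub, h4, sub_eq_zero]
    refine LinearMap.ext fun z => ?_
    have h5 := h2 z.1 (some b)
    simp only [Option.elim, LinearMap.flip_apply] at h5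
    simp [Θ, Ξ, J, h5, hm]
  obtain ⟨N, hN⟩ := exists_map dm hdm (fun b => (⟨_, hker b⟩ : LinearMap.ker Θ))
  let Tm : D →ₗ[K] E := σ ∘ₗ Ξ + (LinearMap.ker Θ).subtype ∘ₗ N
  have hTm : ∀ y, Θ (Tm y) = Ξ y := by
    intro y
    have h4 : Θ (σ (Ξ y)) = Ξ y := LinearMap.congr_fun hσ _
    have h5 : Θ (N y) = 0 := (N y).2
    simp only [Tm, LinearMap.add_apply, LinearMap.comp_apply, map_add, Submodule.subtype_apply,
      h4, h5, add_zero]
  refine ⟨Tp, Tm, fun x y => ?_, fun x => h2 x none, fun y => ?_, fun a => ?_, fun b => ?_⟩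
  · simpa [Θ, Ξ, J] using LinearMap.congr_fun (hTm y) (x, 0)
  · simpa [Θ, Ξ, J] using LinearMap.congr_fun (hTm y) (0, 1)
  · rw [h1 _ (Submodule.subset_span ⟨a, rfl⟩), hT0]
  · simp [Tm, hN]

end FL0

theorem greedy {V A : Type} [AddCommGroup V] [Module (ZMod 2) V] [Module.Finite (ZMod 2) V]
    [Fintype A] (φ : A → V →ₗ[ZMod 2] ZMod 2) (hφ : LinearIndependent (ZMod 2) φ)
    (val : A → ZMod 2) (W : Submodule (ZMod 2) V)
    (hW : Module.finrank (ZMod 2) W + Fintype.card A < Module.finrank (ZMod 2) V) :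
    ∃ b, (∀ a, φ a b = val a) ∧ b ∉ W :=
  FL0.greedyK φ hφ val W hW

theorem ext_lemma {r R : ℕ} {A B : Type} [Fintype A] [Fintype B] (s : ZMod 2)
    (dp : A → Fin r → ZMod 2) (ep : A → ZMod 2) (dm : B → Fin r → ZMod 2) (em : B → ZMod 2)
    (yp : A → Option (Fin R) → ZMod 2) (ym : B → Option (Fin R) → ZMod 2)
    (hdp : LinearIndependent (ZMod 2) dp) (hdm : LinearIndependent (ZMod 2) dm)
    (hyp : ∀ co : A → ZMod 2, (∀ l, ∑ a, co a * yp a (some l) = 0) → ∑ a, co a * ep a = 0 → co = 0)
    (hym : ∀ co : B → ZMod 2, (∀ l, ∑ b, co b * ym b (some l) = 0) → ∑ b, co b * em b = 0 → co = 0)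
    (gram : ∀ a b, ∑ l, yp a (some l) * ym b (some l) + yp a none * em b + ep a * ym b none =
      ∑ l, dp a l * dm b l + s * (ep a * em b))
    (hR : r + Fintype.card B + 1 ≤ R) :
    ∃ (L : Bool → (Fin r → ZMod 2) →ₗ[ZMod 2] (Option (Fin R) → ZMod 2))
      (c : Bool → Option (Fin R) → ZMod 2),
      (∀ β β' : Fin r → ZMod 2,
        uval (fun h => L h (if h then β else β') + c h) = s + ∑ l, β l * β' l) ∧
      (∀ a, L true (dp a) + ep a • c true = yp a) ∧
      ∀ b, L false (dm b) + em b • c false = ym b := by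
  classical
  let BE : ((Option (Fin R) → ZMod 2) × ZMod 2) →ₗ[ZMod 2]
      ((Option (Fin R) → ZMod 2) × ZMod 2) →ₗ[ZMod 2] ZMod 2 :=
    LinearMap.mk₂ (ZMod 2)
      (fun x y => ∑ l, x.1 (some l) * y.1 (some l) + x.1 none * y.2 + x.2 * y.1 none)
      (fun x x' y => by simp [add_mul, Finset.sum_add_distrib]; ring)
      (fun c x y => by simp [Finset.mul_sum, mul_add, mul_assoc])
      (fun x y y' => by simp [mul_add, Finset.sum_add_distrib]; ring)
      (fun c x y => by simp [Finset.mul_sum, mul_add, mul_left_comm])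
  have hBE : ∀ x y, BE x y =
      ∑ l, x.1 (some l) * y.1 (some l) + x.1 none * y.2 + x.2 * y.1 none := fun _ _ => rfl
  let BD : ((Fin r → ZMod 2) × ZMod 2) →ₗ[ZMod 2] ((Fin r → ZMod 2) × ZMod 2) →ₗ[ZMod 2] ZMod 2 :=
    LinearMap.mk₂ (ZMod 2) (fun x y => ∑ l, x.1 l * y.1 l + s * (x.2 * y.2))
      (fun x x' y => by simp [add_mul, mul_add, Finset.sum_add_distrib]; ring)
      (fun c x y => by simp [Finset.mul_sum, mul_add, mul_assoc, mul_left_comm])
      (fun x y y' => by simp [mul_add, Finset.sum_add_distrib]; ring)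
      (fun c x y => by simp [Finset.mul_sum, mul_add, mul_left_comm])
  have hBD : ∀ x y, BD x y = ∑ l, x.1 l * y.1 l + s * (x.2 * y.2) := fun _ _ => rfl
  let o : (Option (Fin R) → ZMod 2) × ZMod 2 := (Pi.single none 1, 0)
  have ho1 : ∀ x, BE x o = x.2 := fun x => by simp [hBE, o]
  have ho2 : ∀ x, BE o x = x.2 := fun x => by simp [hBE, o]
  obtain ⟨Tp, Tm, h1, h2, h3, h4, h5⟩ := FL0.ext_abs BE (fun e he => by
      refine Prod.ext (funext fun l => ?_) ?_
      · rcases l with _ | l
        · simpa [hBE] using he (0, 1)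
        · simpa [hBE, Pi.single_apply] using he (Pi.single (some l) 1, 0)
      · rw [← ho2]; exact he o) o BD (LinearMap.snd _ _ _)
    (fun a => (dp a, ep a)) (fun b => (dm b, em b)) (fun a => (yp a, ep a)) (fun b => (ym b, em b))
    (LinearIndependent.of_comp (LinearMap.fst _ _ _) hdp)
    (LinearIndependent.of_comp (LinearMap.fst _ _ _) hdm)
    (fun co hco => by
      obtain ⟨c, hc⟩ := Submodule.mem_span_singleton.1 hco
      refine hyp co (fun l => ?_) ?_
      · have := congrArg (fun z => z.1 (some l)) hc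
        simpa [o, Prod.fst_sum] using this.symm
      · have := congrArg (fun z => z.2) hc
        simpa [o, Prod.snd_sum] using this.symm)
    (Fintype.linearIndependent_iff.2 fun co hco => by
      rw [Fintype.sum_option] at hco
      have h0 : (fun b => co (some b)) = 0 := by
        refine hym _ (fun l => ?_) ?_
        · have := congrArg (fun z => z.1 (some l)) hco
          simpa [o, Prod.fst_sum] using this
        · have := congrArg (fun z => z.2) hco
          simpa [o, Prod.snd_sum] using this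
      have h0' : ∀ b, co (some b) = 0 := fun b => congrFun h0 b
      intro i
      rcases i with _ | b
      · have := congrArg (fun z => z.1 none) hco
        simpa [o, h0'] using this
      · exact h0' b)
    (fun a b => by rw [hBE, hBD]; exact gram a b) (fun a => ho1 _) (fun b => ho2 _)
    (by simp [Module.finrank_prod]; omega)
  have h2' : ∀ x, (Tp x).2 = x.2 := fun x => by rw [← ho1]; exact h2 x
  have h3' : ∀ x, (Tm x).2 = x.2 := fun x => by rw [← ho2]; exact h3 x
  have hsplit : ∀ (T : ((Fin r → ZMod 2) × ZMod 2) →ₗ[ZMod 2] ((Option (Fin R) → ZMod 2) × ZMod 2))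
      (β : Fin r → ZMod 2) (η : ZMod 2), (T (β, 0)).1 + η • (T (0, 1)).1 = (T (β, η)).1 := by
    intro T β η
    have : (β, η) = (β, 0) + η • ((0 : Fin r → ZMod 2), (1 : ZMod 2)) := by simp
    rw [this, map_add, map_smul]
    rfl
  refine ⟨fun h => LinearMap.fst _ _ _ ∘ₗ (if h then Tp else Tm) ∘ₗ LinearMap.inl _ _ _,
    fun h => ((if h then Tp else Tm) (0, 1)).1, fun β β' => ?_, fun a => ?_, fun b => ?_⟩
  · have e1 := hsplit Tp β 1
    have e2 := hsplit Tm β' 1
    rw [one_smul] at e1 e2
    have e3 := h1 (β, 1) (β', 1)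
    rw [hBE, hBD, h2', h3'] at e3
    simp only [uval, if_true, Bool.false_eq_true, if_false, LinearMap.comp_apply,
      LinearMap.inl_apply, LinearMap.fst_apply, e1, e2]
    simp only [mul_one, one_mul] at e3
    rw [e3, add_comm]
  · simp only [if_true, LinearMap.comp_apply, LinearMap.inl_apply, LinearMap.fst_apply, hsplit, h4]
  · simp only [Bool.false_eq_true, if_false, LinearMap.comp_apply, LinearMap.inl_apply,
      LinearMap.fst_apply, hsplit, h5]

end Vale.Agent.P060
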