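import Vale.Agent.P060.Basic

/-!
# Auxiliary lemmas for the assembly: densities attached to a set of pairs, numerics
-/

open Finset
open scoped BigOperators

namespace Vale.Agent.P060.FinalAux

/-- the normalised indicator of a set of pairs -/
noncomputable def dens {Ω : Type} [Fintype Ω] (C : Finset (Ω × Ω)) (u : Bool → Ω) : ℝ :=
  ind ((u false, u true) ∈ C) * ((Fintype.card Ω : ℝ) ^ 2 / C.card)

theorem expect_dens {Ω : Type} [Fintype Ω] [DecidableEq Ω] [Nonempty Ω] (C : Finset (Ω × Ω))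
    (g : Ω × Ω → ℝ) :
    𝔼 u : Bool → Ω, dens C u * g (u false, u true) = (∑ u ∈ C, g u) / C.card := by
  have hΩ : (0 : ℝ) < Fintype.card Ω := by exact_mod_cast Fintype.card_pos
  have h1 := expect_bool_fun (X := Ω)
    (fun a b => ind ((a, b) ∈ C) * ((Fintype.card Ω : ℝ) ^ 2 / C.card) * g (a, b))
  unfold dens
  rw [h1, ← expect_prod' (fun z : Ω × Ω =>
    ind (z ∈ C) * ((Fintype.card Ω : ℝ) ^ 2 / C.card) * g z), Fintype.expect_eq_sum_div_card,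
    Fintype.card_prod]
  have h2 : ∑ z : Ω × Ω, ind (z ∈ C) * ((Fintype.card Ω : ℝ) ^ 2 / C.card) * g z =
      ((Fintype.card Ω : ℝ) ^ 2 / C.card) * ∑ u ∈ C, g u := by
    rw [Finset.mul_sum, ← Finset.sum_subset (Finset.subset_univ C)]
    · exact Finset.sum_congr rfl fun z hz => by rw [ind_pos hz, one_mul]
    · intro z _ hz
      rw [ind_neg hz, zero_mul, zero_mul]
  rw [h2]
  push_cast
  field_simp

theorem marg_le {Ω : Type} [Fintype Ω] [DecidableEq Ω] [Nonempty Ω] (C : Finset (Ω × Ω))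
    (hC : 0 < C.card) (π : Ω × Ω → Ω) (Km : ℝ)
    (h : ∀ a, ((C.filter fun u => π u = a).card : ℝ) * Fintype.card Ω ≤ Km * C.card)
    (g : Ω → ℝ) (hg : ∀ v, 0 ≤ g v) : (∑ u ∈ C, g (π u)) / C.card ≤ Km * 𝔼 v, g v := by
  have hΩ : (0 : ℝ) < Fintype.card Ω := by exact_mod_cast Fintype.card_pos
  have hC' : (0 : ℝ) < C.card := by exact_mod_cast hC
  have h1 : ∑ u ∈ C, g (π u) = ∑ a, ((C.filter fun u => π u = a).card : ℝ) * g a := by
    rw [← Finset.sum_fiberwise_of_maps_to (s := C) (t := univ) (g := π) (fun _ _ => mem_univ _)]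
    refine Finset.sum_congr rfl fun a _ => ?_
    rw [Finset.sum_congr rfl (g := fun _ => g a) fun u hu => by rw [(Finset.mem_filter.1 hu).2],
      Finset.sum_const, nsmul_eq_mul]
  rw [h1, Fintype.expect_eq_sum_div_card, div_le_iff₀ hC', ← mul_div_assoc, div_mul_eq_mul_div,
    le_div_iff₀ hΩ, Finset.sum_mul, Finset.mul_sum, Finset.sum_mul]
  refine Finset.sum_le_sum fun a _ => ?_
  have := mul_le_mul_of_nonneg_right (h a) (hg a)
  nlinarith

theorem mem_of_dens {Ω : Type} [Fintype Ω] (C : Finset (Ω × Ω)) (u : Bool → Ω)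
    (hu : dens C u ≠ 0) : (u false, u true) ∈ C := ind_ne_zero.1 (left_ne_zero_of_mul hu)

theorem double_dens {Ω : Type} [Fintype Ω] [DecidableEq Ω] [Nonempty Ω] (C : Finset (Ω × Ω))
    (H : Ω → Ω → Prop) :
    𝔼 u : Bool → Ω, 𝔼 u' : Bool → Ω, dens C u * dens C u' * ind (∀ i j, H (u i) (u' j)) =
      (∑ u ∈ C, ∑ u' ∈ C, ind (ConfP H u u')) / (C.card : ℝ) ^ 2 := by
  have h6 : ∀ u u' : Bool → Ω, ind (∀ i j, H (u i) (u' j)) =
      ind (ConfP H (u false, u true) (u' false, u' true)) := fun u u' =>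
    ind_congr ⟨fun h => ⟨h _ _, h _ _, h _ _, h _ _⟩, fun h i j => by
      cases i <;> cases j
      exacts [h.1, h.2.1, h.2.2.1, h.2.2.2]⟩
  have h7 : ∀ u : Bool → Ω, 𝔼 u' : Bool → Ω, dens C u * dens C u' * ind (∀ i j, H (u i) (u' j)) =
      dens C u * ((∑ u' ∈ C, ind (ConfP H (u false, u true) u')) / C.card) := fun u => by
    rw [← expect_dens C fun z => ind (ConfP H (u false, u true) z), Finset.mul_expect]
    exact Finset.expect_congr rfl fun u' _ => by rw [h6, mul_assoc]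
  simp only [h7]
  rw [expect_dens C fun z => (∑ u' ∈ C, ind (ConfP H z u')) / C.card, ← Finset.sum_div, div_div, sq]

variable {P : Par} {F : Type} [Field F] [Fintype F] [DecidableEq F] [Algebra (ZMod 2) F]

theorem supersat [DecidableEq (Vx P F)] (c : ℝ)
    (hch : ∀ μ : Un P F → ℝ, Adm μ → c ≤ 𝔼 u, 𝔼 u', μ u * μ u' * ind (Conf u u'))
    (C : Finset (Vx P F × Vx P F)) (h1 : ∀ u ∈ C, ¬ H u.1 u.2)
    (h2 : (Fintype.card (Vx P F) : ℝ) ^ 2 ≤ (Fintype.card F : ℝ) ^ (30 * P.n) * C.card)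
    (h3 : ∀ a, ((C.filter fun u => u.1 = a).card : ℝ) * Fintype.card (Vx P F) ≤
      √(Fintype.card F : ℝ) * C.card)
    (h4 : ∀ a, ((C.filter fun u => u.2 = a).card : ℝ) * Fintype.card (Vx P F) ≤
      √(Fintype.card F : ℝ) * C.card) :
    c * (C.card : ℝ) ^ 2 ≤ ∑ u ∈ C, ∑ u' ∈ C, ind (ConfP H u u') := by
  have hΩ : (0 : ℝ) < Fintype.card (Vx P F) := by exact_mod_cast Fintype.card_pos
  have hC : 0 < C.card := by
    rcases Nat.eq_zero_or_pos C.card with h | h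
    · rw [h, Nat.cast_zero, mul_zero] at h2
      exact absurd h2 (not_le.2 (by positivity))
    · exact h
  have hC' : (0 : ℝ) < C.card := by exact_mod_cast hC
  have key : ∀ g : Vx P F × Vx P F → ℝ,
      𝔼 u : Un P F, dens C u * g (u false, u true) = (∑ u ∈ C, g u) / C.card :=
    fun g => expect_dens C g
  have hA : Adm (P := P) (F := F) (dens C) := by
    refine ⟨fun u => mul_nonneg (ind_nonneg _) (by positivity), fun u => ?_, ?_, fun i g hg => ?_,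
      fun u hu => ?_⟩
    · have a1 : (Fintype.card (Vx P F) : ℝ) ^ 2 / C.card ≤ (Fintype.card F : ℝ) ^ (30 * P.n) := by
        rwa [div_le_iff₀ hC']
      exact (mul_le_of_le_one_left (by positivity) (ind_le_one _)).trans a1
    · have := key fun _ => 1
      simp only [mul_one, Finset.sum_const, nsmul_eq_mul] at this
      rw [this, div_self hC'.ne']
    · cases i
      · exact (key fun z => g z.1).le.trans (marg_le C hC Prod.fst _ h3 g hg)
      · exact (key fun z => g z.2).le.trans (marg_le C hC Prod.snd _ h4 g hg)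
    · exact h1 (u false, u true) (mem_of_dens C u hu)
  exact (le_div_iff₀ (by positivity)).1 ((hch _ hA).trans (double_dens C H).le)

theorem exists_large (B : ℝ) (j0 : ℕ) : ∃ j : ℕ, j0 ≤ j ∧ B * j ≤ 2 ^ j := by
  obtain ⟨b, hb⟩ := exists_nat_ge B
  refine ⟨2 * (b + j0) + 2, by omega, ?_⟩
  have h1 : b + j0 + 1 ≤ 2 ^ (b + j0) := Nat.lt_two_pow_self
  have h2 : b * (2 * (b + j0) + 2) ≤ 2 ^ (2 * (b + j0) + 2) := by
    have h3 : 2 ^ (2 * (b + j0) + 2) = 4 * (2 ^ (b + j0) * 2 ^ (b + j0)) := by ring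
    rw [h3]
    nlinarith [Nat.mul_le_mul h1 h1]
  have h4 : ((b * (2 * (b + j0) + 2) : ℕ) : ℝ) ≤ ((2 ^ (2 * (b + j0) + 2) : ℕ) : ℝ) := by
    exact_mod_cast h2
  have h5 : (0 : ℝ) ≤ ((2 * (b + j0) + 2 : ℕ) : ℝ) := Nat.cast_nonneg _
  calc B * ((2 * (b + j0) + 2 : ℕ) : ℝ) ≤ b * ((2 * (b + j0) + 2 : ℕ) : ℝ) :=
        mul_le_mul_of_nonneg_right hb h5
    _ ≤ _ := by push_cast at h4 ⊢; exact h4

/-- the container step terminates -/
theorem num_T (q : ℝ) (n ℓ T : ℕ) (hq : q = 2 ^ ℓ) (hT : (T : ℝ) = q ^ (9 * n + 1))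
    (h : (120 * n * ℓ : ℝ) ≤ q) : q ^ (30 * n) * (1 - 1 / q ^ (9 * n) / 4) ^ T ≤ 1 := by
  have hq1 : 1 ≤ q := by rw [hq]; exact one_le_pow₀ (by norm_num)
  have hq0 : 0 < q := by linarith
  have hp : 1 ≤ q ^ (9 * n) := one_le_pow₀ hq1
  have a0 : 1 / q ^ (9 * n) ≤ 1 := by rw [div_le_one (by positivity)]; exact hp
  have a1 : (1 - 1 / q ^ (9 * n) / 4) ^ T ≤ Real.exp (-(1 / q ^ (9 * n) / 4)) ^ T :=
    pow_le_pow_left₀ (by linarith) (by linarith [Real.add_one_le_exp (-(1 / q ^ (9 * n) / 4))]) T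
  have a2 : Real.exp (-(1 / q ^ (9 * n) / 4)) ^ T = Real.exp (-(q / 4)) := by
    rw [← Real.exp_nat_mul, hT]
    congr 1
    field_simp
    ring
  have a3 : q ^ (30 * n) ≤ Real.exp (q / 4) := by
    have b1 : (2 : ℝ) ≤ Real.exp 1 := by linarith [Real.add_one_le_exp 1]
    calc q ^ (30 * n) = 2 ^ (ℓ * (30 * n)) := by rw [hq, ← pow_mul]
      _ ≤ Real.exp 1 ^ (ℓ * (30 * n)) := pow_le_pow_left₀ (by norm_num) b1 _
      _ = Real.exp ((ℓ * (30 * n) : ℕ) : ℝ) := by rw [← Real.exp_nat_mul, mul_one]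
      _ ≤ Real.exp (q / 4) := Real.exp_le_exp.2 (by push_cast; linarith)
  calc q ^ (30 * n) * (1 - 1 / q ^ (9 * n) / 4) ^ T ≤ Real.exp (q / 4) * Real.exp (-(q / 4)) :=
        mul_le_mul a3 (a1.trans a2.le) (pow_nonneg (by linarith) _) (Real.exp_pos _).le
    _ = 1 := by rw [← Real.exp_add]; simp

/-- the union bound -/
theorem num_union (q n ℓ A : ℕ) (z0 : ℝ) (hq : q = 2 ^ ℓ) (hn : 2 ≤ n) (hA : 2 * A ≤ q)
    (h24 : 24 * n + 3 ≤ q) (hz0 : 0 ≤ z0) (hz : z0 ≤ 1 / 2 ^ (A + 1)) :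
    (((A * q ^ (12 * n) : ℕ) : ℝ) ^ 2 + 1) ^ (q ^ (9 * n + 1)) *
      ((((A * q ^ (12 * n) : ℕ) : ℝ) ^ 2 * (2 / (q : ℝ) ^ (30 * n))) ^ (q ^ (12 * n)) +
        2 ^ (A * q ^ (12 * n)) * z0 ^ (q ^ (12 * n))) < 1 := by
  set k2 := q ^ (12 * n) with hk2
  set T := q ^ (9 * n + 1) with hT
  have hq2 : 2 ≤ q := by omega
  have hq0 : (0 : ℝ) < q := by exact_mod_cast (by omega : 0 < q)
  have a1 : ((A * k2 : ℕ) : ℝ) ^ 2 * (2 / (q : ℝ) ^ (30 * n)) ≤ 1 / 2 := by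
    have b1 : (2 * (A * k2)) ^ 2 ≤ q ^ (30 * n) := by
      calc (2 * (A * k2)) ^ 2 = (2 * A * k2) ^ 2 := by ring
        _ ≤ (q * k2) ^ 2 := Nat.pow_le_pow_left (Nat.mul_le_mul_right _ hA) 2
        _ = q ^ (24 * n + 2) := by rw [hk2]; ring
        _ ≤ q ^ (30 * n) := Nat.pow_le_pow_right (by omega) (by omega)
    have b2 : (((2 * (A * k2)) ^ 2 : ℕ) : ℝ) ≤ ((q ^ (30 * n) : ℕ) : ℝ) := by exact_mod_cast b1
    rw [← mul_div_assoc, div_le_div_iff₀ (by positivity) (by norm_num)]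
    push_cast at b2 ⊢
    nlinarith
  have a2 : (((A * k2 : ℕ) : ℝ) ^ 2 * (2 / (q : ℝ) ^ (30 * n))) ^ k2 ≤ (1 / 2) ^ k2 :=
    pow_le_pow_left₀ (by positivity) a1 _
  have a3 : (2 : ℝ) ^ (A * k2) * z0 ^ k2 ≤ (1 / 2) ^ k2 := by
    rw [pow_mul, ← mul_pow]
    refine pow_le_pow_left₀ (by positivity) ?_ _
    calc (2 : ℝ) ^ A * z0 ≤ 2 ^ A * (1 / 2 ^ (A + 1)) :=
          mul_le_mul_of_nonneg_left hz (by positivity)
      _ = 1 / 2 := by rw [pow_succ]; field_simp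
  have a4 : ((A * k2) ^ 2 + 1) ^ T * 2 < 2 ^ k2 := by
    have hℓ : ℓ ≤ q := by rw [hq]; exact Nat.lt_two_pow_self.le
    have b1 : (A * k2) ^ 2 + 1 ≤ 2 ^ (ℓ * (24 * n + 2) + 1) := by
      have c1 : (A * k2) ^ 2 ≤ q ^ (24 * n + 2) := by
        calc (A * k2) ^ 2 ≤ (q * k2) ^ 2 :=
              Nat.pow_le_pow_left (Nat.mul_le_mul_right _ (by omega)) 2
          _ = q ^ (24 * n + 2) := by rw [hk2]; ring
      have c2 : q ^ (24 * n + 2) = 2 ^ (ℓ * (24 * n + 2)) := by rw [hq, ← pow_mul]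
      have c3 : 1 ≤ 2 ^ (ℓ * (24 * n + 2)) := Nat.one_le_two_pow
      rw [pow_succ 2]
      omega
    have b2 : ℓ * (24 * n + 2) + 1 ≤ q * q := by nlinarith
    have b3 : q * q * T + 1 < k2 := by
      have c1 : q * q * T = q ^ (9 * n + 3) := by rw [hT]; ring
      have c2 : q ^ (9 * n + 4) ≤ k2 := Nat.pow_le_pow_right (by omega) (by omega)
      have c3 : q ^ (9 * n + 4) = q ^ (9 * n + 3) * q := pow_succ _ _
      have c4 : 2 ≤ q ^ (9 * n + 3) := hq2.trans (Nat.le_self_pow (by omega) q)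
      rw [c1]
      nlinarith
    calc ((A * k2) ^ 2 + 1) ^ T * 2 ≤ (2 ^ (q * q)) ^ T * 2 :=
          Nat.mul_le_mul_right _ (Nat.pow_le_pow_left
            (b1.trans (Nat.pow_le_pow_right (by norm_num) b2)) T)
      _ = 2 ^ (q * q * T + 1) := by rw [← pow_mul, pow_succ]
      _ < 2 ^ k2 := Nat.pow_lt_pow_right (by norm_num) b3
  have a5 : (((A * k2 : ℕ) : ℝ) ^ 2 + 1) ^ T * 2 < 2 ^ k2 := by exact_mod_cast a4
  calc (((A * k2 : ℕ) : ℝ) ^ 2 + 1) ^ T *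
        ((((A * k2 : ℕ) : ℝ) ^ 2 * (2 / (q : ℝ) ^ (30 * n))) ^ k2 + 2 ^ (A * k2) * z0 ^ k2)
      ≤ (((A * k2 : ℕ) : ℝ) ^ 2 + 1) ^ T * ((1 / 2) ^ k2 + (1 / 2) ^ k2) :=
        mul_le_mul_of_nonneg_left (add_le_add a2 a3) (by positivity)
    _ = (((A * k2 : ℕ) : ℝ) ^ 2 + 1) ^ T * 2 / 2 ^ k2 := by rw [one_div_pow]; ring
    _ < 1 := by rwa [div_lt_one (by positivity)]

end Vale.Agent.P060.FinalAux
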