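import Vale.Agent.P060.Basic

/-!
# Container (fingerprint) lemma (task Finger)
State (Z, C, j).  Start with Z empty, C = all non-H pairs.  A step reads an entry of the code.
If C.card * M < 2 |Ω|^2 nothing changes.  Otherwise let Low be the set of u in C with fewer than
q0 |C| / 4 conflicts u' in C.  Entry (some u): replace C by the u' in C with not ConfP H u u'
(for u in C not in Low this multiplies |C| by at most 1 - q0/4).  Entry none: let Z1 (Z2) be the
set of a with (number of u in Low with u.1 = a (u.2 = a)) * |Ω| > Km |C| / 2, so |Z_i| Km ≤ 2 |Ω|;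
put C' = the u in Low with u.1 not in Z1, u.2 not in Z2, add Z1, Z2 to Z.  Then |C'| < |C| / 2:
otherwise SS applies to C' and gives q0 |C'|^2 conflicts although each u in Low has fewer than
q0 |C| / 4 ≤ q0 |C'| / 2.  At most ℓ such halvings happen (each needs |C| M ≥ 2 |Ω|^2).
For a conflict-free I choose at each step some u in I, in C, not in Low if there is one, else none.
For codes whose final state violates the two cardinality bounds output the empty sets.
-/

open Finset Polynomial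
open scoped BigOperators

namespace Vale.Agent.P060

namespace FingerAux

/-- few values have a large fibre -/
theorem heavy_card {Ω X : Type} [Fintype Ω] [DecidableEq Ω] (L : Finset X) (g : X → Ω)
    (Km c : ℝ) (hc : 0 < c) (hL : (L.card : ℝ) ≤ c) :
    ((univ.filter fun a : Ω =>
      Km * c / 2 < ((L.filter fun u => g u = a).card : ℝ) * Fintype.card Ω).card : ℝ) * Km ≤
      2 * Fintype.card Ω := by
  set Z := univ.filter fun a : Ω =>
      Km * c / 2 < ((L.filter fun u => g u = a).card : ℝ) * Fintype.card Ω with hZ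
  have h1 : (Z.card : ℝ) * (Km * c / 2) ≤
      ∑ a ∈ Z, ((L.filter fun u => g u = a).card : ℝ) * Fintype.card Ω := by
    rw [← nsmul_eq_mul]
    exact Finset.card_nsmul_le_sum _ _ _ fun a ha => (Finset.mem_filter.1 ha).2.le
  have h2 : ∑ a ∈ Z, ((L.filter fun u => g u = a).card : ℝ) ≤ L.card := by
    have h3 : ∑ a, (L.filter fun u => g u = a).card = L.card :=
      (Finset.card_eq_sum_card_fiberwise (f := g) (s := L) (t := univ)
        (fun x _ => mem_univ _)).symm
    have h4 : ∑ a ∈ Z, (L.filter fun u => g u = a).card ≤ L.card :=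
      h3 ▸ Finset.sum_le_sum_of_subset (subset_univ _)
    exact_mod_cast h4
  rw [← Finset.sum_mul] at h1
  have hn : (0 : ℝ) ≤ Fintype.card Ω := Nat.cast_nonneg _
  have h5 : (Z.card : ℝ) * (Km * c / 2) ≤ c * Fintype.card Ω :=
    h1.trans (mul_le_mul_of_nonneg_right (h2.trans hL) hn)
  have h6 : ((Z.card : ℝ) * Km) * c ≤ (2 * Fintype.card Ω) * c := by nlinarith
  exact le_of_mul_le_mul_right h6 hc

/-- one step of the process -/
theorem step {Ω : Type} [Fintype Ω] [DecidableEq Ω] (H : Ω → Ω → Prop) (M Km q0 : ℝ)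
    (hq0 : 0 < q0) (hq1 : q0 ≤ 1) (hKm : 0 < Km) (hM : 0 < M)
    (SS : ∀ C : Finset (Ω × Ω), (∀ u ∈ C, ¬ H u.1 u.2) →
      (Fintype.card Ω : ℝ) ^ 2 ≤ M * C.card →
      (∀ a, ((C.filter fun u => u.1 = a).card : ℝ) * Fintype.card Ω ≤ Km * C.card) →
      (∀ a, ((C.filter fun u => u.2 = a).card : ℝ) * Fintype.card Ω ≤ Km * C.card) →
      q0 * (C.card : ℝ) ^ 2 ≤ ∑ u ∈ C, ∑ u' ∈ C, ind (ConfP H u u'))
    (C0 : Finset (Ω × Ω)) (h0 : ∀ u ∈ C0, ¬ H u.1 u.2)
    (hbig : 2 * (Fintype.card Ω : ℝ) ^ 2 < C0.card * M) :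
    ∃ (C1 : Option (Ω × Ω) → Finset (Ω × Ω)) (Z1 : Finset Ω),
      (∀ e, C1 e ⊆ C0) ∧ (∀ e, ((C1 e).card : ℝ) ≤ C0.card * (1 - q0 / 4)) ∧
      2 * ((C1 none).card : ℝ) ≤ C0.card ∧ (Z1.card : ℝ) * Km ≤ 4 * Fintype.card Ω ∧
      ∀ I : Set (Ω × Ω), (∀ u ∈ I, ∀ u' ∈ I, ¬ ConfP H u u') →
        (∃ u ∈ I, ∀ u' ∈ I, u' ∈ C0 → u' ∈ C1 (some u)) ∨
          ∀ u' ∈ I, u' ∈ C0 → u' ∈ C1 none ∨ u'.1 ∈ Z1 ∨ u'.2 ∈ Z1 := by
  classical
  have hn : (0 : ℝ) ≤ Fintype.card Ω := Nat.cast_nonneg _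
  have hc : (0 : ℝ) < C0.card := by
    by_contra h
    have h' : (C0.card : ℝ) = 0 := le_antisymm (not_lt.1 h) (Nat.cast_nonneg _)
    rw [h'] at hbig
    nlinarith [sq_nonneg (Fintype.card Ω : ℝ)]
  set Low := C0.filter fun u =>
    ((C0.filter fun u' => ConfP H u u').card : ℝ) < q0 * C0.card / 4 with hLow
  have hLsub : Low ⊆ C0 := filter_subset _ _
  have hLc : (Low.card : ℝ) ≤ C0.card := by exact_mod_cast card_le_card hLsub
  set Za := univ.filter fun a : Ω =>
      Km * C0.card / 2 < ((Low.filter fun u => u.1 = a).card : ℝ) * Fintype.card Ω with hZa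
  set Zb := univ.filter fun a : Ω =>
      Km * C0.card / 2 < ((Low.filter fun u => u.2 = a).card : ℝ) * Fintype.card Ω with hZb
  have hZa' : (Za.card : ℝ) * Km ≤ 2 * Fintype.card Ω := heavy_card Low Prod.fst Km _ hc hLc
  have hZb' : (Zb.card : ℝ) * Km ≤ 2 * Fintype.card Ω := heavy_card Low Prod.snd Km _ hc hLc
  set C' := Low.filter fun u => u.1 ∉ Za ∧ u.2 ∉ Zb with hC'
  have hC'sub : C' ⊆ Low := filter_subset _ _
  have hhalf : 2 * (C'.card : ℝ) ≤ C0.card := by
    by_contra hcon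
    have hcon := not_le.1 hcon
    have hmarg : ∀ (g : Ω × Ω → Ω) (Z : Finset Ω),
        (∀ a, a ∈ Z ↔ Km * C0.card / 2 <
          ((Low.filter fun u => g u = a).card : ℝ) * Fintype.card Ω) →
        (∀ u ∈ C', g u ∉ Z) →
        ∀ a, ((C'.filter fun u => g u = a).card : ℝ) * Fintype.card Ω ≤ Km * C'.card := by
      intro g Z hZ hg a
      by_cases ha : a ∈ Z
      · have : C'.filter (fun u => g u = a) = ∅ := by
          refine Finset.filter_eq_empty_iff.2 fun u hu h => hg u hu (h ▸ ha)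
        rw [this]
        simp only [card_empty, Nat.cast_zero, zero_mul]
        positivity
      · have h1 := not_lt.1 (fun h => ha ((hZ a).2 h))
        have h2 : ((C'.filter fun u => g u = a).card : ℝ) ≤
            ((Low.filter fun u => g u = a).card : ℝ) := by
          exact_mod_cast card_le_card (filter_subset_filter _ hC'sub)
        have h3 := mul_le_mul_of_nonneg_right h2 hn
        nlinarith
    have hS := SS C' (fun u hu => h0 u (hLsub (hC'sub hu))) (by nlinarith)
      (hmarg Prod.fst Za (fun a => by simp [hZa]) fun u hu => (mem_filter.1 hu).2.1)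
      (hmarg Prod.snd Zb (fun a => by simp [hZb]) fun u hu => (mem_filter.1 hu).2.2)
    have hU : ∑ u ∈ C', ∑ u' ∈ C', ind (ConfP H u u') ≤ C'.card * (q0 * C0.card / 4) := by
      rw [← nsmul_eq_mul]
      refine Finset.sum_le_card_nsmul _ _ _ fun u hu => ?_
      have h1 := (mem_filter.1 (hC'sub hu)).2
      refine le_trans ?_ h1.le
      have h2 : ∑ u' ∈ C', ind (ConfP H u u') ≤ ∑ u' ∈ C0, ind (ConfP H u u') :=
        Finset.sum_le_sum_of_subset_of_nonneg (hC'sub.trans hLsub) fun _ _ _ => ind_nonneg _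
      refine h2.trans (le_of_eq ?_)
      simp [ind_eq_ite]
    have hpos : (0 : ℝ) < C'.card := by linarith
    have h7 : q0 * C'.card * C'.card ≤ (q0 * C0.card / 4) * C'.card := by nlinarith
    have h8 := le_of_mul_le_mul_right h7 hpos
    nlinarith
  refine ⟨fun e => e.elim C' fun u =>
    if u ∈ Low then ∅ else if u ∈ C0 then C0.filter fun u' => ¬ ConfP H u u' else ∅,
    Za ∪ Zb, ?_, ?_, hhalf, ?_, ?_⟩
  · rintro (_ | u)
    · exact hC'sub.trans hLsub
    · simp only [Option.elim]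
      split_ifs
      · exact empty_subset _
      · exact filter_subset _ _
      · exact empty_subset _
  · have hq : (0 : ℝ) ≤ C0.card * (1 - q0 / 4) := mul_nonneg hc.le (by linarith)
    rintro (_ | u)
    · simp only [Option.elim]
      nlinarith
    · simp only [Option.elim]
      split_ifs with h1 h2
      · simpa using hq
      · have h3 : q0 * C0.card / 4 ≤ ((C0.filter fun u' => ConfP H u u').card : ℝ) := by
          by_contra h
          exact h1 (mem_filter.2 ⟨h2, not_le.1 h⟩)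
        have h4 := Finset.card_filter_add_card_filter_not (s := C0) (fun u' => ConfP H u u')
        have h5 : ((C0.filter fun u' => ConfP H u u').card : ℝ) +
            ((C0.filter fun u' => ¬ ConfP H u u').card : ℝ) = C0.card := by exact_mod_cast h4
        linarith
      · simpa using hq
  · have h1 : ((Za ∪ Zb).card : ℝ) ≤ Za.card + Zb.card := by exact_mod_cast card_union_le _ _
    nlinarith
  · intro I hI
    by_cases h : ∃ u ∈ I, u ∈ C0 ∧ u ∉ Low
    · obtain ⟨u, huI, hu0, huL⟩ := h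
      refine Or.inl ⟨u, huI, fun u' hu' h0' => ?_⟩
      simp only [Option.elim, if_neg huL, if_pos hu0]
      exact mem_filter.2 ⟨h0', hI u huI u' hu'⟩
    · refine Or.inr fun u' hu' h0' => ?_
      have hL : u' ∈ Low := by
        by_contra hL
        exact h ⟨u', hu', h0', hL⟩
      by_cases h1 : u'.1 ∈ Za
      · exact Or.inr (Or.inl (mem_union_left _ h1))
      by_cases h2 : u'.2 ∈ Zb
      · exact Or.inr (Or.inr (mem_union_right _ h2))
      exact Or.inl (mem_filter.2 ⟨hL, h1, h2⟩)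

/-- the whole process from an arbitrary starting state -/
theorem run {Ω : Type} [Fintype Ω] [DecidableEq Ω] (H : Ω → Ω → Prop) (M Km q0 : ℝ)
    (hq0 : 0 < q0) (hq1 : q0 ≤ 1) (hKm : 0 < Km) (hM : 0 < M)
    (SS : ∀ C : Finset (Ω × Ω), (∀ u ∈ C, ¬ H u.1 u.2) →
      (Fintype.card Ω : ℝ) ^ 2 ≤ M * C.card →
      (∀ a, ((C.filter fun u => u.1 = a).card : ℝ) * Fintype.card Ω ≤ Km * C.card) →
      (∀ a, ((C.filter fun u => u.2 = a).card : ℝ) * Fintype.card Ω ≤ Km * C.card) →
      q0 * (C.card : ℝ) ^ 2 ≤ ∑ u ∈ C, ∑ u' ∈ C, ind (ConfP H u u'))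
    (T : ℕ) : ∀ (C0 : Finset (Ω × Ω)) (j : ℕ), (∀ u ∈ C0, ¬ H u.1 u.2) →
      (C0.card : ℝ) * M ≤ 2 ^ j * (Fintype.card Ω : ℝ) ^ 2 →
    ∃ (Z : (Fin T → Option (Ω × Ω)) → Finset Ω) (C : (Fin T → Option (Ω × Ω)) → Finset (Ω × Ω)),
      (∀ l, ((Z l).card : ℝ) * Km ≤ 4 * j * Fintype.card Ω) ∧
      (∀ l, ((C l).card : ℝ) * M ≤ 2 * (Fintype.card Ω : ℝ) ^ 2 ∨
        ((C l).card : ℝ) ≤ C0.card * (1 - q0 / 4) ^ T) ∧
      ∀ I : Set (Ω × Ω), (∀ u ∈ I, ∀ u' ∈ I, ¬ ConfP H u u') →
        ∃ l, (∀ s u, l s = some u → u ∈ I) ∧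
          ∀ u ∈ I, u ∈ C0 → u ∈ C l ∨ u.1 ∈ Z l ∨ u.2 ∈ Z l := by
  have hn : (0 : ℝ) ≤ Fintype.card Ω := Nat.cast_nonneg _
  induction T with
  | zero =>
    intro C0 j _ _
    refine ⟨fun _ => ∅, fun _ => C0, fun l => ?_, fun l => Or.inr (by simp), fun I _ =>
      ⟨fun _ => none, fun s => s.elim0, fun u _ h => Or.inl h⟩⟩
    simp only [card_empty, Nat.cast_zero, zero_mul]
    positivity
  | succ T ih =>
    intro C0 j h0 hj
    by_cases hbig : 2 * (Fintype.card Ω : ℝ) ^ 2 < C0.card * M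
    swap
    · refine ⟨fun _ => ∅, fun _ => C0, fun l => ?_, fun l => Or.inl (not_lt.1 hbig), fun I _ =>
        ⟨fun _ => none, fun s u h => by simp at h, fun u _ h => Or.inl h⟩⟩
      simp only [card_empty, Nat.cast_zero, zero_mul]
      positivity
    obtain ⟨C1, Z1, hsub, hdec, hhalf, hZ1, hI⟩ := step H M Km q0 hq0 hq1 hKm hM SS C0 h0 hbig
    obtain ⟨j', rfl⟩ : ∃ j', j = j' + 1 := by
      rcases j with _ | j'
      · exfalso
        simp only [pow_zero, one_mul] at hj
        nlinarith [sq_nonneg (Fintype.card Ω : ℝ)]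
      · exact ⟨j', rfl⟩
    have key : ∀ e : Option (Ω × Ω), ((C1 e).card : ℝ) * M ≤
        2 ^ (e.elim j' fun _ => j' + 1) * (Fintype.card Ω : ℝ) ^ 2 := by
      rintro (_ | u)
      · simp only [Option.elim]
        rw [pow_succ] at hj
        nlinarith
      · simp only [Option.elim]
        refine le_trans (mul_le_mul_of_nonneg_right ?_ hM.le) hj
        exact_mod_cast card_le_card (hsub _)
    choose Z' C' hZ' hC' hI' using fun e : Option (Ω × Ω) =>
      ih (C1 e) _ (fun u hu => h0 u (hsub e hu)) (key e)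
    refine ⟨fun l => (l 0).elim Z1 (fun _ => ∅) ∪ Z' (l 0) (Fin.tail l),
      fun l => C' (l 0) (Fin.tail l), fun l => ?_, fun l => ?_, fun I hI0 => ?_⟩
    · have h1 := hZ' (l 0) (Fin.tail l)
      have h2 : (((l 0).elim Z1 (fun _ => ∅) ∪ Z' (l 0) (Fin.tail l)).card : ℝ) ≤
          ((l 0).elim Z1 (fun _ => ∅)).card + (Z' (l 0) (Fin.tail l)).card := by
        exact_mod_cast card_union_le _ _
      refine le_trans (mul_le_mul_of_nonneg_right h2 hKm.le) ?_
      revert h1
      rcases l 0 with _ | u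
      · simp only [Option.elim]
        push_cast
        intro h1
        nlinarith
      · simp only [Option.elim, card_empty]
        push_cast
        intro h1
        nlinarith
    · rcases hC' (l 0) (Fin.tail l) with h | h
      · exact Or.inl h
      · refine Or.inr (h.trans ?_)
        rw [pow_succ', ← mul_assoc]
        exact mul_le_mul_of_nonneg_right (hdec _) (pow_nonneg (by linarith) _)
    · rcases hI I hI0 with ⟨u, huI, hu⟩ | h
      · obtain ⟨l, hl1, hl2⟩ := hI' (some u) I hI0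
        refine ⟨Fin.cons (some u) l, ?_, fun u' hu' h0' => ?_⟩
        · intro s
          refine Fin.cases ?_ (fun s => ?_) s
          · intro v hv
            simp only [Fin.cons_zero, Option.some.injEq] at hv
            exact hv ▸ huI
          · simpa using hl1 s
        · simp only [Fin.cons_zero, Fin.tail_cons, mem_union]
          rcases hl2 u' hu' (hu u' hu' h0') with h | h | h
          · exact Or.inl h
          · exact Or.inr (Or.inl (Or.inr h))
          · exact Or.inr (Or.inr (Or.inr h))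
      · obtain ⟨l, hl1, hl2⟩ := hI' none I hI0
        refine ⟨Fin.cons none l, ?_, fun u' hu' h0' => ?_⟩
        · intro s
          refine Fin.cases ?_ (fun s => ?_) s
          · intro v hv
            simp at hv
          · simpa using hl1 s
        · simp only [Fin.cons_zero, Fin.tail_cons, mem_union, Option.elim]
          rcases h u' hu' h0' with h | h | h
          · rcases hl2 u' hu' h with h | h | h
            · exact Or.inl h
            · exact Or.inr (Or.inl (Or.inr h))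
            · exact Or.inr (Or.inr (Or.inr h))
          · exact Or.inr (Or.inl (Or.inl h))
          · exact Or.inr (Or.inr (Or.inl h))

end FingerAux

theorem finger {Ω : Type} [Fintype Ω] [DecidableEq Ω] (H : Ω → Ω → Prop) (M Km q0 : ℝ)
    (T ℓ : ℕ) (hq0 : 0 < q0) (hq1 : q0 ≤ 1) (hKm : 0 < Km) (hM : 0 < M)
    (hT : M * (1 - q0 / 4) ^ T ≤ 1) (hℓ : M ≤ 2 ^ ℓ)
    (SS : ∀ C : Finset (Ω × Ω), (∀ u ∈ C, ¬ H u.1 u.2) →
      (Fintype.card Ω : ℝ) ^ 2 ≤ M * C.card →
      (∀ a, ((C.filter fun u => u.1 = a).card : ℝ) * Fintype.card Ω ≤ Km * C.card) →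
      (∀ a, ((C.filter fun u => u.2 = a).card : ℝ) * Fintype.card Ω ≤ Km * C.card) →
      q0 * (C.card : ℝ) ^ 2 ≤ ∑ u ∈ C, ∑ u' ∈ C, ind (ConfP H u u')) :
    ∃ (Z : (Fin T → Option (Ω × Ω)) → Finset Ω) (C : (Fin T → Option (Ω × Ω)) → Finset (Ω × Ω)),
      (∀ l, ((Z l).card : ℝ) * Km ≤ 4 * ℓ * Fintype.card Ω) ∧
      (∀ l, ((C l).card : ℝ) * M ≤ 2 * (Fintype.card Ω : ℝ) ^ 2) ∧
      ∀ I : Set (Ω × Ω), (∀ u ∈ I, ¬ H u.1 u.2) → (∀ u ∈ I, ∀ u' ∈ I, ¬ ConfP H u u') →
        ∃ l, (∀ s u, l s = some u → u ∈ I) ∧ ∀ u ∈ I, u ∈ C l ∨ u.1 ∈ Z l ∨ u.2 ∈ Z l := by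
  classical
  set C0 : Finset (Ω × Ω) := univ.filter fun u => ¬ H u.1 u.2 with hC0
  have hc : (C0.card : ℝ) ≤ (Fintype.card Ω : ℝ) ^ 2 := by
    have := Finset.card_le_univ C0
    rw [Fintype.card_prod] at this
    rw [sq]
    exact_mod_cast this
  have hc0 : (0 : ℝ) ≤ C0.card := Nat.cast_nonneg _
  have hn2 : (0 : ℝ) ≤ (Fintype.card Ω : ℝ) ^ 2 := sq_nonneg _
  obtain ⟨Z, C, hZ, hC, hI⟩ := FingerAux.run H M Km q0 hq0 hq1 hKm hM SS T C0 ℓ
    (fun u hu => (mem_filter.1 hu).2)
    (by rw [mul_comm]; exact mul_le_mul hℓ hc hc0 (by positivity))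
  refine ⟨Z, C, hZ, fun l => ?_, fun I h1 h2 => ?_⟩
  · rcases hC l with h | h
    · exact h
    · have h3 := mul_le_mul_of_nonneg_right h hM.le
      have h4 : (C0.card : ℝ) * (M * (1 - q0 / 4) ^ T) ≤ C0.card * 1 :=
        mul_le_mul_of_nonneg_left hT hc0
      nlinarith
  · obtain ⟨l, hl1, hl2⟩ := hI I h2
    exact ⟨l, hl1, fun u hu => hl2 u hu (mem_filter.2 ⟨mem_univ _, h1 u hu⟩)⟩

end Vale.Agent.P060
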