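import Vale.Agent.P060.Basic
import Vale.Agent.P060.Stmt

/-!
# Graph facts (task Graph)
* minor_le: split the branch sets by size 1, 2, at least 3 (s1, s2, s3).  s1 + 2 s2 + 3 s3 ≤ m.  The
  singletons form a clique; pair them up and add the 2-element branch sets (each is an edge since it is
  connected): a connected matching with s1/2 + s2 edges, so s1/2 + s2 < k, and
  3 t = 3 (s1+s2+s3) ≤ m + 2 s1 + s2 ≤ m + 4 k.  (HasConnMatching is monotone in the size.)
* color_ge: each colour class is independent so has at most two vertices.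
* sample_graph: G.Adj i j iff i ≠ j and not H (x i) (x j).
-/

open Finset Polynomial
open scoped BigOperators

namespace Vale.Agent.P060


theorem connMatching_mono {V : Type} {G : SimpleGraph V} {s s' : ℕ} (h : s ≤ s')
    (hs : HasConnMatching G s') : HasConnMatching G s := by
  obtain ⟨a, b, h1, h2, h3⟩ := hs
  exact ⟨fun i => a (Fin.castLE h i), fun i => b (Fin.castLE h i), fun i => h1 _,
    fun i j hij => h2 _ _ fun e => hij (Fin.castLE_injective h e),
    fun i j hij => h3 _ _ fun e => hij (Fin.castLE_injective h e)⟩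

namespace GraphAux

theorem matching_of {V ι T : Type} [Fintype ι] {G : SimpleGraph V} (B : T → Set V)
    (hd : ∀ i j, i ≠ j → Disjoint (B i) (B j))
    (he : ∀ i j, i ≠ j → ∃ u ∈ B i, ∃ v ∈ B j, G.Adj u v) (a b : ι → V) (f g : ι → T)
    (hab : ∀ j, G.Adj (a j) (b j)) (ha : ∀ j, a j ∈ B (f j)) (hb : ∀ j, b j ∈ B (g j))
    (hs : ∀ j, B (f j) ⊆ {a j, b j}) (h1 : ∀ j j', j ≠ j' → f j ≠ f j')
    (h2 : ∀ j j', j ≠ j' → f j ≠ g j') (h3 : ∀ j j', j ≠ j' → g j ≠ g j') :
    HasConnMatching G (Fintype.card ι) := by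
  set e := (Fintype.equivFin ι).symm
  refine ⟨fun i => a (e i), fun i => b (e i), fun i => hab _, fun i j hij => ?_,
    fun i j hij => ?_⟩
  · have hne : e i ≠ e j := fun h => hij (e.injective h)
    rw [Set.disjoint_left]
    intro x hx hy
    have hx' : x = a (e i) ∨ x = b (e i) := hx
    have hy' : x = a (e j) ∨ x = b (e j) := hy
    rcases hx' with h | h <;> rcases hy' with h' | h'
    · exact Set.disjoint_left.1 (hd _ _ (h1 _ _ hne)) (h ▸ ha _ : x ∈ _) (h' ▸ ha _)
    · exact Set.disjoint_left.1 (hd _ _ (h2 _ _ hne)) (h ▸ ha _ : x ∈ _) (h' ▸ hb _)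
    · exact Set.disjoint_left.1 (hd _ _ (h2 _ _ hne.symm)) (h' ▸ ha _ : x ∈ _) (h ▸ hb _)
    · exact Set.disjoint_left.1 (hd _ _ (h3 _ _ hne)) (h ▸ hb _ : x ∈ _) (h' ▸ hb _)
  · have hne : e i ≠ e j := fun h => hij (e.injective h)
    obtain ⟨u, hu, v, hv, huv⟩ := he _ _ (h1 _ _ hne)
    exact ⟨u, hs _ hu, v, hs _ hv, huv⟩

theorem adj_of_pair {V : Type} {G : SimpleGraph V} {a b : V} (hab : a ≠ b)
    (h : (G.induce ({a, b} : Set V)).Connected) : G.Adj a b := by
  obtain ⟨w⟩ := h.preconnected ⟨a, by simp⟩ ⟨b, by simp⟩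
  obtain ⟨⟨c, hc⟩, hadj⟩ : ∃ c, (G.induce ({a, b} : Set V)).Adj ⟨a, by simp⟩ c := by
    cases w with
    | nil => exact absurd rfl hab
    | cons h _ => exact ⟨_, h⟩
  have hadj' : G.Adj a c := hadj
  rcases hc with rfl | rfl
  · exact absurd rfl hadj'.ne
  · exact hadj'

end GraphAux

theorem minor_le {m : ℕ} (G : SimpleGraph (Fin m)) (k t : ℕ) (h : ¬ HasConnMatching G k)
    (ht : HasKMinor G t) : 3 * t ≤ m + 4 * k := by
  classical
  obtain ⟨B, hc, hd, he⟩ := ht
  have hpos : ∀ i, 0 < (B i).ncard := fun i => by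
    obtain ⟨⟨x, hx⟩⟩ := (hc i).nonempty
    exact (Set.ncard_pos (Set.toFinite _)).2 ⟨x, hx⟩
  set S1 := univ.filter fun i => (B i).ncard = 1 with hS1
  set S2 := univ.filter fun i => (B i).ncard = 2 with hS2
  have hsum : ∑ i, (B i).ncard ≤ m := by
    have h1 := Finset.card_biUnion (s := univ) (t := fun i => (B i).toFinset)
      (fun i _ j _ hij => Set.disjoint_toFinset.2 (hd i j hij))
    simp only [← Set.ncard_eq_toFinset_card'] at h1
    rw [← h1]
    exact (Finset.card_le_univ _).trans (by simp)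
  have hcount : 3 * t ≤ m + 2 * S1.card + S2.card := by
    have : ∑ _i : Fin t, 3 ≤ ∑ i, ((B i).ncard + 2 * (if (B i).ncard = 1 then 1 else 0) +
        if (B i).ncard = 2 then 1 else 0) := Finset.sum_le_sum fun i _ => by
      have := hpos i
      split_ifs <;> omega
    rw [Finset.sum_add_distrib, Finset.sum_add_distrib, ← Finset.mul_sum, ← Finset.card_filter,
      ← Finset.card_filter, ← hS1, ← hS2] at this
    simp only [Finset.sum_const, Finset.card_univ, Fintype.card_fin, smul_eq_mul] at this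
    omega
  have hv : ∀ i : S1, ∃ v, B i = {v} := fun i => Set.ncard_eq_one.1 (Finset.mem_filter.1 i.2).2
  choose v hv using hv
  have hp : ∀ i : S2, ∃ x y, x ≠ y ∧ B i = {x, y} := fun i =>
    Set.ncard_eq_two.1 (Finset.mem_filter.1 i.2).2
  choose x y hxy hp using hp
  set e := S1.equivFin.symm
  let p0 : Fin (S1.card / 2) → S1 := fun p => e ⟨2 * p, by omega⟩
  let p1 : Fin (S1.card / 2) → S1 := fun p => e ⟨2 * p + 1, by omega⟩
  have n12 : ∀ (i : S1) (j : S2), (i : Fin t) ≠ j := fun i j hij => by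
    have h1 := (Finset.mem_filter.1 i.2).2
    have h2 := (Finset.mem_filter.1 j.2).2
    rw [hij] at h1; omega
  have einj : ∀ a b, (e a : Fin t) = e b → (a : ℕ) = b := fun a b hab => by
    rw [e.injective (Subtype.ext hab)]
  have hM := GraphAux.matching_of (ι := Fin (S1.card / 2) ⊕ S2) (G := G) B hd he
    (Sum.elim (fun p => v (p0 p)) x) (Sum.elim (fun p => v (p1 p)) y)
    (Sum.elim (fun p => p0 p) fun i => i) (Sum.elim (fun p => p1 p) fun i => i)
    (by
      rintro (p | i)
      · obtain ⟨u, hu, w, hw, huw⟩ := he (p0 p) (p1 p) fun hh => by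
          have := einj _ _ hh
          simp at this
        rw [hv] at hu hw
        rw [Set.mem_singleton_iff] at hu hw
        rw [hu, hw] at huw
        exact huw
      · exact GraphAux.adj_of_pair (hxy i) (hp i ▸ hc i))
    (by rintro (p | i) <;> simp [hv, hp]) (by rintro (p | i) <;> simp [hv, hp])
    (by rintro (p | i) <;> simp [hv, hp])
    (by
      rintro (p | i) (p' | i') hne hh
      · have := einj _ _ hh
        exact hne (congrArg Sum.inl (Fin.ext (by simp at this; omega)))
      · exact n12 _ _ hh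
      · exact n12 _ _ hh.symm
      · exact hne (congrArg Sum.inr (Subtype.ext hh)))
    (by
      rintro (p | i) (p' | i') hne hh
      · have := einj _ _ hh
        simp at this; omega
      · exact n12 _ _ hh
      · exact n12 _ _ hh.symm
      · exact hne (congrArg Sum.inr (Subtype.ext hh)))
    (by
      rintro (p | i) (p' | i') hne hh
      · have := einj _ _ hh
        exact hne (congrArg Sum.inl (Fin.ext (by simp at this; omega)))
      · exact n12 _ _ hh
      · exact n12 _ _ hh.symm
      · exact hne (congrArg Sum.inr (Subtype.ext hh)))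
  simp only [Fintype.card_sum, Fintype.card_fin, Fintype.card_coe] at hM
  have : S1.card / 2 + S2.card < k := not_le.1 fun hk => h (connMatching_mono hk hM)
  omega

theorem color_ge {m : ℕ} (G : SimpleGraph (Fin m)) (t : ℕ) (h : G.indepNum ≤ 2)
    (ht : G.Colorable t) : m ≤ 2 * t := by
  classical
  obtain ⟨C⟩ := ht
  have := Finset.card_le_mul_card_image_of_maps_to (s := (univ : Finset (Fin m)))
    (t := (univ : Finset (Fin t))) (f := C) (fun _ _ => Finset.mem_univ _) 2 (fun c _ => by
      refine le_trans (SimpleGraph.IsIndepSet.card_le_indepNum ?_) h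
      intro a ha b hb _ hab
      have ha' := (Finset.mem_filter.1 ha).2
      have hb' := (Finset.mem_filter.1 hb).2
      exact C.valid hab (ha'.trans hb'.symm))
  simpa using this

theorem sample_graph {Ω : Type} (H : Ω → Ω → Prop) (hs : ∀ a b, H a b → H b a)
    (htri : ∀ a b c, H a b → H a c → H b c → False) {m : ℕ} (k : ℕ) (x : Fin m → Ω)
    (hx : ∀ a b : Fin k → Fin m, Function.Injective (Sum.elim a b) →
      (∀ s, ¬ H (x (a s)) (x (b s))) →
      ∃ s s', ConfP H (x (a s), x (b s)) (x (a s'), x (b s'))) :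
    ∃ G : SimpleGraph (Fin m), G.indepNum ≤ 2 ∧ ¬ HasConnMatching G k := by
  classical
  let G : SimpleGraph (Fin m) :=
    { Adj := fun i j => i ≠ j ∧ ¬ H (x i) (x j)
      symm := ⟨fun i j h => ⟨h.1.symm, fun h' => h.2 (hs _ _ h')⟩⟩
      loopless := ⟨fun i h => h.1 rfl⟩ }
  refine ⟨G, ?_, ?_⟩
  · obtain ⟨s, hs'⟩ := G.exists_isNIndepSet_indepNum
    rw [← hs'.card_eq]
    by_contra hc
    obtain ⟨a, ha, b, hb, c, hc', hab, hac, hbc⟩ := Finset.two_lt_card.1 (not_le.1 hc)
    have key : ∀ u ∈ s, ∀ w ∈ s, u ≠ w → H (x u) (x w) := fun u hu w hw huw => by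
      by_contra hn
      exact hs'.isIndepSet hu hw huw ⟨huw, hn⟩
    exact htri _ _ _ (key a ha b hb hab) (key a ha c hc' hac) (key b hb c hc' hbc)
  · rintro ⟨a, b, h1, h2, h3⟩
    obtain ⟨s, s', hc⟩ := hx a b (by
      have dj : ∀ i j u, u ∈ ({a i, b i} : Set (Fin m)) → u ∈ ({a j, b j} : Set (Fin m)) → i = j :=
        fun i j u hi hj => by
          by_contra hne
          exact Set.disjoint_left.1 (h2 i j hne) hi hj
      rintro (i | i) (j | j) hij <;> simp only [Sum.elim_inl, Sum.elim_inr] at hij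
      · rw [dj i j (a i) (by simp) (by simp [hij])]
      · have := dj i j (a i) (by simp) (by simp [hij])
        subst this; exact absurd hij (h1 i).1
      · have := dj i j (b i) (by simp) (by simp [hij])
        subst this; exact absurd hij.symm (h1 i).1
      · rw [dj i j (b i) (by simp) (by simp [hij])]) fun s => (h1 s).2
    by_cases hss : s = s'
    · subst hss; exact (h1 s).2 hc.2.1
    · obtain ⟨u, hu, w, hw, huw⟩ := h3 s s' hss
      rcases hu with rfl | rfl <;> rcases hw with rfl | rfl
      · exact huw.2 hc.1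
      · exact huw.2 hc.2.1
      · exact huw.2 hc.2.2.1
      · exact huw.2 hc.2.2.2

end Vale.Agent.P060
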