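import Vale.Agent.P060.Basic

/-!
# Union bound over fingerprints (task Sample)
Take x : Fin m → Ω uniform.  If x is bad (a, b with no conflict), apply hI to the set I of the pairs
(x (a s), x (b s)); the code l lifts to an index code li : Fin T → Option (Fin m × Fin m) with
l = li mapped by x.  Let J be the at most 2 T indices occurring in li.  At least 2 k2 of the disjoint
pairs (a s, b s) avoid J; so either k2 of them have (x (a s), x (b s)) in C l, or there are k2
distinct indices outside J with x i in Z l.  For fixed li, l depends only on x restricted to J, so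
(resample the coordinates outside J) the first event has probability at most (m^2 c0)^k2 (union
over the positions of the pairs), the second at most 2^m z0^k2 (union over subsets).  There are
(m^2+1)^T index codes.
-/

open Finset Polynomial
open scoped BigOperators

namespace Vale.Agent.P060


namespace SampleAux

/-- product bound from independent resampling -/
theorem prod_bound {X Y σ : Type} [Fintype X] [Nonempty X] [Fintype Y] [DecidableEq σ]
    (g : σ → X → ℝ) (r : σ → X → Y → X) (c : ℝ) (hc : 0 ≤ c) (hg : ∀ s x, 0 ≤ g s x)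
    (S : Finset σ) (hr : ∀ s ∈ S, ∀ f : X → ℝ, 𝔼 x, f x = 𝔼 x, 𝔼 y, f (r s x y))
    (hne : ∀ s ∈ S, ∀ s' ∈ S, s' ≠ s → ∀ x y, g s' (r s x y) = g s' x)
    (hb : ∀ s ∈ S, ∀ x, 𝔼 y, g s (r s x y) ≤ c) :
    𝔼 x, ∏ s ∈ S, g s x ≤ c ^ S.card := by
  induction S using Finset.induction_on with
  | empty => simp
  | insert s S hs ih =>
    have ih' := ih (fun s' h => hr s' (mem_insert_of_mem h))
      (fun s1 h1 s2 h2 => hne s1 (mem_insert_of_mem h1) s2 (mem_insert_of_mem h2))
      (fun s' h => hb s' (mem_insert_of_mem h))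
    rw [hr s (mem_insert_self _ _), card_insert_of_notMem hs, pow_succ']
    refine le_trans (expect_mono (g := fun x => c * ∏ s' ∈ S, g s' x) fun x => ?_) ?_
    · have h1 : ∀ y, ∏ s' ∈ insert s S, g s' (r s x y) = g s (r s x y) * ∏ s' ∈ S, g s' x := by
        intro y
        rw [prod_insert hs]
        congr 1
        exact prod_congr rfl fun s' h' => hne s (mem_insert_self _ _) s' (mem_insert_of_mem h')
          (fun h => hs (h ▸ h')) x y
      simp only [h1]
      rw [← Finset.expect_mul]
      exact mul_le_mul_of_nonneg_right (hb s (mem_insert_self _ _) x)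
        (prod_nonneg fun s' _ => hg s' x)
    · rw [← Finset.mul_expect]
      exact mul_le_mul_of_nonneg_left ih' hc

theorem expect_ind_mem {Y : Type} [Fintype Y] [DecidableEq Y] (A : Finset Y) :
    𝔼 y, ind (y ∈ A) = (A.card : ℝ) / Fintype.card Y := by
  rw [Finset.expect_eq_sum_div_card, sum_ind_eq_card]
  simp

variable {Ω : Type} {T m : ℕ}

/-- the code read off from an index code -/
def code (li : Fin T → Option (Fin m × Fin m)) (x : Fin m → Ω) : Fin T → Option (Ω × Ω) :=
  fun t => (li t).map (Prod.map x x)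

/-- the index does not occur in the index code -/
def Out (li : Fin T → Option (Fin m × Fin m)) (i : Fin m) : Prop :=
  ∀ t p, li t = some p → p.1 ≠ i ∧ p.2 ≠ i

theorem code_update {li : Fin T → Option (Fin m × Fin m)} {i : Fin m} (h : Out li i)
    (x : Fin m → Ω) (y : Ω) : code li (Function.update x i y) = code li x := by
  funext t
  simp only [code]
  rcases hl : li t with _ | p
  · rfl
  · obtain ⟨h1, h2⟩ := h t p hl
    simp [Prod.map, Function.update_of_ne h1, Function.update_of_ne h2]

theorem bound2 [Fintype Ω] [DecidableEq Ω] [Nonempty Ω] (z0 : ℝ) (hz : 0 ≤ z0)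
    (Z : (Fin T → Option (Ω × Ω)) → Finset Ω)
    (hZ : ∀ l, ((Z l).card : ℝ) ≤ z0 * Fintype.card Ω) (li : Fin T → Option (Fin m × Fin m))
    (k2 : ℕ) (S : Finset (Fin m)) :
    𝔼 x : Fin m → Ω, ind ((S.card = k2 ∧ ∀ i ∈ S, Out li i) ∧ ∀ i ∈ S, x i ∈ Z (code li x)) ≤
      z0 ^ k2 := by
  by_cases hS : S.card = k2 ∧ ∀ i ∈ S, Out li i
  swap
  · simp only [hS, false_and, ind_neg not_false, Finset.expect_const_zero]
    positivity
  have hn : (0 : ℝ) < Fintype.card Ω := by exact_mod_cast Fintype.card_pos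
  have h := prod_bound (X := Fin m → Ω) (Y := Ω) (fun i x => ind (x i ∈ Z (code li x)))
    (fun i x y => Function.update x i y) z0 hz (fun _ _ => ind_nonneg _) S
    (fun i _ f => expect_update i f)
    (fun i hi i' _ hne x y => by
      simp only [code_update (hS.2 i hi), Function.update_of_ne hne])
    (fun i hi x => by
      simp only [code_update (hS.2 i hi), Function.update_self]
      rw [expect_ind_mem, div_le_iff₀ hn]
      exact hZ _)
  rw [hS.1] at h
  refine le_trans (expect_mono fun x => ?_) h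
  by_cases hx : ∀ i ∈ S, x i ∈ Z (code li x)
  · rw [Finset.prod_eq_one fun i hi => ind_pos (hx i hi)]
    exact ind_le_one _
  · rw [ind_neg fun h => hx h.2]
    exact prod_nonneg fun _ _ => ind_nonneg _

theorem bound1 [Fintype Ω] [DecidableEq Ω] [Nonempty Ω] (c0 : ℝ) (hc : 0 ≤ c0)
    (C : (Fin T → Option (Ω × Ω)) → Finset (Ω × Ω))
    (hC : ∀ l, ((C l).card : ℝ) ≤ c0 * (Fintype.card Ω : ℝ) ^ 2)
    (li : Fin T → Option (Fin m × Fin m)) (k2 : ℕ) (p : Fin k2 → Fin m × Fin m) :
    𝔼 x : Fin m → Ω, ind ((Function.Injective (Sum.elim (fun s => (p s).1) fun s => (p s).2) ∧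
      ∀ s, Out li (p s).1 ∧ Out li (p s).2) ∧ ∀ s, (x (p s).1, x (p s).2) ∈ C (code li x)) ≤
      c0 ^ k2 := by
  by_cases hS : Function.Injective (Sum.elim (fun s => (p s).1) fun s => (p s).2) ∧
      ∀ s, Out li (p s).1 ∧ Out li (p s).2
  swap
  · simp only [hS, false_and, ind_neg not_false, Finset.expect_const_zero]
    positivity
  have hn : (0 : ℝ) < Fintype.card Ω := by exact_mod_cast Fintype.card_pos
  have h11 : ∀ s s', s' ≠ s → (p s').1 ≠ (p s).1 := fun s s' h h' =>
    h (Sum.inl_injective (hS.1 (a₁ := Sum.inl s') (a₂ := Sum.inl s) h'))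
  have h22 : ∀ s s', s' ≠ s → (p s').2 ≠ (p s).2 := fun s s' h h' =>
    h (Sum.inr_injective (hS.1 (a₁ := Sum.inr s') (a₂ := Sum.inr s) h'))
  have h12 : ∀ s s', (p s').1 ≠ (p s).2 := fun s s' h' =>
    Sum.inl_ne_inr (hS.1 (a₁ := Sum.inl s') (a₂ := Sum.inr s) h')
  have h := prod_bound (X := Fin m → Ω) (Y := Ω × Ω)
    (fun s x => ind ((x (p s).1, x (p s).2) ∈ C (code li x)))
    (fun s x y => Function.update (Function.update x (p s).1 y.1) (p s).2 y.2) c0 hc
    (fun _ _ => ind_nonneg _) univ
    (fun s _ f => by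
      rw [expect_update (p s).2 f, expect_update (p s).1]
      refine Finset.expect_congr rfl fun x _ => ?_
      rw [expect_prod'])
    (fun s _ s' _ hne x y => by
      simp only [code_update (hS.2 s).1, code_update (hS.2 s).2,
        Function.update_of_ne (h11 s s' hne), Function.update_of_ne (h22 s s' hne),
        Function.update_of_ne (h12 s s'), Function.update_of_ne (h12 s' s).symm])
    (fun s _ x => by
      simp only [code_update (hS.2 s).1, code_update (hS.2 s).2, Function.update_self,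
        Function.update_of_ne (h12 s s), Prod.mk.eta]
      rw [expect_ind_mem, Fintype.card_prod, Nat.cast_mul, ← sq, div_le_iff₀ (by positivity)]
      exact hC _)
  rw [card_univ, Fintype.card_fin] at h
  refine le_trans (expect_mono fun x => ?_) h
  rw [← ind_forall]
  exact ind_mono fun h => h.2

/-- the combinatorial part -/
theorem cover (H : Ω → Ω → Prop) (k k2 : ℕ) [DecidableEq Ω]
    (Z : (Fin T → Option (Ω × Ω)) → Finset Ω) (C : (Fin T → Option (Ω × Ω)) → Finset (Ω × Ω))
    (hI : ∀ I : Set (Ω × Ω), (∀ u ∈ I, ¬ H u.1 u.2) → (∀ u ∈ I, ∀ u' ∈ I, ¬ ConfP H u u') →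
        ∃ l, (∀ s u, l s = some u → u ∈ I) ∧ ∀ u ∈ I, u ∈ C l ∨ u.1 ∈ Z l ∨ u.2 ∈ Z l)
    (hk : 2 * T + 2 * k2 ≤ k) (x : Fin m → Ω) (a b : Fin k → Fin m)
    (hab : Function.Injective (Sum.elim a b)) (hH : ∀ s, ¬ H (x (a s)) (x (b s)))
    (hno : ∀ s s', ¬ ConfP H (x (a s), x (b s)) (x (a s'), x (b s'))) :
    ∃ li : Fin T → Option (Fin m × Fin m),
      (∃ p : Fin k2 → Fin m × Fin m,
        (Function.Injective (Sum.elim (fun s => (p s).1) fun s => (p s).2) ∧
          ∀ s, Out li (p s).1 ∧ Out li (p s).2) ∧ ∀ s, (x (p s).1, x (p s).2) ∈ C (code li x)) ∨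
      ∃ S : Finset (Fin m), (S.card = k2 ∧ ∀ i ∈ S, Out li i) ∧ ∀ i ∈ S, x i ∈ Z (code li x) := by
  classical
  obtain ⟨l, hl1, hl2⟩ := hI (Set.range fun s => (x (a s), x (b s)))
    (by rintro _ ⟨s, rfl⟩; exact hH s) (by rintro _ ⟨s, rfl⟩ _ ⟨s', rfl⟩; exact hno s s')
  have hlift : ∀ t, ∃ o : Option (Fin k), l t = o.map fun s => (x (a s), x (b s)) := by
    intro t
    rcases hl : l t with _ | u
    · exact ⟨none, rfl⟩
    · obtain ⟨s, rfl⟩ := hl1 t u hl
      exact ⟨some s, rfl⟩
  choose o ho using hlift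
  have haa : ∀ s s', s' ≠ s → a s' ≠ a s := fun s s' h h' =>
    h (Sum.inl_injective (hab (a₁ := Sum.inl s') (a₂ := Sum.inl s) h'))
  have hbb : ∀ s s', s' ≠ s → b s' ≠ b s := fun s s' h h' =>
    h (Sum.inr_injective (hab (a₁ := Sum.inr s') (a₂ := Sum.inr s) h'))
  have hab' : ∀ s s', a s' ≠ b s := fun s s' h' =>
    Sum.inl_ne_inr (hab (a₁ := Sum.inl s') (a₂ := Sum.inr s) h')
  set li : Fin T → Option (Fin m × Fin m) := fun t => (o t).map fun s => (a s, b s) with hli
  have hcode : code li x = l := by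
    funext t
    rw [ho t]
    simp only [code, hli]
    rcases o t with _ | s <;> rfl
  set used : Finset (Fin k) := univ.filter fun s => ∃ t, o t = some s with hused
  have hu : used.card ≤ T := by
    have : used.card ≤ (univ : Finset (Fin T)).card := by
      refine Finset.card_le_card_of_forall_subsingleton (fun s t => o t = some s)
        (fun s hs => ?_) (fun t _ s hs s' hs' => ?_)
      · obtain ⟨t, ht⟩ := (mem_filter.1 hs).2
        exact ⟨t, mem_univ _, ht⟩
      · have h1 : o t = some s := hs.2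
        have h2 : o t = some s' := hs'.2
        exact Option.some_injective _ (h1.symm.trans h2)
    simpa using this
  have hout : ∀ s, s ∉ used → Out li (a s) ∧ Out li (b s) := by
    intro s hs
    have key : ∀ t p, li t = some p → ∃ s', s' ≠ s ∧ p = (a s', b s') := by
      intro t p hp
      simp only [hli] at hp
      rcases hot : o t with _ | s'
      · rw [hot] at hp; simp at hp
      · rw [hot] at hp
        simp only [Option.map_some, Option.some.injEq] at hp
        refine ⟨s', fun h => hs (mem_filter.2 ⟨mem_univ _, t, h ▸ hot⟩), hp.symm⟩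
    constructor
    · intro t p hp
      obtain ⟨s', hs', rfl⟩ := key t p hp
      exact ⟨haa s s' hs', (hab' s' s).symm⟩
    · intro t p hp
      obtain ⟨s', hs', rfl⟩ := key t p hp
      exact ⟨hab' s s', hbb s s' hs'⟩
  set A := usedᶜ.filter fun s => (x (a s), x (b s)) ∈ C l with hA
  set B := usedᶜ.filter fun s => ¬ (x (a s), x (b s)) ∈ C l with hB
  have hAB : A.card + B.card = usedᶜ.card := Finset.card_filter_add_card_filter_not _
  have hcompl : usedᶜ.card = k - used.card := by simp [card_compl]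
  refine ⟨li, ?_⟩
  rw [hcode]
  by_cases hAk : k2 ≤ A.card
  · obtain ⟨A', hA'sub, hA'⟩ := Finset.exists_subset_card_eq hAk
    set e := A'.orderEmbOfFin hA' with he
    have heA : ∀ s, e s ∈ A := fun s => hA'sub (Finset.orderEmbOfFin_mem _ _ _)
    refine Or.inl ⟨fun s => (a (e s), b (e s)), ⟨?_, fun s => ?_⟩, fun s => ?_⟩
    · have : (Sum.elim (fun s => a (e s)) fun s => b (e s)) = Sum.elim a b ∘ Sum.map e e := by
        funext s; rcases s with s | s <;> rfl
      rw [this]
      exact hab.comp (Sum.map_injective.2 ⟨e.injective, e.injective⟩)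
    · exact hout _ (mem_compl.1 (mem_filter.1 (heA s)).1)
    · exact (mem_filter.1 (heA s)).2
  · have hBk : k2 ≤ B.card := by omega
    obtain ⟨B', hB'sub, hB'⟩ := Finset.exists_subset_card_eq hBk
    set i : Fin k → Fin m := fun s => if x (a s) ∈ Z l then a s else b s with hi
    have hinj : Function.Injective i := by
      intro s s' h
      by_contra hne
      simp only [hi] at h
      split_ifs at h
      · exact haa s' s hne h
      · exact hab' s' s h
      · exact hab' s s' h.symm
      · exact hbb s' s hne h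
    refine Or.inr ⟨B'.image i, ⟨by rw [card_image_of_injective _ hinj, hB'], ?_⟩, ?_⟩
    · intro j hj
      obtain ⟨s, hs, rfl⟩ := mem_image.1 hj
      have := hout _ (mem_compl.1 (mem_filter.1 (hB'sub hs)).1)
      simp only [hi]
      split_ifs
      · exact this.1
      · exact this.2
    · intro j hj
      obtain ⟨s, hs, rfl⟩ := mem_image.1 hj
      have h1 := (mem_filter.1 (hB'sub hs)).2
      have h2 := hl2 _ ⟨s, rfl⟩
      simp only [hi]
      split_ifs with h3
      · exact h3
      · rcases h2 with h | h | h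
        · exact absurd h h1
        · exact absurd h h3
        · exact h

end SampleAux

theorem sample {Ω : Type} [Fintype Ω] [DecidableEq Ω] [Nonempty Ω] (H : Ω → Ω → Prop)
    (T m k k2 : ℕ) (z0 c0 : ℝ)
    (Z : (Fin T → Option (Ω × Ω)) → Finset Ω) (C : (Fin T → Option (Ω × Ω)) → Finset (Ω × Ω))
    (hZ : ∀ l, ((Z l).card : ℝ) ≤ z0 * Fintype.card Ω)
    (hC : ∀ l, ((C l).card : ℝ) ≤ c0 * (Fintype.card Ω : ℝ) ^ 2)
    (hI : ∀ I : Set (Ω × Ω), (∀ u ∈ I, ¬ H u.1 u.2) → (∀ u ∈ I, ∀ u' ∈ I, ¬ ConfP H u u') →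
        ∃ l, (∀ s u, l s = some u → u ∈ I) ∧ ∀ u ∈ I, u ∈ C l ∨ u.1 ∈ Z l ∨ u.2 ∈ Z l)
    (hk : 2 * T + 2 * k2 ≤ k)
    (hnum : ((m : ℝ) ^ 2 + 1) ^ T * (((m : ℝ) ^ 2 * c0) ^ k2 + 2 ^ m * z0 ^ k2) < 1) :
    ∃ x : Fin m → Ω, ∀ a b : Fin k → Fin m, Function.Injective (Sum.elim a b) →
      (∀ s, ¬ H (x (a s)) (x (b s))) →
      ∃ s s', ConfP H (x (a s), x (b s)) (x (a s'), x (b s')) := by
  classical
  by_contra hcon
  push Not at hcon
  have hn : (0 : ℝ) < Fintype.card Ω := by exact_mod_cast Fintype.card_pos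
  have hz : 0 ≤ z0 := by
    have := (Nat.cast_nonneg _).trans (hZ fun _ => none)
    exact nonneg_of_mul_nonneg_left this hn
  have hc : 0 ≤ c0 := by
    have := (Nat.cast_nonneg _).trans (hC fun _ => none)
    exact nonneg_of_mul_nonneg_left this (by positivity)
  have h1 : ∀ x : Fin m → Ω, (1 : ℝ) ≤ ∑ li : Fin T → Option (Fin m × Fin m),
      (∑ p : Fin k2 → Fin m × Fin m,
        ind ((Function.Injective (Sum.elim (fun s => (p s).1) fun s => (p s).2) ∧
          ∀ s, SampleAux.Out li (p s).1 ∧ SampleAux.Out li (p s).2) ∧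
            ∀ s, (x (p s).1, x (p s).2) ∈ C (SampleAux.code li x)) +
      ∑ S : Finset (Fin m), ind ((S.card = k2 ∧ ∀ i ∈ S, SampleAux.Out li i) ∧
        ∀ i ∈ S, x i ∈ Z (SampleAux.code li x))) := by
    intro x
    obtain ⟨a, b, hab, hH, hno⟩ := hcon x
    have h := SampleAux.cover H k k2 Z C hI hk x a b hab hH hno
    rw [← ind_pos h]
    refine (ind_exists_le _).trans (sum_le_sum fun li _ => (ind_or_le _ _).trans ?_)
    exact add_le_add (ind_exists_le _) (ind_exists_le _)
  have h2 := expect_mono h1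
  simp only [Finset.expect_const univ_nonempty, Finset.expect_sum_comm,
    Finset.expect_add_distrib] at h2
  have h3 := h2.trans (sum_le_sum fun li _ => add_le_add
    (sum_le_sum fun p _ => SampleAux.bound1 c0 hc C hC li k2 p)
    (sum_le_sum fun S _ => SampleAux.bound2 z0 hz Z hZ li k2 S))
  simp only [sum_const, card_univ, nsmul_eq_mul, Fintype.card_fun, Fintype.card_option,
    Fintype.card_prod, Fintype.card_fin, Fintype.card_finset] at h3
  push_cast at h3
  rw [mul_pow, sq] at hnum
  linarith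

end Vale.Agent.P060
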