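import Vale.Agent.P060.Basic

/-!
# H is symmetric and triangle-free (task Tri)
For odd z (both halves) the sum over x : Bool → F of z true (x true) * z false (x false) * uf Y (pts A x)
equals uval of (ev (Y.2 h l) (U (A h) (z h))) (bi-affine, eta = 1), and the same weighted sum of
s + TT w (dl ∘ x) equals s + TT w z (bilinear).  TT is symmetric.  For a triangle X Y W write the
value of the form of Y at the common tensors of X and W in two ways, etc.; adding the three
identities gives (s + s + 1) three times, i.e. 1 = 0.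
-/

open Finset Polynomial
open scoped BigOperators

namespace Vale.Agent.P060

variable {P : Par} {F : Type} [Field F] [Fintype F] [DecidableEq F] [Algebra (ZMod 2) F]

namespace TriAux

omit [Field F] [Algebra (ZMod 2) F] in
theorem sum_bool_fun (a b : F → ZMod 2) :
    ∑ x : Bool → F, a (x true) * b (x false) = (∑ y, a y) * ∑ y, b y := by
  rw [Finset.sum_mul_sum, ← Finset.sum_product', Finset.univ_product_univ]
  exact Fintype.sum_equiv ((Equiv.boolArrowEquivProd F).trans (Equiv.prodComm F F)) _ _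
    fun x => rfl

theorem sum_uf (Y : Vx P F) (A : Fr P F) (w : Bool → F → ZMod 2) (hw : ∀ h, eta (w h) = 1) :
    ∑ x : Bool → F, w true (x true) * w false (x false) * uf Y (pts A x) =
      uval fun h l => ev (Y.2 h l) (U (A h) (w h)) := by
  have h1 : ∑ y, w true y = 1 := hw true
  have h0 : ∑ y, w false y = 1 := hw false
  simp only [uf, uval, pts, ev_U, mul_add, Finset.sum_add_distrib, Finset.mul_sum]
  congr 1
  congr 1
  · rw [Finset.sum_comm]
    refine Finset.sum_congr rfl fun l _ => ?_
    rw [← Finset.mul_sum, ← sum_bool_fun]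
    exact Finset.sum_congr rfl fun x _ => by ring
  · rw [← mul_one (∑ x, w true x * _), ← h0, ← sum_bool_fun]
    exact Finset.sum_congr rfl fun x _ => by ring
  · rw [← one_mul (∑ x, w false x * _), ← h1, ← sum_bool_fun]
    exact Finset.sum_congr rfl fun x _ => by ring

theorem Bf_expand (l : Fin P.r) (w z : F → ZMod 2) :
    Bf P l w z = ∑ y, w y * Bf P l (dl y) z := by
  conv_lhs => rw [← sum_smul_dl w]
  simp only [Bf_sum_left, Bf_smul_left]

theorem sum_TT (s : ZMod 2) (z w : Bool → F → ZMod 2) (hw : ∀ h, eta (w h) = 1) :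
    ∑ x : Bool → F, w true (x true) * w false (x false) * (s + TT P z fun h => dl (x h)) =
      s + TT P z w := by
  have h1 : ∑ y, w true y = 1 := hw true
  have h0 : ∑ y, w false y = 1 := hw false
  simp only [TT, mul_add, Finset.sum_add_distrib, Finset.mul_sum]
  congr 1
  · rw [← Finset.sum_mul, sum_bool_fun, h1, h0, one_mul, one_mul]
  · rw [Finset.sum_comm]
    refine Finset.sum_congr rfl fun l _ => ?_
    rw [Bf_expand l (w true), Bf_comm l (z true) (w false), Bf_expand l (w false), ← sum_bool_fun]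
    exact Finset.sum_congr rfl fun x _ => by rw [Bf_comm l (z true)]; ring

omit [DecidableEq F] in
theorem TT_comm (z w : Bool → F → ZMod 2) : TT P z w = TT P w z :=
  Finset.sum_congr rfl fun _ _ => mul_comm _ _

theorem val (Y : Vx P F) (A : Fr P F) (s : ZMod 2) (z w : Bool → F → ZMod 2)
    (hw : ∀ h, eta (w h) = 1) (h : ∀ x : Bool → F, uf Y (pts A x) = s + TT P z fun h => dl (x h)) :
    (uval fun h l => ev (Y.2 h l) (U (A h) (w h))) = s + TT P z w := by
  rw [← sum_uf Y A w hw, ← sum_TT s z w hw]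
  exact Finset.sum_congr rfl fun x _ => by rw [h x]

end TriAux

theorem H_symm (X Y : Vx P F) (h : H X Y) : H Y X := by
  obtain ⟨z, z', s, h1, h2, h3, h4, h5⟩ := h
  refine ⟨z', z, s + 1, h2, h1, fun h => (h3 h).symm, h5, fun x => ?_⟩
  rw [h4 x, add_assoc s 1 1, zmod2_add_self, add_zero]

theorem H_tri (X Y W : Vx P F) (h1 : H X Y) (h2 : H X W) (h3 : H Y W) : False := by
  obtain ⟨a, a', s1, a1, a2, a3, a4, a5⟩ := h1
  obtain ⟨b, b', s2, b1, b2, b3, b4, b5⟩ := h2
  obtain ⟨c, c', s3, c1, c2, c3, c4, c5⟩ := h3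
  have e1 := TriAux.val Y X.1 s1 a b b1 a4
  have e2 := TriAux.val Y W.1 (s3 + 1) c' b' b2 c5
  have e3 := TriAux.val X Y.1 (s1 + 1) a' c c1 a5
  have e4 := TriAux.val X W.1 (s2 + 1) b' c' c2 b5
  have e5 := TriAux.val W X.1 s2 b a a1 b4
  have e6 := TriAux.val W Y.1 s3 c a' a2 c4
  simp only [b3] at e1
  simp only [c3] at e3
  simp only [a3] at e5
  rw [TriAux.TT_comm b' c'] at e4
  rw [TriAux.TT_comm b a] at e5
  rw [TriAux.TT_comm c a'] at e6
  have f1 := e1.symm.trans e2
  have f2 := e3.symm.trans e4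
  have f3 := e5.symm.trans e6
  have key : ∀ s1 s2 s3 x y z : ZMod 2, s1 + x = s3 + 1 + y → s1 + 1 + z = s2 + 1 + y →
      s2 + x = s3 + z → False := by decide
  exact key _ _ _ _ _ _ f1 f2 f3

end Vale.Agent.P060
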