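import Vale.Agent.P060.Chain
import Vale.Agent.P060.Finger
import Vale.Agent.P060.Sample
import Vale.Agent.P060.Tri
import Vale.Agent.P060.Graph
import Vale.Agent.P060.FinalAux

/-!
# Assembly (task Final)
From chain get P, c.  supersat: for C as in the hypothesis SS of finger (Ω = Vx, M = q^(30 n), Km = sqrt q)
the density μ u = ind ((u false, u true) ∈ C) |Ω|^2 / |C| is Adm, and chain gives SS with q0 = 1/q^(9n)
for large q (2 L < n).  Take F = GaloisField 2 ℓ with ℓ large, T = q^(9n+1), ℓ' = 30 n ℓ, c0 = 2/M,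
z0 = 4 ℓ' / sqrt q, m = q^(12 n), A = 2^a ≥ 4/ε, k2 = m / A, k = 4 k2 ≥ 2 T + 2 k2.
M (1 - q0/4)^T ≤ M exp (-q/4) ≤ 1;  m^2 c0 ≤ 1/2;  z0 ≤ 1/2^(A+1) so 2^m z0^k2 ≤ 1/2^k2;
(m^2+1)^T 2 / 2^k2 < 1.  sample and sample_graph give G.
-/

open Finset Polynomial
open scoped BigOperators

namespace Vale.Agent.P060

theorem FinalAux.par_bounds {P : Par} (hP : P.Ok) : 2 * P.L + 1 ≤ P.n ∧ 2 ≤ P.n := by
  have h1 := hP.hn
  have h2 : P.L = 8 * (P.R + 1) * (3 * P.K + 1) := rfl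
  have h3 : (P.R + 1) * (3 * P.K + 1) ≤ (P.R + 1) * (3 * (P.K + 1)) :=
    Nat.mul_le_mul_left _ (by omega)
  have h4 : (P.R + 1) * (3 * (P.K + 1)) = 3 * ((P.R + 1) * (P.K + 1)) := by ring
  have h5 : 0 < (P.R + 1) * (P.K + 1) := by positivity
  rw [mul_assoc] at h1 h2
  omega

theorem FinalAux.field_graph {P : Par} (hP : P.Ok) (F : Type) [Field F] [Fintype F] [DecidableEq F]
    [Algebra (ZMod 2) F] (c : ℝ) (j A : ℕ) (hq : Fintype.card F = 2 ^ (2 * j))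
    (hch : ∀ μ : Un P F → ℝ, Adm μ → c / (Fintype.card F : ℝ) ^ (8 * P.n + 2 * P.L) ≤
      𝔼 u, 𝔼 u', μ u * μ u' * ind (Conf u u'))
    (hc : 1 ≤ c * j) (hA : 2 * A ≤ j) (h24 : 24 * P.n + 3 ≤ j)
    (hj : (240 * P.n * 2 ^ (A + 1) : ℝ) * j ≤ 2 ^ j) :
    ∃ G : SimpleGraph (Fin (A * Fintype.card F ^ (12 * P.n))), G.indepNum ≤ 2 ∧
      ¬ HasConnMatching G (4 * Fintype.card F ^ (12 * P.n)) := by
  classical
  obtain ⟨hL, hn⟩ := FinalAux.par_bounds hP
  have hjq : j ≤ Fintype.card F := by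
    rw [hq]
    exact Nat.lt_two_pow_self.le.trans (Nat.pow_le_pow_right (by norm_num) (by omega))
  have hqR : (Fintype.card F : ℝ) = 2 ^ (2 * j) := by rw [hq]; push_cast; rfl
  have hsq : √(Fintype.card F : ℝ) = 2 ^ j := by
    rw [hqR, mul_comm, pow_mul, Real.sqrt_sq (by positivity)]
  generalize hqq : Fintype.card F = q at *
  have hq1 : (1 : ℝ) ≤ q := by exact_mod_cast (by omega : 1 ≤ q)
  have hq0 : (0 : ℝ) < q := by linarith
  have hjq' : (j : ℝ) ≤ q := by exact_mod_cast hjq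
  have hc0 : 0 < c := by
    by_contra h
    have : c * j ≤ 0 := mul_nonpos_of_nonpos_of_nonneg (not_lt.1 h) (Nat.cast_nonneg _)
    linarith
  have hcq : 1 / (q : ℝ) ^ (9 * P.n) ≤ c / (q : ℝ) ^ (8 * P.n + 2 * P.L) := by
    rw [div_le_div_iff₀ (by positivity) (by positivity), one_mul]
    have a1 : (q : ℝ) ^ (8 * P.n + 2 * P.L + 1) ≤ (q : ℝ) ^ (9 * P.n) :=
      pow_le_pow_right₀ hq1 (by omega)
    have a2 : 1 ≤ c * q := hc.trans (mul_le_mul_of_nonneg_left hjq' hc0.le)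
    calc (q : ℝ) ^ (8 * P.n + 2 * P.L) ≤ (c * q) * (q : ℝ) ^ (8 * P.n + 2 * P.L) :=
          le_mul_of_one_le_left (by positivity) a2
      _ = c * (q : ℝ) ^ (8 * P.n + 2 * P.L + 1) := by ring
      _ ≤ _ := mul_le_mul_of_nonneg_left a1 hc0.le
  have hpj : (0 : ℝ) < 2 ^ j := by positivity
  have hpA : (1 : ℝ) ≤ 2 ^ (A + 1) := one_le_pow₀ (by norm_num)
  have hnj : (0 : ℝ) ≤ 240 * P.n * j := by positivity
  have h120 : (120 * P.n * (2 * j : ℕ) : ℝ) ≤ q := by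
    have a1 : (2 : ℝ) ^ j ≤ 2 ^ (2 * j) := pow_le_pow_right₀ (by norm_num) (by omega)
    push_cast
    nlinarith
  obtain ⟨Z, C, hZ, hC, hI⟩ := finger (H (P := P) (F := F)) ((q : ℝ) ^ (30 * P.n)) √(q : ℝ)
    (1 / (q : ℝ) ^ (9 * P.n)) (q ^ (9 * P.n + 1)) (2 * j * (30 * P.n)) (by positivity)
    (by rw [div_le_one (by positivity)]; exact one_le_pow₀ hq1) (by positivity) (by positivity)
    (FinalAux.num_T q P.n (2 * j) _ hqR (by push_cast; rfl) h120)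
    (by rw [hqR, ← pow_mul])
    (fun C h1 h2 h3 h4 => FinalAux.supersat _ (fun μ hμ => hcq.trans (hch μ hμ)) C h1
      (by rw [hqq]; exact h2) (by rw [hqq]; exact h3) (by rw [hqq]; exact h4))
  obtain ⟨x, hx⟩ := sample (H (P := P) (F := F)) (q ^ (9 * P.n + 1)) (A * q ^ (12 * P.n))
    (4 * q ^ (12 * P.n)) (q ^ (12 * P.n)) (240 * P.n * j / 2 ^ j) (2 / (q : ℝ) ^ (30 * P.n)) Z C
    (fun l => by
      have := hZ l
      rw [hsq] at this
      rw [div_mul_eq_mul_div, le_div_iff₀ hpj]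
      refine this.trans (le_of_eq ?_)
      push_cast
      ring)
    (fun l => by
      rw [div_mul_eq_mul_div, le_div_iff₀ (by positivity)]
      exact hC l) hI
    (by
      have : q ^ (9 * P.n + 1) ≤ q ^ (12 * P.n) := Nat.pow_le_pow_right (by omega) (by omega)
      omega)
    (FinalAux.num_union q P.n (2 * j) A _ hq hn (by omega) (by omega) (by positivity) (by
      rw [div_le_div_iff₀ hpj (by positivity)]
      linarith))
  exact sample_graph _ H_symm H_tri _ x hx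

theorem main_graph (ε : ℝ) (hε : 0 < ε) (m0 : ℕ) : ∃ m ≥ m0, ∃ G : SimpleGraph (Fin m),
    G.indepNum ≤ 2 ∧ ∃ k : ℕ, (k : ℝ) ≤ ε * m ∧ ¬ HasConnMatching G k := by
  classical
  obtain ⟨P, hP, c, hc, q1, hch⟩ := chain
  obtain ⟨A0, hA0⟩ := exists_nat_ge (4 / ε)
  obtain ⟨c0, hc0⟩ := exists_nat_ge (1 / c)
  obtain ⟨j, hj0, hj⟩ := FinalAux.exists_large (240 * P.n * 2 ^ (A0 + 1 + 1))
    (q1 + m0 + c0 + 2 * (A0 + 1) + (24 * P.n + 3))
  let F := GaloisField 2 (2 * j)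
  let _ : Fintype F := Fintype.ofFinite F
  have hq : Fintype.card F = 2 ^ (2 * j) := by
    rw [← Nat.card_eq_fintype_card]
    exact GaloisField.card 2 (2 * j) (by omega)
  have hjq : j ≤ Fintype.card F := by
    rw [hq]
    exact Nat.lt_two_pow_self.le.trans (Nat.pow_le_pow_right (by norm_num) (by omega))
  have hn := (FinalAux.par_bounds hP).2
  have hcj : 1 ≤ c * j := by
    have a1 : (c0 : ℝ) ≤ j := by exact_mod_cast (by omega : c0 ≤ j)
    rw [div_le_iff₀ hc] at hc0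
    nlinarith
  obtain ⟨G, h1, h2⟩ := FinalAux.field_graph hP F c j (A0 + 1) hq (hch F (by omega)) hcj
    (by omega) (by omega) hj
  refine ⟨_, ?_, G, h1, _, ?_, h2⟩
  · have a1 : Fintype.card F ≤ Fintype.card F ^ (12 * P.n) := Nat.le_self_pow (by omega) _
    have a2 : Fintype.card F ^ (12 * P.n) ≤ (A0 + 1) * Fintype.card F ^ (12 * P.n) :=
      Nat.le_mul_of_pos_left _ (by omega)
    omega
  · rw [div_le_iff₀ hε] at hA0
    push_cast
    have a1 : (0 : ℝ) ≤ (Fintype.card F : ℝ) ^ (12 * P.n) := by positivity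
    nlinarith [mul_nonneg hε.le a1]

theorem strong (ε : ℝ) (hε : 0 < ε) (m0 : ℕ) : ∃ m ≥ m0, ∃ G : SimpleGraph (Fin m),
    G.indepNum ≤ 2 ∧ (∀ s, HasConnMatching G s → (s : ℝ) < ε * m) ∧
      (∀ t, HasKMinor G t → (t : ℝ) ≤ (1 / 3 + ε) * m) ∧ ∀ t, G.Colorable t → m ≤ 2 * t := by
  obtain ⟨m, hm, G, hα, k, hk, hG⟩ := main_graph (ε / 2) (by positivity) m0
  have hm0 : (0 : ℝ) ≤ ε * m := by positivity
  refine ⟨m, hm, G, hα, fun s hs => ?_, fun t ht => ?_, fun t ht => color_ge G t hα ht⟩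
  · have : s < k := by
      by_contra h
      exact hG (connMatching_mono (not_lt.1 h) hs)
    have : (s : ℝ) < k := by exact_mod_cast this
    nlinarith
  · have : ((3 * t : ℕ) : ℝ) ≤ ((m + 4 * k : ℕ) : ℝ) := by exact_mod_cast minor_le G k t hG ht
    push_cast at this
    nlinarith

theorem hadwiger_false :
    (¬ ∀ (m : ℕ) (G : SimpleGraph (Fin m)) (t : ℕ), 0 < m → 1 ≤ t →
      ¬ HasKMinor G (t + 1) → G.Colorable t) ∧
    ∀ ε : ℝ, 0 < ε → ∀ m0 : ℕ, ∃ m ≥ m0, ∃ G : SimpleGraph (Fin m), G.indepNum ≤ 2 ∧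
      (∀ s, HasConnMatching G s → (s : ℝ) < ε * m) ∧
      (∀ t, HasKMinor G t → (t : ℝ) ≤ (1 / 3 + ε) * m) ∧
      ∀ t, G.Colorable t → m ≤ 2 * t := by
  refine ⟨fun h => ?_, strong⟩
  obtain ⟨m, hm, G, -, -, hmin, hcol⟩ := strong (1 / 12) (by norm_num) 12
  have h1 := hcol _ (h m G ((m - 1) / 2) (by omega) (by omega) fun ht => by
    have h2 := hmin _ ht
    have h3 : m ≤ 2 * ((m - 1) / 2 + 1) := by omega
    have h4 : (m : ℝ) ≤ 2 * (((m - 1) / 2 + 1 : ℕ) : ℝ) := by exact_mod_cast h3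
    have h5 : (12 : ℝ) ≤ m := by exact_mod_cast hm
    linarith)
  omega

end Vale.Agent.P060
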