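import Vale.Agent.P060.Basic

/-!
# Forward or backward hits (task Hit)
If each of 2 t indices is forward-hit or backward-hit, then some set A of exactly t indices is
entirely forward-hit or entirely backward-hit; there are at most 4^t sets A.  For fixed A, prove by
induction on n (Fin.snoc, summing the last coordinate first) that the ν-weight of y : Fin n → Y whose
indices in A are forward-hit is at most W^(n - |A|) σ^|A|.  The backward case follows with Fin.rev.
-/

open Finset Polynomial
open scoped BigOperators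

namespace Vale.Agent.P060

namespace HitAux

variable {Y : Type} [Fintype Y] [DecidableEq Y]

theorem fwd (ν : Y → ℝ) (hν : ∀ y, 0 ≤ ν y) (W σ : ℝ) (hW : ∑ y, ν y ≤ W) (N : ℕ)
    (Hit : Y → Finset Y → Prop) (hσ : ∀ T : Finset Y, T.card ≤ N → ∑ y, ν y * ind (Hit y T) ≤ σ) :
    ∀ (n : ℕ), n ≤ N → ∀ (A : Fin n → Prop) [DecidablePred A],
      ∑ y : Fin n → Y, ∏ s, (ν (y s) *
        if A s then ind (Hit (y s) ((univ.filter fun s' => s' < s).image y)) else 1) ≤
        ∏ s, if A s then σ else W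
  | 0, _, A, _ => by simp
  | n + 1, hn, A, _ => by
    have ih := fwd ν hν W σ hW N Hit hσ n (by omega) fun s => A s.castSucc
    have hW0 : 0 ≤ W := (sum_nonneg fun y _ => hν y).trans hW
    have hσ0 : 0 ≤ σ :=
      (sum_nonneg fun y _ => mul_nonneg (hν y) (ind_nonneg _)).trans (hσ ∅ (by simp))
    rw [← (Fin.snocEquiv fun _ : Fin (n + 1) => Y).sum_comp, Fintype.sum_prod_type, sum_comm,
      Fin.prod_univ_castSucc]
    have e1 : ∀ (a : Y) (y : Fin n → Y) (s : Fin n),
        (univ.filter fun s' => s' < s.castSucc).image (Fin.snoc (α := fun _ => Y) y a) =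
          (univ.filter fun s' => s' < s).image y := by
      intro a y s
      ext z
      simp only [mem_image, mem_filter, mem_univ, true_and]
      constructor
      · rintro ⟨s', h, rfl⟩
        induction s' using Fin.lastCases with
        | last => exact absurd h (not_lt.2 (Fin.le_last _))
        | cast s' => exact ⟨s', by simpa using h, by simp⟩
      · rintro ⟨s', h, rfl⟩
        exact ⟨s'.castSucc, by simpa using h, by simp⟩
    have e2 : ∀ (a : Y) (y : Fin n → Y),
        (univ.filter fun s' => s' < Fin.last n).image (Fin.snoc (α := fun _ => Y) y a) =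
          univ.image y := by
      intro a y
      ext z
      simp only [mem_image, mem_filter, mem_univ, true_and]
      constructor
      · rintro ⟨s', h, rfl⟩
        induction s' using Fin.lastCases with
        | last => exact absurd h (lt_irrefl _)
        | cast s' => exact ⟨s', by simp⟩
      · rintro ⟨s', rfl⟩
        exact ⟨s'.castSucc, Fin.castSucc_lt_last _, by simp⟩
    refine le_trans (sum_le_sum fun y _ => ?_) ((le_of_eq (sum_mul _ _ _).symm).trans
      (mul_le_mul_of_nonneg_right ih (by split_ifs <;> assumption)))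
    simp only [Fin.prod_univ_castSucc, Fin.snocEquiv, Equiv.coe_fn_mk, Fin.snoc_castSucc,
      Fin.snoc_last, e1, e2]
    rw [← mul_sum]
    refine mul_le_mul_of_nonneg_left ?_ (prod_nonneg fun s _ => mul_nonneg (hν _) (by
      split_ifs; exacts [ind_nonneg _, zero_le_one]))
    split_ifs
    · exact hσ _ (card_image_le.trans (by simp; omega))
    · simpa using hW

theorem bwd (ν : Y → ℝ) (hν : ∀ y, 0 ≤ ν y) (W σ : ℝ) (hW : ∑ y, ν y ≤ W) (N : ℕ)
    (Hit : Y → Finset Y → Prop) (hσ : ∀ T : Finset Y, T.card ≤ N → ∑ y, ν y * ind (Hit y T) ≤ σ) :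
    ∀ (n : ℕ), n ≤ N → ∀ (A : Fin n → Prop) [DecidablePred A],
      ∑ y : Fin n → Y, ∏ s, (ν (y s) *
        if A s then ind (Hit (y s) ((univ.filter fun s' => s < s').image y)) else 1) ≤
        ∏ s, if A s then σ else W
  | 0, _, A, _ => by simp
  | n + 1, hn, A, _ => by
    have ih := bwd ν hν W σ hW N Hit hσ n (by omega) fun s => A s.succ
    have hW0 : 0 ≤ W := (sum_nonneg fun y _ => hν y).trans hW
    have hσ0 : 0 ≤ σ :=
      (sum_nonneg fun y _ => mul_nonneg (hν y) (ind_nonneg _)).trans (hσ ∅ (by simp))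
    rw [← (Fin.consEquiv fun _ : Fin (n + 1) => Y).sum_comp, Fintype.sum_prod_type, sum_comm,
      Fin.prod_univ_succ, mul_comm]
    have e1 : ∀ (a : Y) (y : Fin n → Y) (s : Fin n),
        (univ.filter fun s' => s.succ < s').image (Fin.cons (α := fun _ => Y) a y) =
          (univ.filter fun s' => s < s').image y := by
      intro a y s
      ext z
      simp only [mem_image, mem_filter, mem_univ, true_and]
      constructor
      · rintro ⟨s', h, rfl⟩
        induction s' using Fin.cases with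
        | zero => exact absurd h (not_lt.2 (Fin.zero_le _))
        | succ s' => exact ⟨s', by simpa using h, by simp⟩
      · rintro ⟨s', h, rfl⟩
        exact ⟨s'.succ, by simpa using h, by simp⟩
    have e2 : ∀ (a : Y) (y : Fin n → Y),
        (univ.filter fun s' => (0 : Fin (n + 1)) < s').image (Fin.cons (α := fun _ => Y) a y) =
          univ.image y := by
      intro a y
      ext z
      simp only [mem_image, mem_filter, mem_univ, true_and]
      constructor
      · rintro ⟨s', h, rfl⟩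
        induction s' using Fin.cases with
        | zero => exact absurd h (lt_irrefl _)
        | succ s' => exact ⟨s', by simp⟩
      · rintro ⟨s', rfl⟩
        exact ⟨s'.succ, Fin.succ_pos _, by simp⟩
    refine le_trans (sum_le_sum fun y _ => ?_) ((le_of_eq (sum_mul _ _ _).symm).trans
      (mul_le_mul_of_nonneg_right ih (by split_ifs <;> assumption)))
    simp only [Fin.prod_univ_succ, Fin.consEquiv, Equiv.coe_fn_mk, Fin.cons_succ,
      Fin.cons_zero, e1, e2]
    rw [← sum_mul, mul_comm]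
    refine mul_le_mul_of_nonneg_left ?_ (prod_nonneg fun s _ => mul_nonneg (hν _) (by
      split_ifs; exacts [ind_nonneg _, zero_le_one]))
    split_ifs
    · exact hσ _ (card_image_le.trans (by simp; omega))
    · simpa using hW

theorem split {t : ℕ} (P Q : Fin (2 * t) → Prop) : ind (∀ s, P s ∨ Q s) ≤
    ∑ A ∈ powersetCard t (univ : Finset (Fin (2 * t))),
      ((∏ s, if s ∈ A then ind (P s) else 1) + ∏ s, if s ∈ A then ind (Q s) else 1) := by
  classical
  have nn : ∀ (R : Fin (2 * t) → Prop) (A : Finset (Fin (2 * t))),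
      0 ≤ ∏ s, if s ∈ A then ind (R s) else 1 := fun R A =>
    prod_nonneg fun s _ => by split_ifs; exacts [ind_nonneg _, zero_le_one]
  by_cases h : ∀ s, P s ∨ Q s
  swap
  · rw [ind_neg h]; exact sum_nonneg fun A _ => add_nonneg (nn _ _) (nn _ _)
  rw [ind_pos h]
  have one : ∀ (R : Fin (2 * t) → Prop) (A : Finset (Fin (2 * t))), A ⊆ univ.filter R →
      (∏ s, if s ∈ A then ind (R s) else 1) = 1 := fun R A hA =>
    prod_eq_one fun s _ => by
      split_ifs with hs
      · exact ind_pos (mem_filter.1 (hA hs)).2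
      · rfl
  have hc : t ≤ (univ.filter P).card ∨ t ≤ (univ.filter Q).card := by
    have : (univ : Finset (Fin (2 * t))) ⊆ univ.filter P ∪ univ.filter Q := fun s _ => by
      simpa using h s
    have := (card_le_card this).trans (card_union_le _ _)
    rw [card_univ, Fintype.card_fin] at this
    omega
  rcases hc with hc | hc
  · obtain ⟨A, hA, hA'⟩ := exists_subset_card_eq hc
    refine le_trans ?_ (single_le_sum (fun A _ => add_nonneg (nn P A) (nn Q A))
      (mem_powersetCard.2 ⟨subset_univ A, hA'⟩))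
    rw [one P A hA]; linarith [nn Q A]
  · obtain ⟨A, hA, hA'⟩ := exists_subset_card_eq hc
    refine le_trans ?_ (single_le_sum (fun A _ => add_nonneg (nn P A) (nn Q A))
      (mem_powersetCard.2 ⟨subset_univ A, hA'⟩))
    rw [one Q A hA]; linarith [nn P A]

theorem char_sum {Z ι : Type} [AddCommGroup Z] (χ : Z → ℝ) (h0 : χ 0 = 1)
    (h : ∀ ζ ζ', χ (ζ + ζ') = χ ζ * χ ζ') (s : Finset ι) (ζ : ι → Z) :
    ∏ i ∈ s, χ (ζ i) = χ (∑ i ∈ s, ζ i) := by
  classical
  induction s using Finset.induction_on with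
  | empty => simp [h0]
  | insert a s ha ih => rw [prod_insert ha, sum_insert ha, h, ih]

end HitAux

theorem hit_bound {Y : Type} [Fintype Y] [DecidableEq Y] (ν : Y → ℝ) (hν : ∀ y, 0 ≤ ν y)
    (W σ : ℝ) (hW : ∑ y, ν y ≤ W) (t : ℕ) (Hit : Y → Finset Y → Prop)
    (hσ : ∀ T : Finset Y, T.card ≤ 2 * t → ∑ y, ν y * ind (Hit y T) ≤ σ) :
    ∑ y : Fin (2 * t) → Y, (∏ s, ν (y s)) *
      ind (∀ s, Hit (y s) ((univ.filter fun s' => s' < s).image y) ∨
        Hit (y s) ((univ.filter fun s' => s < s').image y)) ≤ 2 * 4 ^ t * (W * σ) ^ t := by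
  have hW0 : 0 ≤ W := (sum_nonneg fun y _ => hν y).trans hW
  have hσ0 : 0 ≤ σ :=
    (sum_nonneg fun y _ => mul_nonneg (hν y) (ind_nonneg _)).trans (hσ ∅ (by simp))
  refine (sum_le_sum fun y _ => mul_le_mul_of_nonneg_left (HitAux.split _ _)
    (prod_nonneg fun s _ => hν _)).trans ?_
  simp only [mul_sum]
  rw [sum_comm]
  refine (sum_le_card_nsmul _ _ (2 * (W * σ) ^ t) fun A hA => ?_).trans ?_
  · have e : (∏ s, if s ∈ A then σ else W) = (W * σ) ^ t := by
      have hA' := (mem_powersetCard.1 hA).2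
      rw [prod_ite, prod_const, prod_const, filter_mem_eq_inter, univ_inter, filter_not,
        filter_mem_eq_inter, univ_inter, card_univ_diff, Fintype.card_fin, hA',
        show 2 * t - t = t by omega, mul_pow, mul_comm]
    have h1 := HitAux.fwd ν hν W σ hW _ Hit hσ _ le_rfl fun s => s ∈ A
    have h2 := HitAux.bwd ν hν W σ hW _ Hit hσ _ le_rfl fun s => s ∈ A
    simp only [prod_mul_distrib, e] at h1 h2
    simp only [mul_add, sum_add_distrib]
    linarith
  · rw [card_powersetCard, card_univ, Fintype.card_fin, nsmul_eq_mul]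
    have : ((2 * t).choose t : ℝ) ≤ 4 ^ t := by
      have := Nat.choose_le_two_pow (2 * t) t
      rw [pow_mul] at this
      exact_mod_cast this
    have := mul_le_mul_of_nonneg_right this (by positivity : 0 ≤ 2 * (W * σ) ^ t)
    linarith

/-- Abstract moment bound for character sums (used in the gradient step). -/
theorem grad_mom {Y Z Φ : Type} [Fintype Y] [DecidableEq Y] [Fintype Z] [AddCommGroup Z]
    [Fintype Φ] (χ : Φ → Z → ℝ) (hχ0 : ∀ f, χ f 0 = 1)
    (hχ : ∀ f ζ ζ', χ f (ζ + ζ') = χ f ζ * χ f ζ') (horth : ∀ ζ, 𝔼 f, χ f ζ = ind (ζ = 0))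
    (ν : Y → ℝ) (hν : ∀ y, 0 ≤ ν y) (W σ Λ : ℝ) (hW : ∑ y, ν y ≤ W) (t : ℕ)
    (Hit : Y → Finset Y → Prop)
    (hσ : ∀ T : Finset Y, T.card ≤ 2 * t → ∑ y, ν y * ind (Hit y T) ≤ σ)
    (co : Y → Z → ℝ) (hco : ∀ y, ν y ≠ 0 → ∑ ζ, |co y ζ| ≤ Λ)
    (hrel : ∀ (y : Fin (2 * t) → Y) (ζ : Fin (2 * t) → Z), (∀ s, ν (y s) ≠ 0) →
      (∀ s, co (y s) (ζ s) ≠ 0) → ∑ s, ζ s = 0 →
      ∀ s, Hit (y s) ((univ.filter fun s' => s' < s).image y) ∨
        Hit (y s) ((univ.filter fun s' => s < s').image y)) :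
    𝔼 f, (∑ y, ν y * ∑ ζ, co y ζ * χ f ζ) ^ (2 * t) ≤ Λ ^ (2 * t) * (2 * 4 ^ t * (W * σ) ^ t) := by
  classical
  have hΛ : 0 ≤ Λ ^ (2 * t) := by rw [pow_mul]; positivity
  have e : ∀ f, (∑ y, ν y * ∑ ζ, co y ζ * χ f ζ) ^ (2 * t) =
      ∑ y : Fin (2 * t) → Y, (∏ s, ν (y s)) *
        ∑ ζ : Fin (2 * t) → Z, (∏ s, co (y s) (ζ s)) * χ f (∑ s, ζ s) := by
    intro f
    rw [← Fin.prod_const, prod_univ_sum, Fintype.piFinset_univ]
    refine sum_congr rfl fun y _ => ?_
    rw [prod_mul_distrib, prod_univ_sum, Fintype.piFinset_univ]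
    congr 1
    refine sum_congr rfl fun ζ _ => ?_
    rw [prod_mul_distrib, HitAux.char_sum (χ f) (hχ0 f) (hχ f)]
  simp only [e, expect_sum_comm, ← mul_expect, horth]
  refine le_trans ?_ (mul_le_mul_of_nonneg_left (hit_bound ν hν W σ hW t Hit hσ) hΛ)
  rw [mul_sum]
  refine sum_le_sum fun y _ => ?_
  by_cases hy : ∀ s, ν (y s) ≠ 0
  swap
  · push Not at hy
    obtain ⟨s, hs⟩ := hy
    rw [prod_eq_zero (mem_univ s) hs]; simp
  rw [mul_left_comm]
  refine mul_le_mul_of_nonneg_left ?_ (prod_nonneg fun s _ => hν _)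
  by_cases hh : ∀ s, Hit (y s) ((univ.filter fun s' => s' < s).image y) ∨
        Hit (y s) ((univ.filter fun s' => s < s').image y)
  · rw [ind_pos hh, mul_one]
    calc ∑ ζ : Fin (2 * t) → Z, (∏ s, co (y s) (ζ s)) * ind (∑ s, ζ s = 0)
        ≤ ∑ ζ : Fin (2 * t) → Z, ∏ s, |co (y s) (ζ s)| := sum_le_sum fun ζ _ => by
          rw [← abs_prod]
          refine (le_abs_self _).trans ?_
          rw [abs_mul]
          exact mul_le_of_le_one_right (abs_nonneg _) (abs_ind_le_one _)
      _ = ∏ s, ∑ ζ, |co (y s) ζ| := by rw [prod_univ_sum, Fintype.piFinset_univ]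
      _ ≤ ∏ _s : Fin (2 * t), Λ :=
          prod_le_prod (fun s _ => sum_nonneg fun _ _ => abs_nonneg _) fun s _ => hco _ (hy s)
      _ = _ := Fin.prod_const _ _
  · rw [ind_neg hh, mul_zero]
    refine le_of_eq (sum_eq_zero fun ζ _ => ?_)
    by_cases h1 : ∑ s, ζ s = 0
    · by_cases h2 : ∀ s, co (y s) (ζ s) ≠ 0
      · exact absurd (hrel y ζ hy h2 h1) hh
      · push Not at h2
        obtain ⟨s, hs⟩ := h2
        rw [prod_eq_zero (mem_univ s) hs, zero_mul]
    · rw [ind_neg h1, mul_zero]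

end Vale.Agent.P060
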