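import Vale.Agent.P060.Basic

/-!
# Tensors killed by key-vanishing functionals lie in the key span (task KO)
ζ = U (c 0 h) (Z 0) + U (c 1 h) (Z 1) (mem_Esp_iff).  Fix i, let f = f0 i, x j = ω (i, j) h,
n = (X - x 0)(X - x 1), Z i (p) = sum_x Z i x • p.eval x (additive, Z (p^2) = Z (p)^2).
e (i,j) : HV realises (f (X - x (!j)) / (its value at x j), 0) (IsF0, Typ); it takes value 1 at the key
(i,j) and 0 at the other three keys.  (a) every p of degree ≤ K - 2 gives a key-vanishing g with
pl (c i h) g = n p (Nice1, then correct at the keys of the other vertex with the e (!i, j)).  With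
g 0 realising (f n, 0): Z i (f n^3 Q) = 0 for deg Q ≤ 2K - 4.  (b) For deg p ≤ k + 3,
Z i (f n p)^4 = Z i (f n^3 (f^3 n p^4)) = 0.  (c) with E = pl (c i h) (e (i,j)), E^2 - E is f n times a
polynomial of degree ≤ k, so ε (i,j) = Z i (E) satisfies ε^2 = ε.  Put ζ' = ζ + sum ε (i,j) • tau (key (i,j)).
(d) evT g ζ' = 0 for all g: write each g φ as key-vanishing plus a combination of the e; the term with
three key-vanishing factors vanishes by hv; a term with a factor e (i,j) is Z' i (E Q), deg Q ≤ 2K;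
write Q = Q (x j) + (X - x j)(Q1 + n^2 Q2), deg Q1 ≤ 3, and use (a), (b), (c).  evT_nondeg finishes.
-/

open Finset Polynomial
open scoped BigOperators

namespace Vale.Agent.P060

variable {P : Par} {F : Type} [Field F] [Fintype F] [DecidableEq F] [Algebra (ZMod 2) F]

namespace KOAux

/-- the functional on polynomials given by a chain -/
noncomputable def lam (z : F → ZMod 2) : F[X] →ₗ[F] F where
  toFun p := ∑ y, z y • p.eval y
  map_add' p q := by simp [Finset.sum_add_distrib]
  map_smul' c p := by simp [Finset.mul_sum]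

omit [DecidableEq F] in
theorem lam_apply (z : F → ZMod 2) (p : F[X]) : lam z p = ∑ y, z y • p.eval y := rfl

omit [DecidableEq F] in
theorem lam_sq (z : F → ZMod 2) (p : F[X]) : lam z (p ^ 2) = lam z p ^ 2 := by
  have : CharP F 2 := charP_two
  rw [lam_apply, lam_apply, sum_pow_char 2]
  refine Finset.sum_congr rfl fun y _ => ?_
  rw [eval_pow, _root_.smul_pow, pow_two (z y), zmod2_mul_self]

/-- `pl` as a linear map -/
noncomputable def plL (α : Cur P F) : HV P F →ₗ[F] F[X] where
  toFun := pl α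
  map_add' := pl_add α
  map_smul' c g := by rw [pl_smul, RingHom.id_apply, smul_eq_C_mul]

/-- the trilinear form -/
noncomputable def T3 (α : Bool → Cur P F) (Z : Bool → F → ZMod 2) (a b c : HV P F) : F :=
  ∑ i, lam (Z i) (pl (α i) a * pl (α i) b * pl (α i) c)

omit [DecidableEq F] in
theorem evT_eq (α : Bool → Cur P F) (Z : Bool → F → ZMod 2) (g : Fin 3 → HV P F) :
    evT g (U (α false) (Z false) + U (α true) (Z true)) = T3 α Z (g 0) (g 1) (g 2) := by
  rw [evT_add, evT_U, evT_U, T3, Fintype.sum_bool, add_comm, Fin.prod_univ_three,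
    Fin.prod_univ_three]
  rfl

/-- key-vanishing -/
def KV (α : Bool → Cur P F) (x : Bool × Bool → F) (g : HV P F) : Prop :=
  ∀ s : Bool × Bool, (pl (α s.1) g).eval (x s) = 0

/-- the node polynomial -/
noncomputable def nn (x : Bool × Bool → F) (i : Bool) : F[X] :=
  (X - C (x (i, false))) * (X - C (x (i, true)))

omit [Fintype F] [DecidableEq F] [Algebra (ZMod 2) F] in
theorem nn_monic (x : Bool × Bool → F) (i : Bool) : (nn x i).Monic :=
  (monic_X_sub_C _).mul (monic_X_sub_C _)

omit [Fintype F] [DecidableEq F] [Algebra (ZMod 2) F] in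
theorem nn_deg (x : Bool × Bool → F) (i : Bool) : (nn x i).natDegree = 2 := by
  rw [nn, (monic_X_sub_C _).natDegree_mul (monic_X_sub_C _), natDegree_X_sub_C, natDegree_X_sub_C]

omit [Fintype F] [DecidableEq F] [Algebra (ZMod 2) F] in
theorem nn_eq (x : Bool × Bool → F) (i j : Bool) :
    nn x i = (X - C (x (i, !j))) * (X - C (x (i, j))) := by
  cases j
  · exact mul_comm _ _
  · rfl

omit [Fintype F] [DecidableEq F] [Algebra (ZMod 2) F] in
theorem nn_eval (x : Bool × Bool → F) (i j : Bool) : (nn x i).eval (x (i, j)) = 0 := by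
  rw [nn_eq x i j]; simp

variable {α : Bool → Cur P F} {x : Bool × Bool → F} {f : Bool → F[X]}

omit [Fintype F] [DecidableEq F] [Algebra (ZMod 2) F] in
theorem exists_e (hf : ∀ i, IsF0 α i (f i)) (hx : ∀ i, x (i, false) ≠ x (i, true))
    (hfx : ∀ i j, (f i).eval (x (i, j)) ≠ 0) :
    ∃ (e : Bool × Bool → HV P F) (u : Bool × Bool → F),
      (∀ s, pl (α s.1) (e s) = f s.1 * (C (u s) * (X - C (x (s.1, !s.2))))) ∧
      (∀ s, pl (α !s.1) (e s) = 0) ∧
      ∀ s t, (pl (α t.1) (e s)).eval (x t) = if s = t then 1 else 0 := by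
  let u : Bool × Bool → F := fun s => ((f s.1).eval (x s) * (x s - x (s.1, !s.2)))⁻¹
  choose e he1 he2 using fun s : Bool × Bool => (hf s.1).2.2 (C (u s) * (X - C (x (s.1, !s.2))))
    ((natDegree_C_mul_le _ _).trans (by rw [natDegree_X_sub_C]; norm_num))
  refine ⟨e, u, he1, he2, ?_⟩
  rintro ⟨i, j⟩ ⟨i', j'⟩
  by_cases hi : i = i'
  · subst hi
    have h1 := he1 (i, j)
    simp only at h1 ⊢
    rw [h1]
    by_cases hj : j = j'
    · subst hj
      have h2 : x (i, j) - x (i, !j) ≠ 0 := by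
        cases j
        · exact sub_ne_zero.2 (hx i)
        · exact sub_ne_zero.2 (hx i).symm
      have h3 := hfx i j
      simp only [eval_mul, eval_C, eval_sub, eval_X, u, if_true]
      field_simp
    · have : j' = !j := by cases j <;> cases j' <;> simp_all
      subst this
      simp
  · have : i' = !i := by cases i <;> cases i' <;> simp_all
    subst this
    have h1 := he2 (i, j)
    simp only at h1 ⊢
    rw [h1]
    simp

omit [Fintype F] [DecidableEq F] [Algebra (ZMod 2) F] in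
theorem exists_kv (hN : ∀ i, Nice1 (α i)) {e : Bool × Bool → HV P F}
    (he2 : ∀ s, pl (α !s.1) (e s) = 0)
    (he3 : ∀ s t, (pl (α t.1) (e s)).eval (x t) = if s = t then 1 else 0) (hK : 2 ≤ P.K)
    (i : Bool) (p : F[X]) (hp : p.natDegree ≤ P.K - 2) :
    ∃ g, KV α x g ∧ pl (α i) g = nn x i * p := by
  obtain ⟨g, hg⟩ := hN i (nn x i * p) (natDegree_mul_le.trans (by rw [nn_deg]; omega))
  have h0 : ∀ j, pl (α i) (e (!i, j)) = 0 := fun j => by simpa using he2 (!i, j)
  have h1 : ∀ i', pl (α i') (g - ∑ j, (pl (α !i) g).eval (x (!i, j)) • e (!i, j)) =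
      pl (α i') g - ∑ j, (pl (α !i) g).eval (x (!i, j)) • pl (α i') (e (!i, j)) := by
    intro i'
    change plL (α i') _ = _
    simp only [map_sub, map_sum, map_smul]
    rfl
  refine ⟨g - ∑ j, (pl (α !i) g).eval (x (!i, j)) • e (!i, j), ?_, ?_⟩
  · rintro ⟨i', j'⟩
    rw [h1]
    by_cases hi : i' = i
    · subst hi
      simp [h0, hg, nn_eval]
    · have : i' = !i := by cases i <;> cases i' <;> simp_all
      subst this
      have h2 := fun j => he3 (!i, j) (!i, j')
      simp only at h2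
      simp only [eval_sub, eval_finsetSum, eval_smul, h2]
      simp
  · rw [h1]
    simp [h0, hg]

theorem lam_fn (hP : P.Ok) (hN : ∀ i, Nice1 (α i)) (hf : ∀ i, IsF0 α i (f i))
    {e : Bool × Bool → HV P F} (he2 : ∀ s, pl (α !s.1) (e s) = 0)
    (he3 : ∀ s t, (pl (α t.1) (e s)).eval (x t) = if s = t then 1 else 0)
    {Z : Bool → F → ZMod 2} (hv : ∀ a b c, KV α x a → KV α x b → KV α x c → T3 α Z a b c = 0)
    (i : Bool) (Q : F[X]) (hQ : Q.natDegree ≤ 2 * P.K) : lam (Z i) (f i * nn x i * Q) = 0 := by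
  have hK := hP.K_ge
  obtain ⟨g0, hg0, hg0'⟩ := (hf i).2.2 (nn x i) (nn_deg x i).le
  have hkv0 : KV α x g0 := by
    rintro ⟨i', j⟩
    by_cases hi : i' = i
    · subst hi
      simp [hg0, nn_eval]
    · have : i' = !i := by cases i <;> cases i' <;> simp_all
      subst this
      simp [hg0']
  have ha : ∀ Q : F[X], Q.natDegree ≤ 2 * P.K - 4 → lam (Z i) (f i * nn x i ^ 3 * Q) = 0 := by
    intro Q hQ
    rw [Q.as_sum_range_C_mul_X_pow, Finset.mul_sum, map_sum]
    refine Finset.sum_eq_zero fun m hm => ?_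
    have hm' := Finset.mem_range.1 hm
    obtain ⟨g1, hk1, hg1⟩ := exists_kv hN he2 he3 (by omega) i
      (C (Q.coeff m) * X ^ (m / 2)) ((natDegree_C_mul_X_pow_le _ _).trans (by omega))
    obtain ⟨g2, hk2, hg2⟩ := exists_kv hN he2 he3 (by omega) i
      (X ^ (m - m / 2)) (natDegree_X_pow_le _ |>.trans (by omega))
    have := hv g0 g1 g2 hkv0 hk1 hk2
    have h3 : T3 α Z g0 g1 g2 = lam (Z i) (pl (α i) g0 * pl (α i) g1 * pl (α i) g2) := by
      rw [T3, Fintype.sum_bool]
      cases i
      · simp only [Bool.not_false] at hg0'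
        simp [hg0']
      · simp only [Bool.not_true] at hg0'
        simp [hg0']
    rw [h3, hg0, hg1, hg2] at this
    have h4 : (X : F[X]) ^ m = X ^ (m / 2) * X ^ (m - m / 2) := by
      rw [← pow_add, show m / 2 + (m - m / 2) = m by omega]
    rw [← this, h4]
    refine congrArg _ ?_
    ring
  have hb : ∀ p : F[X], p.natDegree ≤ 3 → lam (Z i) (f i * nn x i * p) = 0 := by
    intro p hp
    have h1 : lam (Z i) (f i * nn x i * p) ^ 4 = 0 := by
      rw [show 4 = 2 * 2 from rfl, pow_mul, ← lam_sq, ← lam_sq,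
        show ((f i * nn x i * p) ^ 2) ^ 2 = f i * nn x i ^ 3 * (f i ^ 3 * nn x i * p ^ 4) by ring]
      refine ha _ ?_
      have h2 := (hf i).2.1
      have h3 := natDegree_mul_le (p := f i ^ 3 * nn x i) (q := p ^ 4)
      have h4 := natDegree_mul_le (p := f i ^ 3) (q := nn x i)
      have h5 := natDegree_pow_le (p := f i) (n := 3)
      have h6 := natDegree_pow_le (p := p) (n := 4)
      have h7 := nn_deg x i
      omega
    exact pow_eq_zero_iff (by norm_num) |>.1 h1
  have hm : (nn x i ^ 2).Monic := (nn_monic x i).pow 2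
  have hd : (nn x i ^ 2).natDegree = 4 := by rw [(nn_monic x i).natDegree_pow, nn_deg]
  rw [← modByMonic_add_div Q (nn x i ^ 2), mul_add, map_add, hb,
    show f i * nn x i * (nn x i ^ 2 * (Q /ₘ nn x i ^ 2)) =
      f i * nn x i ^ 3 * (Q /ₘ nn x i ^ 2) by ring, ha, add_zero]
  · rw [natDegree_divByMonic _ hm, hd]; omega
  · have := natDegree_modByMonic_lt Q hm (by intro h; rw [h] at hd; simp at hd)
    omega

theorem lam_eQ (hP : P.Ok) (hN : ∀ i, Nice1 (α i)) (hf : ∀ i, IsF0 α i (f i))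
    {e : Bool × Bool → HV P F} {u : Bool × Bool → F}
    (he1 : ∀ s, pl (α s.1) (e s) = f s.1 * (C (u s) * (X - C (x (s.1, !s.2)))))
    (he2 : ∀ s, pl (α !s.1) (e s) = 0)
    (he3 : ∀ s t, (pl (α t.1) (e s)).eval (x t) = if s = t then 1 else 0)
    {Z : Bool → F → ZMod 2} (hv : ∀ a b c, KV α x a → KV α x b → KV α x c → T3 α Z a b c = 0)
    (s : Bool × Bool) (Q : F[X]) (hQ : Q.natDegree ≤ 2 * P.K) :
    lam (Z s.1) (pl (α s.1) (e s) * Q) = Q.eval (x s) * lam (Z s.1) (pl (α s.1) (e s)) := by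
  have h1 : Q = C (Q.eval (x s)) + (X - C (x s)) * (Q /ₘ (X - C (x s))) := by
    rw [← modByMonic_X_sub_C_eq_C_eval, modByMonic_add_div]
  have h2 := lam_fn hP hN hf he2 he3 hv s.1 (Q /ₘ (X - C (x s)))
    (by rw [natDegree_divByMonic _ (monic_X_sub_C _)]; omega)
  conv_lhs => rw [h1, mul_add, map_add, mul_comm _ (C _), ← smul_eq_C_mul, map_smul, smul_eq_mul]
  rw [add_eq_left, he1, show f s.1 * (C (u s) * (X - C (x (s.1, !s.2)))) *
    ((X - C (x s)) * (Q /ₘ (X - C (x s)))) =
      u s • (f s.1 * nn x s.1 * (Q /ₘ (X - C (x s)))) by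
        rw [nn_eq x s.1 s.2, smul_eq_C_mul]; ring, map_smul, h2, smul_zero]

theorem T3_zero (hP : P.Ok) (hN : ∀ i, Nice1 (α i)) (hf : ∀ i, IsF0 α i (f i))
    {e : Bool × Bool → HV P F} {u : Bool × Bool → F}
    (he1 : ∀ s, pl (α s.1) (e s) = f s.1 * (C (u s) * (X - C (x (s.1, !s.2)))))
    (he2 : ∀ s, pl (α !s.1) (e s) = 0)
    (he3 : ∀ s t, (pl (α t.1) (e s)).eval (x t) = if s = t then 1 else 0)
    {Z : Bool → F → ZMod 2} (hv : ∀ a b c, KV α x a → KV α x b → KV α x c → T3 α Z a b c = 0)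
    (h0 : ∀ s, lam (Z s.1) (pl (α s.1) (e s)) = 0) (a b c : HV P F) : T3 α Z a b c = 0 := by
  have hs1 : ∀ a b c, T3 α Z a b c = T3 α Z b a c := fun a b c =>
    Finset.sum_congr rfl fun i _ => by rw [mul_comm (pl (α i) a)]
  have hs2 : ∀ a b c, T3 α Z a b c = T3 α Z c b a := fun a b c =>
    Finset.sum_congr rfl fun i _ => by congr 1; ring
  have he : ∀ s i b c, lam (Z i) (pl (α i) (e s) * pl (α i) b * pl (α i) c) = 0 := by
    intro s i b c
    by_cases hi : i = s.1
    · subst hi
      rw [mul_assoc, lam_eQ hP hN hf he1 he2 he3 hv s, h0, mul_zero]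
      have h1 := pl_natDegree (α s.1) b
      have h2 := pl_natDegree (α s.1) c
      have h3 := natDegree_mul_le (p := pl (α s.1) b) (q := pl (α s.1) c)
      omega
    · have : i = !s.1 := by revert hi; cases i <;> cases s.1 <;> simp
      subst this
      simp [he2]
  have red : ∀ g, ∃ v, KV α x v ∧ ∀ b c, T3 α Z g b c = T3 α Z v b c := by
    intro g
    have h1 : ∀ i, pl (α i) (g - ∑ s, (pl (α s.1) g).eval (x s) • e s) =
        pl (α i) g - ∑ s, (pl (α s.1) g).eval (x s) • pl (α i) (e s) := by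
      intro i
      change plL (α i) _ = _
      simp only [map_sub, map_sum, map_smul]
      rfl
    refine ⟨g - ∑ s, (pl (α s.1) g).eval (x s) • e s, fun t => ?_, fun b c => ?_⟩
    · rw [h1]
      simp only [eval_sub, eval_finsetSum, eval_smul, he3]
      simp
    · refine Finset.sum_congr rfl fun i _ => ?_
      rw [h1]
      simp only [sub_mul, Finset.sum_mul, smul_mul_assoc, map_sub, map_sum, map_smul, he,
        smul_zero, Finset.sum_const_zero, sub_zero]
  obtain ⟨a', ha, ha'⟩ := red a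
  obtain ⟨b', hb, hb'⟩ := red b
  obtain ⟨c', hc, hc'⟩ := red c
  rw [ha', hs1, hb', hs2, hc']
  exact hv _ _ _ hc ha hb

end KOAux

open KOAux in
theorem ko (hP : P.Ok) (c : UC P F) (ω : Lab F) (h : Bool) (hN : NiceK (cur c h)) (hT : Typ c ω)
    (ζ : Ten P F) (hζ : ζ ∈ Esp c h)
    (hv : ∀ g : Fin 3 → HV P F, (∀ φ s, dot (g φ) (hom (key c ω s h)) = 0) → evT g ζ = 0) :
    ζ ∈ E0sp (key c ω) h := by
  obtain ⟨Z, rfl⟩ := (mem_Esp_iff c h ζ).1 hζ
  let α := cur c h
  let x : Bool × Bool → F := fun s => ω s h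
  have hN1 : ∀ i, Nice1 (α i) := fun i => (hN i).1
  have hf : ∀ i, IsF0 α i (f0 α i) := f0_spec hN
  obtain ⟨e, u, he1, he2, he3⟩ := exists_e (x := x) hf (fun i => (hT i h).1) (fun i => (hT i h).2)
  have hv' : ∀ a b d, KV α x a → KV α x b → KV α x d → T3 α Z a b d = 0 := by
    intro a b d ha hb hd
    refine (evT_eq α Z ![a, b, d]).symm.trans (hv _ fun φ s => ?_)
    refine (pl_eval (α s.1) _ (x s)).symm.trans ?_
    fin_cases φ
    · exact ha s
    · exact hb s
    · exact hd s
  have hε : ∀ s : Bool × Bool, ∃ ε : ZMod 2, ε • (1 : F) = lam (Z s.1) (pl (α s.1) (e s)) := by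
    intro s
    have h1 := lam_eQ hP hN1 hf he1 he2 he3 hv' s (pl (α s.1) (e s))
      ((pl_natDegree _ _).trans (by omega))
    rw [he3, if_pos rfl, one_mul, ← pow_two, lam_sq, pow_two] at h1
    rw [← pow_two] at h1
    rcases eq_zero_or_one_of_sq_eq_self h1 with h2 | h2
    · exact ⟨0, by rw [h2, zero_smul]⟩
    · exact ⟨1, by rw [h2, one_smul]⟩
  choose ε hε using hε
  let Z' : Bool → F → ZMod 2 := fun i => Z i + ∑ j, ε (i, j) • dl (x (i, j))
  have hl : ∀ i p, lam (Z' i) p = lam (Z i) p + ∑ j, ε (i, j) • p.eval (x (i, j)) := by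
    intro i p
    simp only [lam_apply, Z', Pi.add_apply, Finset.sum_apply, add_smul, Finset.sum_add_distrib,
      Finset.sum_smul]
    rw [Finset.sum_comm]
    congr 1
    refine Finset.sum_congr rfl fun j _ => ?_
    simp [dl, ite_smul]
  have hv'' : ∀ a b d, KV α x a → KV α x b → KV α x d → T3 α Z' a b d = 0 := by
    intro a b d ha hb hd
    rw [← hv' a b d ha hb hd]
    refine Finset.sum_congr rfl fun i _ => ?_
    have := fun j => ha (i, j)
    simp only at this
    simp [hl, this]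
  have h0 : ∀ s : Bool × Bool, lam (Z' s.1) (pl (α s.1) (e s)) = 0 := by
    rintro ⟨i, j⟩
    have := fun j' => he3 (i, j) (i, j')
    simp only at this
    rw [hl, ← hε]
    simp only [this, Prod.mk.injEq, true_and, smul_ite, smul_zero, Finset.sum_ite_eq,
      Finset.mem_univ, if_true]
    exact add_self_F _
  have hz : U (α false) (Z' false) + U (α true) (Z' true) = 0 :=
    evT_nondeg fun g => (evT_eq α Z' g).trans (T3_zero hP hN1 hf he1 he2 he3 hv'' h0 _ _ _)
  simp only [Z', U_add, U_sum, U_smul, U_dl] at hz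
  have h2 : U (c false h) (Z false) + U (c true h) (Z true) =
      -(∑ j, ε (false, j) • tau (pt (α false) (x (false, j))) +
        ∑ j, ε (true, j) • tau (pt (α true) (x (true, j)))) := by
    rw [eq_neg_iff_add_eq_zero, ← hz]
    change U (α false) (Z false) + U (α true) (Z true) + _ = _
    abel
  rw [h2]
  refine Submodule.neg_mem _ (Submodule.add_mem _ ?_ ?_)
  · exact Submodule.sum_mem _ fun j _ =>
      Submodule.smul_mem _ _ (Submodule.subset_span ⟨(false, j), rfl⟩)
  · exact Submodule.sum_mem _ fun j _ =>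
      Submodule.smul_mem _ _ (Submodule.subset_span ⟨(true, j), rfl⟩)

end Vale.Agent.P060
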