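import Vale.Agent.P060.Rank
import Vale.Agent.P060.KB

/-!
# Non-edges have equal classes with good probability (task NE)
T = the trace functions of polynomials of degree ≤ 3K (Weyl.dich).  For a matrix ϑ : JJ c view
ϑG i : (x true, x false) ↦ sum ϑ s t * Gm c i x s t as sum over (l, t) of a (l,t) (x true) * b (l,t) (x false),
a (l,t) y = Bf l (ph c false t i) (dl y), b (l,t) y = Bf l (sum_s ϑ s t • ph c true s i) (dl y).
By bf_bias and IsKB.indep (and ε < 1) no nonzero combination of the a is constant; rk_ge gives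
rk ≥ r if ϑ ≠ 0 (one nonzero column) and rk ≥ 2 r if ϑ has two distinct nonzero columns (otherwise
ϑ s t = a s * b t).  G_unif follows from rk_bias and equi (uncurry JJ).
ne_bound: by coll, |JJ| P (J0 = J1) = sum over ϑ of bias (ϑ J0) bias (ϑ J1), ϑ J i = ϑG i + ϑ(ν) gam i, and
rk (gam) ≤ R (rk_le; fp_eval shows rows and columns are in T).  ϑ = 0 gives 1.  Let ρ = r / 2.  Call ϑ ≠ 0
big if rk (ϑ J0) < ρ; non-big terms are ≤ 1/2^ρ + 2ε in size.  A big ϑ has ϑ(ν) = 1 and is a ⊗ b
(2 r - R ≥ ρ); two different big ones would give rk ((ϑ+ϑ') G) < r.  For the big one put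
z h = comb of side 0, z' h = comb of side 1 (both odd since ϑ(ν) = 1, eta_eq_of_U); then
ϑ J i x = TT z_i (dl ∘ x) + gam u i x.  If both are constant, the constants agree (else H (u 0) (u 1)),
so the product is 1; otherwise it is ≥ -(1/2 + 2ε) by rk_bias_half.  Total ≥ 1 - 1/2 - 2ε - 1/7 ≥ 1/3.
-/

open Finset Polynomial
open scoped BigOperators

namespace Vale.Agent.P060

variable {P : Par} {F : Type} [Field F] [Fintype F] [DecidableEq F] [Algebra (ZMod 2) F]

namespace NEAux

/-- trace functions of polynomials of bounded degree, up to constants -/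
def TS (F : Type) [Field F] [Algebra (ZMod 2) F] (d : ℕ) : Submodule (ZMod 2) (F → ZMod 2) where
  carrier := {g | ∃ (p : F[X]) (c : ZMod 2), p.natDegree ≤ d ∧ ∀ x, g x = tr (p.eval x) + c}
  zero_mem' := ⟨0, 0, by simp, fun x => by simp [tr_zero]⟩
  add_mem' := by
    rintro f g ⟨p, c, hp, hf⟩ ⟨p', c', hp', hg⟩
    refine ⟨p + p', c + c', (natDegree_add_le _ _).trans (max_le hp hp'), fun x => ?_⟩
    rw [Pi.add_apply, hf, hg, eval_add, tr_add]
    ring
  smul_mem' := by
    rintro a f ⟨p, c, hp, hf⟩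
    rcases zmod2_cases a with rfl | rfl
    · exact ⟨0, 0, by simp, fun x => by simp [tr_zero]⟩
    · exact ⟨p, c, hp, fun x => by simp [hf]⟩

omit [DecidableEq F] in
theorem TS_dich {d : ℕ} {ε : ℝ} (hW : Weyl F d ε) :
    ∀ g ∈ TS F d, (∃ c, ∀ x, g x = c) ∨ |bias g| ≤ ε := by
  rintro g ⟨p, c, hp, hg⟩
  rcases hW.dich p hp with ⟨c', h⟩ | h
  · exact Or.inl ⟨c' + c, fun x => by rw [hg, h]⟩
  · right
    rw [show g = fun x => tr (p.eval x) + c from funext hg, bias_add_const, abs_mul, abs_sgn,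
      mul_one]
    exact h

omit [Fintype F] [DecidableEq F] in
theorem const_mem (d : ℕ) (c : ZMod 2) : (fun _ : F => c) ∈ TS F d :=
  ⟨0, c, by simp, fun x => by simp [tr_zero]⟩

omit [DecidableEq F] in
theorem Bf_zero (l : Fin P.r) (w : F → ZMod 2) : Bf P l 0 w = 0 := by
  simpa using Bf_smul_left l 0 0 w

theorem Bf_mem (hP : P.Ok) (l : Fin P.r) (z : F → ZMod 2) :
    (fun y => Bf P l z (dl y)) ∈ TS F (3 * P.K) := by
  obtain ⟨p, hp, h⟩ := bf_poly hP (Pi.single l z)
  refine ⟨p, 0, by omega, fun x => ?_⟩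
  rw [add_zero, ← h, Finset.sum_eq_single l]
  · rw [Pi.single_eq_same]
  · intro l' _ hl
    rw [Pi.single_eq_of_ne hl, Bf_zero]
  · simp

omit [Fintype F] [DecidableEq F] in
theorem ev_mem (f : Ten P F) (α : Cur P F) : (fun y => ev f (tau (pt α y))) ∈ TS F (3 * P.K) :=
  ⟨fp f α, 0, fp_natDegree f α, fun x => by rw [add_zero, fp_eval]⟩

/-- all rows and columns lie in `T` -/
def RC (T : Submodule (ZMod 2) (F → ZMod 2)) (φ : F → F → ZMod 2) : Prop :=
  (∀ x, φ x ∈ T) ∧ ∀ y, (fun x => φ x y) ∈ T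

omit [Field F] [Fintype F] [DecidableEq F] [Algebra (ZMod 2) F] in
theorem RC.add {T : Submodule (ZMod 2) (F → ZMod 2)} {φ ψ : F → F → ZMod 2} (h : RC T φ)
    (h' : RC T ψ) : RC T fun x y => φ x y + ψ x y :=
  ⟨fun x => T.add_mem (h.1 x) (h'.1 x), fun y => T.add_mem (h.2 y) (h'.2 y)⟩

omit [Field F] [Fintype F] [DecidableEq F] [Algebra (ZMod 2) F] in
theorem RC.smul {T : Submodule (ZMod 2) (F → ZMod 2)} {φ : F → F → ZMod 2} (h : RC T φ)
    (c : ZMod 2) : RC T fun x y => c * φ x y :=
  ⟨fun x => T.smul_mem c (h.1 x), fun y => T.smul_mem c (h.2 y)⟩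

omit [Field F] [Fintype F] [DecidableEq F] [Algebra (ZMod 2) F] in
theorem RC.sum {T : Submodule (ZMod 2) (F → ZMod 2)} {ι : Type} [Fintype ι]
    {a b : ι → F → ZMod 2} (ha : ∀ l, a l ∈ T) (hb : ∀ l, b l ∈ T) :
    RC T fun x y => ∑ l, a l x * b l y := by
  constructor
  · intro x
    have : (fun y => ∑ l, a l x * b l y) = ∑ l, a l x • b l := by
      funext y
      simp [Finset.sum_apply]
    dsimp only
    rw [this]
    exact T.sum_mem fun l _ => T.smul_mem _ (hb l)
  · intro y
    have : (fun x => ∑ l, a l x * b l y) = ∑ l, b l y • a l := by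
      funext x
      simp [Finset.sum_apply, mul_comm]
    rw [this]
    exact T.sum_mem fun l _ => T.smul_mem _ (ha l)

omit [Field F] [DecidableEq F] [Algebra (ZMod 2) F] in
theorem bias_bool (φ : F → F → ZMod 2) :
    (bias fun x : Bool → F => φ (x true) (x false)) = bias fun z : F × F => φ z.1 z.2 := by
  rw [bias, bias, expect_bool_fun fun a b => sgn (φ b a), expect_prod', Finset.expect_comm]

/-- combinations of the kernel basis -/
noncomputable def cb (c : UC P F) (h : Bool) (a : Fin (kd c h) → ZMod 2) (i : Bool) :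
    F → ZMod 2 := ∑ s, a s • ph c h s i

omit [DecidableEq F] in
theorem Bf_cb (c : UC P F) (h : Bool) (a : Fin (kd c h) → ZMod 2) (i : Bool) (l : Fin P.r)
    (w : F → ZMod 2) : Bf P l (cb c h a i) w = ∑ s, a s * Bf P l (ph c h s i) w := by
  simp only [cb, Bf_sum_left, Bf_smul_left]

theorem nc (hP : P.Ok) {ε : ℝ} (hε : ε < 1) (hW : Weyl F (3 * P.K) ε) {c : UC P F}
    (hN : ∀ h, NiceK (cur c h)) (h i : Bool) (d : Fin P.r → Fin (kd c h) → ZMod 2) (e : ZMod 2)
    (hd : ∀ y, ∑ l, Bf P l (cb c h (d l) i) (dl y) = e) (l : Fin P.r) : d l = 0 := by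
  by_contra hne
  have h1 := bf_bias hP hW (fun l => cb c h (d l) i)
    ⟨l, (isKB_kb hP _ (hN h)).indep (d l) hne i⟩
  simp only [hd, bias_const, abs_sgn] at h1
  linarith

/-- index set of the class matrices -/
abbrev II (c : UC P F) : Type := Fin (kd c true) × Fin (kd c false)

noncomputable def phiG (c : UC P F) (d : II c → ZMod 2) (i : Bool) (x y : F) : ZMod 2 :=
  ∑ p : Fin P.r × Fin (kd c false), Bf P p.1 (ph c false p.2 i) (dl x) *
    Bf P p.1 (cb c true (fun s => d (s, p.2)) i) (dl y)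

theorem phiG_eq (c : UC P F) (d : II c → ZMod 2) (i : Bool) (x : Bool → F) :
    ∑ p, d p * Gm c i x p.1 p.2 = phiG c d i (x true) (x false) := by
  simp only [phiG, Gm, cl, Bf_cb, Fintype.sum_prod_type, Finset.mul_sum]
  rw [Finset.sum_comm]
  conv_rhs => rw [Finset.sum_comm]
  refine Finset.sum_congr rfl fun t _ => ?_
  rw [Finset.sum_comm]
  exact Finset.sum_congr rfl fun l _ => Finset.sum_congr rfl fun s _ => by ring

theorem phiG_add (c : UC P F) (d d' : II c → ZMod 2) (i : Bool) (x y : F) :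
    phiG c (d + d') i x y = phiG c d i x y + phiG c d' i x y := by
  simp only [phiG, Bf_cb, Pi.add_apply, add_mul, mul_add, Finset.sum_add_distrib]

theorem phiG_RC (hP : P.Ok) (c : UC P F) (d : II c → ZMod 2) (i : Bool) :
    RC (TS F (3 * P.K)) (phiG c d i) :=
  RC.sum (a := fun (p : Fin P.r × Fin (kd c false)) x => Bf P p.1 (ph c false p.2 i) (dl x))
    (b := fun (p : Fin P.r × Fin (kd c false)) y =>
      Bf P p.1 (cb c true (fun s => d (s, p.2)) i) (dl y))
    (fun _ => Bf_mem hP _ _) fun _ => Bf_mem hP _ _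

theorem phiG_rk (hP : P.Ok) {ε : ℝ} (hε : ε < 1) (hW : Weyl F (3 * P.K) ε) {c : UC P F}
    (hN : ∀ h, NiceK (cur c h)) (d : II c → ZMod 2) (i : Bool) {J : Type} [Fintype J]
    (t : J → Fin (kd c false))
    (ht : ∀ e : J → ZMod 2, (∀ s, ∑ j, e j * d (s, t j) = 0) → ∀ j, e j = 0) :
    P.r * Fintype.card J ≤ rk (phiG c d i) := by
  have := rk_ge
    (fun (p : Fin P.r × Fin (kd c false)) x => Bf P p.1 (ph c false p.2 i) (dl x))
    (fun (p : Fin P.r × Fin (kd c false)) y =>
      Bf P p.1 (cb c true (fun s => d (s, p.2)) i) (dl y))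
    (fun p : Fin P.r × J => (p.1, t p.2)) (fun e a he => ?_) fun e a he => ?_
  · rwa [Fintype.card_prod, Fintype.card_fin] at this
  · funext p
    refine congrFun (nc hP hε hW hN false i (fun l s => e (l, s)) a (fun y => ?_) p.1) p.2
    rw [← he y, Fintype.sum_prod_type]
    simp only [Bf_cb]
  · funext p
    refine ht (fun j => e (p.1, j)) (fun s => congrFun (nc hP hε hW hN true i
      (fun l s => ∑ j, e (l, j) * d (s, t j)) a (fun y => ?_) p.1) s) p.2
    rw [← he y, Fintype.sum_prod_type]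
    refine Finset.sum_congr rfl fun l _ => ?_
    simp only [Bf_cb, Finset.mul_sum, Finset.sum_mul]
    rw [Finset.sum_comm]
    exact Finset.sum_congr rfl fun j _ => Finset.sum_congr rfl fun s _ => by ring

theorem phiG_rk_one (hP : P.Ok) {ε : ℝ} (hε : ε < 1) (hW : Weyl F (3 * P.K) ε) {c : UC P F}
    (hN : ∀ h, NiceK (cur c h)) {d : II c → ZMod 2} (hd : d ≠ 0) (i : Bool) :
    P.r ≤ rk (phiG c d i) := by
  obtain ⟨⟨s, t⟩, hp⟩ := Function.ne_iff.1 hd
  simpa using phiG_rk hP hε hW hN d i (fun _ : Unit => t) fun e he j => by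
    have := he s
    rw [Fintype.sum_unique] at this
    exact (mul_eq_zero.1 this).resolve_right hp

theorem phiG_rank_one (hP : P.Ok) {ε : ℝ} (hε : ε < 1) (hW : Weyl F (3 * P.K) ε) {c : UC P F}
    (hN : ∀ h, NiceK (cur c h)) {d : II c → ZMod 2} (hd : d ≠ 0) (i : Bool)
    (hr : rk (phiG c d i) < 2 * P.r) :
    ∃ (a : Fin (kd c true) → ZMod 2) (b : Fin (kd c false) → ZMod 2),
      ∀ s t, d (s, t) = a s * b t := by
  obtain ⟨⟨s0, t0⟩, hp⟩ := Function.ne_iff.1 hd
  have key : ∀ t, ∃ β : ZMod 2, ∀ s, d (s, t) = d (s, t0) * β := by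
    intro t
    by_contra hn
    push Not at hn
    obtain ⟨s1, h1⟩ := hn 0
    obtain ⟨s2, h2⟩ := hn 1
    have := phiG_rk hP hε hW hN d i (fun j : Bool => if j then t else t0) fun e he => by
      have e0 := he s0
      have e1 := he s1
      have e2 := he s2
      simp only [Fintype.sum_bool, if_true, Bool.false_eq_true, if_false, Pi.zero_apply] at e0 e1 e2 hp
      rw [Bool.forall_bool]
      revert hp h1 h2 e0 e1 e2
      generalize e true = x1
      generalize e false = x2
      generalize d (s0, t) = x3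
      generalize d (s0, t0) = x4
      generalize d (s1, t) = x5
      generalize d (s1, t0) = x6
      generalize d (s2, t) = x7
      generalize d (s2, t0) = x8
      revert x1 x2 x3 x4 x5 x6 x7 x8
      decide
    rw [Fintype.card_bool] at this
    omega
  choose b hb using key
  exact ⟨fun s => d (s, t0), b, fun s t => hb t s⟩

omit [DecidableEq F] in
theorem card_JJ (c : UC P F) : (Fintype.card (JJ c) : ℝ) = 2 ^ Fintype.card (II c) := by
  simp only [Fintype.card_fun, ZMod.card, Fintype.card_prod, Fintype.card_fin]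
  push_cast
  rw [← pow_mul, mul_comm]

omit [DecidableEq F] in
theorem ind_unc {c : UC P F} (g g' : JJ c) :
    ind (g = g') = ind ((fun p : II c => g p.1 p.2) = fun p => g' p.1 p.2) :=
  ind_congr ⟨fun h => by rw [h], fun h => funext fun s => funext fun t => congrFun h (s, t)⟩

noncomputable def phiC (u : Un P F) (i : Bool) (x y : F) : ZMod 2 :=
  ∑ l, ev ((u !i).2 true (some l)) (tau (pt ((u i).1 true) x)) *
      ev ((u !i).2 false (some l)) (tau (pt ((u i).1 false) y)) +
    ev ((u !i).2 true none) (tau (pt ((u i).1 true) x)) +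
    ev ((u !i).2 false none) (tau (pt ((u i).1 false) y))

omit [Fintype F] [DecidableEq F] in
theorem phiC_eq (u : Un P F) (i : Bool) (x : Bool → F) :
    gam u i x = phiC u i (x true) (x false) := rfl

omit [Fintype F] [DecidableEq F] in
theorem phiC_RC (u : Un P F) (i : Bool) : RC (TS F (3 * P.K)) (phiC u i) :=
  ((RC.sum (fun _ => ev_mem _ _) fun _ => ev_mem _ _).add
    ⟨fun _ => const_mem _ _, fun _ => ev_mem _ _⟩).add ⟨fun _ => ev_mem _ _, fun _ => const_mem _ _⟩

omit [DecidableEq F] in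
theorem phiC_rk (u : Un P F) (i : Bool) : rk (phiC u i) ≤ P.R := by
  have := rk_le (fun (l : Fin P.R) x => ev ((u !i).2 true (some l)) (tau (pt ((u i).1 true) x)))
    (fun l y => ev ((u !i).2 false (some l)) (tau (pt ((u i).1 false) y)))
    (fun x => ev ((u !i).2 true none) (tau (pt ((u i).1 true) x)))
    fun y => ev ((u !i).2 false none) (tau (pt ((u i).1 false) y))
  rwa [Fintype.card_fin] at this

noncomputable def nn (c : UC P F) (d : II c → ZMod 2) : ZMod 2 := ∑ p, d p * nu c p.1 p.2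

noncomputable def phiJ (u : Un P F) (d : II (crv u) → ZMod 2) (i : Bool) (x y : F) : ZMod 2 :=
  phiG (crv u) d i x y + nn (crv u) d * phiC u i x y

theorem phiJ_eq (u : Un P F) (d : II (crv u) → ZMod 2) (i : Bool) (x : Bool → F) :
    ∑ p, d p * Jm u i x p.1 p.2 = phiJ u d i (x true) (x false) := by
  rw [phiJ, ← phiG_eq, ← phiC_eq, nn, Finset.sum_mul, ← Finset.sum_add_distrib]
  refine Finset.sum_congr rfl fun p _ => ?_
  simp only [Jm, Pi.add_apply, Pi.smul_apply, smul_eq_mul]
  ring

theorem phiJ_RC (hP : P.Ok) (u : Un P F) (d : II (crv u) → ZMod 2) (i : Bool) :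
    RC (TS F (3 * P.K)) (phiJ u d i) :=
  (phiG_RC hP _ d i).add ((phiC_RC u i).smul _)

theorem nn_big (hP : P.Ok) {ε : ℝ} (hε : ε < 1) (hW : Weyl F (3 * P.K) ε) {u : Un P F}
    (hN : ∀ h, NiceK (cur (crv u) h)) {d : II (crv u) → ZMod 2} (hd : d ≠ 0)
    (hb : rk (phiJ u d false) < P.r / 2) : nn (crv u) d = 1 := by
  refine (zmod2_cases _).resolve_left fun h0 => ?_
  have h1 : phiJ u d false = phiG (crv u) d false := by
    funext x y
    rw [phiJ, h0, zero_mul, add_zero]
  have := phiG_rk_one hP hε hW hN hd false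
  rw [h1] at hb
  omega

theorem big_unique (hP : P.Ok) {ε : ℝ} (hε : ε < 1) (hW : Weyl F (3 * P.K) ε) {u : Un P F}
    (hN : ∀ h, NiceK (cur (crv u) h)) {d d' : II (crv u) → ZMod 2} (hd : d ≠ 0)
    (hb : rk (phiJ u d false) < P.r / 2) (hd' : d' ≠ 0) (hb' : rk (phiJ u d' false) < P.r / 2) :
    d = d' := by
  by_contra hne
  have h0 : d + d' ≠ 0 := fun h => hne (funext fun p => by
    have := congrFun h p
    rw [Pi.add_apply, Pi.zero_apply] at this
    linear_combination this - zmod2_add_self (d' p))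
  have h1 := phiG_rk_one hP hε hW hN h0 false
  have h2 : phiG (crv u) (d + d') false = fun x y => phiJ u d false x y + phiJ u d' false x y := by
    funext x y
    rw [phiJ, phiJ, phiG_add, nn_big hP hε hW hN hd hb, nn_big hP hε hW hN hd' hb']
    linear_combination -zmod2_add_self (phiC u false x y)
  have h3 := rk_add (phiJ u d false) (phiJ u d' false)
  rw [← h2] at h3
  omega

theorem big_bound (hP : P.Ok) {ε : ℝ} (hε0 : 0 ≤ ε) (hε : ε < 1) (hW : Weyl F (3 * P.K) ε)
    {u : Un P F} (hN : ∀ h, NiceK (cur (crv u) h)) (hH : ¬ H (u false) (u true))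
    {d : II (crv u) → ZMod 2} (hd : d ≠ 0) (hb : rk (phiJ u d false) < P.r / 2) :
    -(1 / 2 + 2 * ε) ≤ (bias fun z : F × F => phiJ u d false z.1 z.2) *
      bias fun z : F × F => phiJ u d true z.1 z.2 := by
  have hhalf := fun i => rk_bias_half _ ε hε0 (TS_dich hW) _ (phiJ_RC hP u d i).1
    (phiJ_RC hP u d i).2
  by_cases h0 : ∃ c, ∀ x y, phiJ u d false x y = c
  swap
  · refine neg_le_of_abs_le ?_
    rw [abs_mul]
    exact (mul_le_of_le_one_right (abs_nonneg _) (abs_bias_le _)).trans (hhalf false h0)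
  by_cases h1 : ∃ c, ∀ x y, phiJ u d true x y = c
  swap
  · refine neg_le_of_abs_le ?_
    rw [abs_mul]
    exact (mul_le_of_le_one_left (abs_nonneg _) (abs_bias_le _)).trans (hhalf true h1)
  obtain ⟨c0, h0⟩ := h0
  obtain ⟨c1, h1⟩ := h1
  have hn := nn_big hP hε hW hN hd hb
  have h2 : phiG (crv u) d false = fun x y => phiJ u d false x y + phiC u false x y := by
    funext x y
    rw [phiJ, hn]
    linear_combination -zmod2_add_self (phiC u false x y)
  have h3 := rk_add (phiJ u d false) (phiC u false)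
  have h4 := phiC_rk u false
  rw [← h2] at h3
  obtain ⟨a, b, hab⟩ := phiG_rank_one hP hε hW hN hd false (by
    have := hP.hR
    have := hP.hr
    have : P.k ≤ P.k ^ 2 := Nat.le_self_pow two_ne_zero _
    omega)
  let z : Bool → Bool → F → ZMod 2 := fun i h =>
    bif h then cb (crv u) true a i else cb (crv u) false b i
  have hU : ∀ h, U ((u false).1 h) (z false h) = U ((u true).1 h) (z true h) := by
    have key : ∀ h (e : Fin (kd (crv u) h) → ZMod 2),
        U ((u false).1 h) (cb (crv u) h e false) = U ((u true).1 h) (cb (crv u) h e true) := by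
      intro h e
      simp only [cb, U_sum, U_smul]
      exact Finset.sum_congr rfl fun s _ => congrArg _ ((isKB_kb hP _ (hN h)).ker s)
    intro h
    cases h
    · exact key false b
    · exact key true a
  have he : ∀ h, eta (z false h) = 1 := by
    have e1 : eta (z false true) * eta (z false false) = 1 := by
      rw [← hn, nn, Fintype.sum_prod_type]
      simp only [z, cond_true, cond_false, cb, eta_sum, eta_smul, Finset.sum_mul_sum, hab, nu, et]
      exact Finset.sum_congr rfl fun s _ => Finset.sum_congr rfl fun t _ => by ring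
    intro h
    refine (zmod2_cases _).resolve_left fun h' => ?_
    cases h <;> simp [h'] at e1
  have hT : ∀ i (x : Bool → F), phiJ u d i (x true) (x false) =
      (TT P (z i) fun h => dl (x h)) + gam u i x := by
    intro i x
    rw [phiJ, hn, one_mul, phiC_eq, phiG, TT, Fintype.sum_prod_type]
    congr 1
    refine Finset.sum_congr rfl fun l _ => ?_
    rw [Bf_comm l (dl (x true))]
    simp only [z, cond_true, cond_false, Bf_cb, hab]
    rw [Finset.sum_mul_sum]
    simp only [Finset.mul_sum]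
    exact Finset.sum_congr rfl fun t _ => Finset.sum_congr rfl fun s _ => by ring
  have hc : c1 = c0 := by
    by_contra hne
    refine hH ⟨z false, z true, c0, he, fun h => (eta_eq_of_U (hU h)).symm.trans (he h), hU,
      fun x => ?_, fun x => ?_⟩
    · have := hT false x
      rw [h0] at this
      change gam u false x = _
      linear_combination -this - zmod2_add_self (TT P (z false) fun h => dl (x h))
    · have := hT true x
      rw [h1] at this
      have h5 : c1 = c0 + 1 := by
        revert hne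
        generalize c1 = y1
        generalize c0 = y0
        revert y0 y1
        decide
      change gam u true x = _
      linear_combination -this - zmod2_add_self (TT P (z true) fun h => dl (x h)) + h5
  simp only [h0, h1, hc, bias_const, sgn_mul_self]
  linarith

end NEAux

open NEAux

theorem G_unif (hP : P.Ok) {ε : ℝ} (hε0 : 0 ≤ ε) (hε : ε < 1) (hW : Weyl F (3 * P.K) ε)
    (c : UC P F) (hN : ∀ h, NiceK (cur c h)) (i : Bool) (g : JJ c) :
    |(𝔼 x, ind (Gm c i x = g)) - 1 / Fintype.card (JJ c)| ≤ 1 / 2 ^ P.r + 2 * ε := by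
  simp only [ind_unc, card_JJ]
  refine equi (fun x (p : II c) => Gm c i x p.1 p.2) _ (by positivity) (fun d hd => ?_) _
  simp only [phiG_eq]
  rw [bias_bool (phiG c d i)]
  refine (rk_bias _ ε hε0 (TS_dich hW) _ (phiG_RC hP c d i).1 (phiG_RC hP c d i).2).trans ?_
  have := phiG_rk_one hP hε hW hN hd i
  gcongr
  norm_num

theorem ne_bound (hP : P.Ok) {ε : ℝ} (hε0 : 0 ≤ ε) (hε : ε ≤ 1 / (100 * 2 ^ (P.k ^ 2)))
    (hW : Weyl F (3 * P.K) ε) (u : Un P F) (hN : ∀ h, NiceK (cur (crv u) h))
    (hH : ¬ H (u false) (u true)) :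
    1 / (3 * (Fintype.card (JJ (crv u)) : ℝ)) ≤ 𝔼 x, 𝔼 y, ind (Jm u false x = Jm u true y) := by
  have hk : (1 : ℝ) ≤ 2 ^ (P.k ^ 2) := one_le_pow₀ one_le_two
  have hε2 : 2 ^ (P.k ^ 2) * ε ≤ 1 / 100 := by
    rw [le_div_iff₀ (by positivity)] at hε ⊢
    linarith
  have hε3 : ε ≤ 1 / 100 := by nlinarith
  have hε1 : ε < 1 := by linarith
  have hc := coll (fun x (p : II (crv u)) => Jm u false x p.1 p.2)
    fun x (p : II (crv u)) => Jm u true x p.1 p.2
  simp only [phiJ_eq, ← ind_unc, ← card_JJ] at hc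
  simp only [bias_bool (phiJ u _ _)] at hc
  obtain ⟨d0, hd0⟩ : ∃ d0, ∀ d, d ≠ 0 → rk (phiJ u d false) < P.r / 2 → d0 = d := by
    by_cases h : ∃ d, d ≠ 0 ∧ rk (phiJ u d false) < P.r / 2
    · obtain ⟨d0, h1, h2⟩ := h
      exact ⟨d0, fun d h3 h4 => big_unique hP hε1 hW hN h1 h2 h3 h4⟩
    · exact ⟨0, fun d h3 h4 => absurd ⟨d, h3, h4⟩ h⟩
  have hδ : (0 : ℝ) ≤ 1 / 2 ^ (P.r / 2) + 2 * ε := by positivity
  have key : ∀ d : II (crv u) → ZMod 2,
      ind (0 = d) - ind (d0 = d) * (1 / 2 + 2 * ε) - (1 / 2 ^ (P.r / 2) + 2 * ε) ≤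
        (bias fun z : F × F => phiJ u d false z.1 z.2) *
          bias fun z : F × F => phiJ u d true z.1 z.2 := by
    intro d
    have h1 : 0 ≤ ind (d0 = d) * (1 / 2 + 2 * ε) := mul_nonneg (ind_nonneg _) (by positivity)
    by_cases hd : d = 0
    · have h2 : ∀ i x y, phiJ u d i x y = 0 := by
        intro i x y
        simp [hd, phiJ, nn, phiG, Bf_cb]
      simp only [h2, bias_const, sgn_mul_self]
      have := ind_le_one (0 = d)
      linarith
    rw [ind_neg (Ne.symm hd)]
    by_cases hb : rk (phiJ u d false) < P.r / 2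
    · have := big_bound hP hε0 hε1 hW hN hH hd hb
      rw [ind_pos (hd0 d hd hb)]
      linarith
    · have h2 := rk_bias _ ε hε0 (TS_dich hW) _ (phiJ_RC hP u d false).1 (phiJ_RC hP u d false).2
      have h3 : (1 : ℝ) / 2 ^ rk (phiJ u d false) ≤ 1 / 2 ^ (P.r / 2) := by
        gcongr
        · norm_num
        · omega
      have h4 := neg_le_of_abs_le ((abs_mul _ _).le.trans ((mul_le_of_le_one_right (abs_nonneg _)
        (abs_bias_le fun z : F × F => phiJ u d true z.1 z.2)).trans h2))
      linarith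
  have h5 := Finset.sum_le_sum fun d (_ : d ∈ univ) => key d
  rw [← hc, Finset.sum_sub_distrib, Finset.sum_sub_distrib, ← Finset.sum_mul, sum_ind_eq,
    sum_ind_eq, Finset.sum_const, card_univ, nsmul_eq_mul, Fintype.card_fun, ZMod.card,
    Nat.cast_pow, Nat.cast_ofNat, ← card_JJ] at h5
  have h6 : (Fintype.card (JJ (crv u)) : ℝ) ≤ 2 ^ (P.k ^ 2) := by
    exact_mod_cast card_JJ_le (crv u)
  have h7 : (2 : ℝ) ^ (P.k ^ 2) * (1 / 2 ^ (P.r / 2)) ≤ 1 / 128 := by
    have : (2 : ℝ) ^ (P.k ^ 2 + 7) ≤ 2 ^ (P.r / 2) :=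
      pow_le_pow_right₀ one_le_two (by have := hP.hr; omega)
    rw [mul_one_div, div_le_div_iff₀ (by positivity) (by norm_num)]
    rw [pow_add] at this
    linarith
  have h8 := mul_le_mul_of_nonneg_right h6 hδ
  have h9 : (0 : ℝ) < Fintype.card (JJ (crv u)) := by
    rw [card_JJ]
    positivity
  rw [div_le_iff₀ (by positivity)]
  nlinarith

end Vale.Agent.P060
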