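import Vale.Agent.P060.AL1
import Vale.Agent.P060.NE
import Vale.Agent.P060.Box

/-!
# Key stage, one unit (task KSUnit)
ks_unit: apply al1 with X = Bool → F, J = JJ c, J0 = 2^(k^2), pa i x = part (pts (c i) x), G = Gm c,
γ = gam u, ν = nu c, p a = P (part ξ = a).  hclose: N J0 δ + J0 (1/2^r + 2 ε) ≤ 1/(1000 J0) by Close, G_unif,
r ≥ 2 k^2 + 14.  hNE: ne_bound.  The two columns of ω are independent, so the probability of W0 with
prescribed parts is at least the product of the two column events with the same σ.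
ks_box: for each u apply box_data with m = mixS c.swap on Lab, f ω = f (tp (key ω)), W = ind W0 and
D ω = (Gm, gam) at the slot c.swap (card ≤ 2 J0); pow_expect_le; key_mixS and
tp (mixS c.swap x y) = mixS c (tp x) (tp y); TP2 applied to the product of four values / 16.
light: TP2 with f = ind (not Lt κ), and Nw 1 > 2 there: avg ind ≤ ε, mass ≤ 2 ε.
-/

open Finset Polynomial
open scoped BigOperators

namespace Vale.Agent.P060

variable {P : Par} {F : Type} [Field F] [Fintype F] [DecidableEq F] [Algebra (ZMod 2) F]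

namespace KSAux

theorem expect_cols {X : Type} [Fintype X] (A B : X → X → ℝ) :
    𝔼 ω : Bool × Bool → X, A (ω (false, false)) (ω (true, false)) *
      B (ω (false, true)) (ω (true, true)) = (𝔼 x, 𝔼 y, A x y) * 𝔼 x, 𝔼 y, B x y := by
  let e : (Bool → Bool → X) ≃ (Bool × Bool → X) :=
    ⟨fun z s => z s.2 s.1, fun ω j i => ω (i, j), fun _ => rfl, fun _ => rfl⟩
  rw [← Fintype.expect_equiv e (fun z => A (z false false) (z false true) *
    B (z true false) (z true true)) _ fun _ => rfl,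
    expect_bool_fun fun a b : Bool → X => A (a false) (a true) * B (b false) (b true),
    ← expect_bool_fun A, ← expect_bool_fun B, Finset.expect_mul_expect]

omit [DecidableEq F] in
theorem W0_congr [DecidableEq F] (u : Un P F) {ω ω' : Lab F}
    (h : ∀ s : Bool × Bool, Gm (crv u) s.1 (ω s) = Gm (crv u) s.1 (ω' s) ∧
      gam u s.1 (ω s) = gam u s.1 (ω' s)) : W0 u ω ↔ W0 u ω' := by
  have h1 : ∀ i j, Gm (crv u) i (ω (i, j)) = Gm (crv u) i (ω' (i, j)) := fun i j => (h (i, j)).1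
  have h2 : ∀ i j, gam u i (ω (i, j)) = gam u i (ω' (i, j)) := fun i j => (h (i, j)).2
  simp only [W0, Jm, h1, h2]

theorem tp_mixS {X : Type} (c : Bool × Bool) (x y : Bool × Bool → X) :
    tp (mixS c.swap x y) = mixS c (tp x) (tp y) := by
  funext s
  simp only [tp, mixS, Prod.swap_inj]

end KSAux

open KSAux

theorem ks_unit (hP : P.Ok) {ε : ℝ} (hε0 : 0 ≤ ε) (hε : ε ≤ 1 / (10000 * (2 ^ (P.k ^ 2)) ^ 2))
    (hW : Weyl F (3 * P.K) ε) {N : ℕ} (hN0 : 0 < N) (part : (Bool → Pt P F) → Fin N) (u : Un P F)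
    (hN : ∀ h, NiceK (cur (crv u) h)) (hH : ¬ H (u false) (u true))
    (hC : Close part (1 / (2000 * (2 ^ (P.k ^ 2)) ^ 2 * N)) (crv u)) :
    ∃ (ty : Fin N → Fin (4 ^ (2 * 2 ^ (P.k ^ 2))))
      (Rel : ZMod 2 → Fin (4 ^ (2 * 2 ^ (P.k ^ 2))) → Fin (4 ^ (2 * 2 ^ (P.k ^ 2))) → Prop),
      (∀ (a : Bool × Bool → Fin N) σ, Rel σ (ty (a (false, false))) (ty (a (true, false))) →
        Rel σ (ty (a (false, true))) (ty (a (true, true))) →
        (1 / (500 * 2 ^ (P.k ^ 2) : ℝ)) ^ 4 * ∏ s, (𝔼 ξ, ind (part ξ = a s)) ≤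
          𝔼 ω, ind (W0 u ω ∧ (fun s => part (key (crv u) ω s)) = a)) ∧
      1 / (250000 * 4 ^ (2 * 2 ^ (P.k ^ 2)) : ℝ) ≤
        ∑ a, ∑ b, (𝔼 ξ, ind (part ξ = a)) * (𝔼 ξ, ind (part ξ = b)) *
          ind (∃ σ, Rel σ (ty a) (ty b) ∧ Rel σ (ty b) (ty a)) := by
  have hk : (1 : ℝ) ≤ 2 ^ (P.k ^ 2) := one_le_pow₀ one_le_two
  have hJ : (Fintype.card (JJ (crv u)) : ℝ) ≤ 2 ^ (P.k ^ 2) := by
    exact_mod_cast card_JJ_le (crv u)
  have hr : (1 : ℝ) / 2 ^ P.r ≤ 1 / (16384 * (2 ^ (P.k ^ 2)) ^ 2) := by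
    refine one_div_le_one_div_of_le (by positivity) ?_
    have : (2 : ℝ) ^ (14 + P.k ^ 2 * 2) ≤ 2 ^ P.r :=
      pow_le_pow_right₀ one_le_two (by have := hP.hr; omega)
    rw [pow_add, pow_mul] at this
    norm_num at this ⊢
    exact this
  have hε' : ε ≤ 1 / (100 * 2 ^ (P.k ^ 2)) :=
    hε.trans (one_div_le_one_div_of_le (by positivity) (by nlinarith))
  have hε1 : ε < 1 := hε'.trans_lt (by
    rw [div_lt_one (by positivity)]
    linarith)
  have hp0 : ∀ a, 0 ≤ 𝔼 ξ, ind (part ξ = a) := fun a => expect_nonneg' fun _ => ind_nonneg _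
  have hp1 : ∑ a, 𝔼 ξ, ind (part ξ = a) = 1 := by
    rw [← Finset.expect_sum_comm]
    simp only [sum_ind_eq]
    exact Finset.expect_const univ_nonempty _
  have h0 := al1 (2 ^ (P.k ^ 2)) (card_JJ_le (crv u))
    (fun i x => part (pts (crv u i) x)) (Gm (crv u)) (gam u) (nu (crv u))
    (fun a => 𝔼 ξ, ind (part ξ = a)) hp0 hp1 (fun i => ?_) (ne_bound hP hε0 hε' hW u hN hH)
  · obtain ⟨ty, Rel, h1, h2⟩ := h0
    refine ⟨ty, Rel, fun a σ ha hb => ?_, by exact_mod_cast h2⟩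
    have k1 := h1 σ _ _ ha
    have k2 := h1 σ _ _ hb
    have k3 := mul_le_mul k1 k2 (mul_nonneg (sq_nonneg _) (mul_nonneg (hp0 _) (hp0 _)))
      (expect_nonneg' fun _ => expect_nonneg' fun _ => ind_nonneg _)
    rw [← expect_cols] at k3
    refine le_trans (le_of_eq ?_) (k3.trans (expect_mono fun ω => ?_))
    · rw [Fintype.prod_prod_type]
      simp only [Fintype.prod_bool]
      push_cast
      ring
    · rw [← ind_and]
      refine ind_mono ?_
      rintro ⟨⟨a1, a2, a3, a4⟩, b1, b2, b3, b4⟩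
      refine ⟨⟨fun j => ?_, a4.trans b4.symm⟩, funext fun s => ?_⟩
      · cases j
        · exact a3
        · exact b3
      · obtain ⟨i, j⟩ := s
        cases i <;> cases j <;> assumption
  · have hN' : (0 : ℝ) < N := by exact_mod_cast hN0
    calc ∑ a, ∑ g, |(𝔼 x, ind (Gm (crv u) i x = g ∧ part (pts (crv u i) x) = a)) -
          (𝔼 ξ, ind (part ξ = a)) / Fintype.card (JJ (crv u))|
        ≤ ∑ a, ∑ _g : JJ (crv u), (1 / (2000 * (2 ^ (P.k ^ 2)) ^ 2 * N) +
          (1 / 2 ^ P.r + 2 * ε) * 𝔼 ξ, ind (part ξ = a)) := by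
          refine Finset.sum_le_sum fun a _ => Finset.sum_le_sum fun g _ => ?_
          have e1 := hC i g a
          have e2 := mul_le_mul_of_nonneg_right (G_unif hP hε0 hε1 hW _ hN i g) (hp0 a)
          rw [← abs_of_nonneg (hp0 a), ← abs_mul, abs_of_nonneg (hp0 a), sub_mul,
            one_div_mul_eq_div] at e2
          exact (abs_sub_le _ _ _).trans (add_le_add e1 e2)
      _ = Fintype.card (JJ (crv u)) * (1 / (2000 * (2 ^ (P.k ^ 2)) ^ 2) +
          (1 / 2 ^ P.r + 2 * ε)) := by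
          simp only [Finset.sum_const, card_univ, nsmul_eq_mul]
          rw [← Finset.mul_sum, Finset.sum_add_distrib, ← Finset.mul_sum, hp1, Finset.sum_const,
            card_univ, nsmul_eq_mul, Fintype.card_fin]
          field_simp
      _ ≤ 2 ^ (P.k ^ 2) * (1 / (2000 * (2 ^ (P.k ^ 2)) ^ 2) +
          (1 / (16384 * (2 ^ (P.k ^ 2)) ^ 2) + 2 * (1 / (10000 * (2 ^ (P.k ^ 2)) ^ 2)))) := by
          gcongr
      _ ≤ _ := by
          push_cast
          generalize (2 : ℝ) ^ (P.k ^ 2) = x at hk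
          have hx : 0 < x := by linarith
          have : x * (1 / (2000 * x ^ 2) + (1 / (16384 * x ^ 2) + 2 * (1 / (10000 * x ^ 2)))) =
              (1 / 2000 + 1 / 16384 + 2 / 10000) / x := by
            field_simp
            ring
          rw [this, div_le_div_iff₀ hx (by positivity)]
          linarith

theorem ks_box (μ : Un P F → ℝ) (hμ : Adm μ) {ε δ : ℝ} (hT : TP2 μ ε) (c : Bool × Bool)
    (f : Key P F → ℝ) (hf : ∀ κ, |f κ| ≤ 2) (hB : Box (mixS c) f ≤ δ) :
    |mass μ fun u ω => ind (W0 u ω) * f (tp (key (crv u) ω))| ^ 4 ≤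
      (2 * 2 ^ (P.k ^ 2)) ^ 4 * (δ + 16 * ε) := by
  have hkey : ∀ u : Un P F, |𝔼 ω, ind (W0 u ω) * f (tp (key (crv u) ω))| ^ 4 ≤
      (2 * 2 ^ (P.k ^ 2)) ^ 4 * Box (mixS c.swap) fun ω => f (tp (key (crv u) ω)) := by
    intro u
    have h1 := box_data (mixS c.swap) (isMix_mixS _) (fun ω => f (tp (key (crv u) ω)))
      (fun ω => ind (W0 u ω))
      (fun ω => (Gm (crv u) c.swap.1 (ω c.swap), gam u c.swap.1 (ω c.swap)))
      (fun x y => by simp only [mixS, if_true]) (fun x y z h => ind_congr (W0_congr u fun s => by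
        by_cases hs : s = c.swap
        · simp only [mixS, hs, if_true]
          exact Prod.ext_iff.1 h
        · simp only [mixS, hs, if_false, and_self])) fun _ => abs_ind_le_one _
    have h2 := box_lemma (mixS c.swap) (isMix_mixS _) (fun ω => f (tp (key (crv u) ω)))
      (fun _ => 1) (fun _ => 1) (fun _ _ => rfl) (fun _ _ => rfl) (by simp) (by simp)
    have h3 : (Fintype.card (JJ (crv u) × ZMod 2) : ℝ) ≤ 2 * 2 ^ (P.k ^ 2) := by
      rw [Fintype.card_prod, ZMod.card, mul_comm]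
      exact_mod_cast Nat.mul_le_mul_left 2 (card_JJ_le (crv u))
    simp only [mul_comm (ind _)]
    refine h1.trans (mul_le_mul_of_nonneg_right ?_ ((by positivity : (0 : ℝ) ≤ _).trans h2))
    gcongr
  have h4 := hT (fun _ _ κ κ' => f (tp κ) * f (tp κ') * f (mixS c (tp κ) (tp κ')) *
    f (mixS c (tp κ') (tp κ)) / 16) fun _ _ κ κ' => by
      rw [abs_div, abs_mul, abs_mul, abs_mul, div_le_one (by norm_num)]
      calc _ ≤ (2 : ℝ) * 2 * 2 * 2 := by gcongr <;> apply hf
        _ = _ := by norm_num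
  have h5 : 𝔼 κ : Key P F, 𝔼 κ' : Key P F, f (tp κ) * f (tp κ') * f (mixS c (tp κ) (tp κ')) *
      f (mixS c (tp κ') (tp κ)) / 16 = Box (mixS c) f / 16 := by
    rw [Box, Finset.expect_div, ← expect_tp]
    refine Finset.expect_congr rfl fun κ _ => ?_
    rw [Finset.expect_div, ← expect_tp]
    simp only [tp_tp]
  have h6 : 𝔼 u, μ u * Box (mixS c.swap) (fun ω => f (tp (key (crv u) ω))) ≤ δ + 16 * ε := by
    rw [h5, Finset.expect_const univ_nonempty, Finset.expect_const univ_nonempty] at h4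
    have h7 := (abs_le.1 h4).2
    simp only [← Finset.expect_div, ← mul_div_assoc] at h7
    simp only [Box, key_mixS, tp_mixS] at h7 hB ⊢
    linarith
  rw [mass_eq]
  calc _ ≤ (𝔼 u, μ u * |𝔼 ω, ind (W0 u ω) * f (tp (key (crv u) ω))|) ^ 4 := by
        gcongr
        refine (abs_expect_le _).trans (le_of_eq (Finset.expect_congr rfl fun u _ => ?_))
        rw [abs_mul, abs_of_nonneg (hμ.nonneg u)]
    _ ≤ 𝔼 u, μ u * |𝔼 ω, ind (W0 u ω) * f (tp (key (crv u) ω))| ^ 4 :=
        pow_expect_le μ _ hμ.nonneg hμ.total.le (fun _ => abs_nonneg _) 4 (by norm_num)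
    _ ≤ 𝔼 u, (2 * 2 ^ (P.k ^ 2)) ^ 4 *
        (μ u * Box (mixS c.swap) fun ω => f (tp (key (crv u) ω))) :=
        expect_mono fun u => by
          rw [mul_left_comm]
          exact mul_le_mul_of_nonneg_left (hkey u) (hμ.nonneg u)
    _ ≤ _ := by
        rw [← Finset.mul_expect]
        gcongr

theorem light (μ : Un P F → ℝ) (hμ : Adm μ) {ε : ℝ} (hT : TP2 μ ε) :
    mass μ (fun u ω => ind (¬ Lt μ (key (crv u) ω))) ≤ 2 * ε := by
  have h1 := hT (fun _ _ κ _ => ind (¬ Lt μ κ)) fun _ _ _ _ => abs_ind_le_one _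
  simp only [Finset.expect_const univ_nonempty] at h1
  rw [← mass_eq] at h1
  have h2 := expect_Nw_mul μ (fun _ _ => 1) fun κ => ind (¬ Lt μ κ)
  simp only [one_mul] at h2
  have h3 : 𝔼 κ, 2 * ind (¬ Lt μ κ) ≤ 𝔼 κ, Nw μ (fun _ _ => 1) κ * ind (¬ Lt μ κ) :=
    expect_mono fun κ => by
      by_cases h : Lt μ κ
      · rw [ind_neg (not_not.2 h), mul_zero, mul_zero]
      · exact mul_le_mul_of_nonneg_right (not_le.1 h).le (ind_nonneg _)
  rw [← Finset.mul_expect, h2] at h3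
  have := (abs_le.1 h1).2
  linarith

end Vale.Agent.P060
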