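import Vale.Agent.P060.Basic

/-!
# Most units have nice curves (task NiceP)
rel_prob: if the relation space of v : ι → (Fin n → F) has dimension ≥ d there is a linearly
independent family co : Fin d → ι → F of relations; for fixed co the additive map
v ↦ (sum_a co s a • v a)_s is onto (Fin d → Fin n → F), so it vanishes with probability q^(-n d);
union bound over at most q^(|ι| d) families.
Nice1 α holds if the K+1 vectors α a are independent (d = 1, marginal bound sqrt q).
If the 2(K+1) vectors α i a have relation space of dimension ≤ 60 (d = 61, bound μ ≤ q^(30 n),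
(n - 2K - 2) 61 ≥ 30 n + 1) then so do the vectors hc (α i) a; a pair of coefficient vectors is of the
form (dot g (hc (α 0) a), dot g (hc (α 1) a)) iff it is orthogonal to all relations; so f of degree < k
satisfies IsF0 as soon as f, f X, f X^2 satisfy 60 linear conditions each, and 180 < 184 ≤ k.
-/

open Finset Polynomial
open scoped BigOperators

namespace Vale.Agent.P060

namespace NicePAux

theorem expect_surj {A B : Type} [AddCommGroup A] [AddCommGroup B] [Fintype A] [Fintype B]
    (φ : A →+ B) (hφ : Function.Surjective φ) (g : B → ℝ) : 𝔼 a, g (φ a) = 𝔼 b, g b := by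
  choose σ hσ using hφ
  have h1 : ∀ b, 𝔼 a, g (φ a) = 𝔼 a, g (b + φ a) := fun b => by
    rw [← expect_add_right (fun a => g (φ a)) (σ b)]
    simp only [map_add, hσ, add_comm]
  have h2 : ∀ a, 𝔼 b, g (b + φ a) = 𝔼 b, g b := fun a => expect_add_right g (φ a)
  calc 𝔼 a, g (φ a) = 𝔼 _b : B, 𝔼 a, g (φ a) := (Finset.expect_const univ_nonempty _).symm
    _ = 𝔼 b : B, 𝔼 a, g (b + φ a) := Finset.expect_congr rfl fun b _ => h1 b
    _ = 𝔼 a, 𝔼 b : B, g (b + φ a) := Finset.expect_comm _ _ _
    _ = 𝔼 _a : A, 𝔼 b : B, g b := Finset.expect_congr rfl fun a _ => h2 a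
    _ = _ := Finset.expect_const univ_nonempty _

theorem exists_dual {F κ O : Type} [Field F] [Fintype κ] [Fintype O] (w : κ → O → F) (c : κ → F)
    (h : ∀ ρ : κ → F, ∑ a, ρ a • w a = 0 → ∑ a, ρ a * c a = 0) :
    ∃ g : O → F, ∀ a, ∑ o, g o * w a o = c a := by
  classical
  let T : (κ → F) →ₗ[F] (O → F) := Fintype.linearCombination F w
  let lam : Module.Dual F (κ → F) := Fintype.linearCombination F c
  have hl : lam ∈ LinearMap.range T.dualMap := by
    rw [LinearMap.range_dualMap_eq_dualAnnihilator_ker, Submodule.mem_dualAnnihilator]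
    intro ρ hρ
    exact h ρ hρ
  obtain ⟨ψ, hψ⟩ := hl
  refine ⟨fun o => ψ (Pi.single o 1), fun a => ?_⟩
  have h1 : ψ (T (Pi.single a 1)) = lam (Pi.single a 1) := by rw [← hψ]; rfl
  have h2 : T (Pi.single a 1) = w a := by simp [T]
  have h3 : lam (Pi.single a 1) = c a := by simp [lam]
  rw [h2, h3] at h1
  rw [← h1, LinearMap.pi_apply_eq_sum_univ ψ (w a)]
  refine Finset.sum_congr rfl fun o _ => ?_
  rw [smul_eq_mul, mul_comm]
  refine congrArg (fun z => w a o * ψ z) ?_
  funext j
  simp [Pi.single_apply, eq_comm]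

theorem ev_sqrt (P : Par) (C ε : ℝ) (hε : 0 < ε) :
    Ev P fun F _ _ _ _ _ => C / √(Fintype.card F : ℝ) ≤ ε := by
  refine (ev_card P ((C / ε) ^ 2)).mono fun F _ _ _ _ _ _ h => ?_
  have hq : (0 : ℝ) < Fintype.card F := by exact_mod_cast Fintype.card_pos
  have h1 : C / ε ≤ √(Fintype.card F : ℝ) := Real.le_sqrt_of_sq_le h
  rw [div_le_iff₀ (Real.sqrt_pos.2 hq), mul_comm, ← div_le_iff₀ hε]
  exact h1

theorem pow_div_le {q : ℝ} (hq : 1 ≤ q) {a b : ℕ} (h : a + 1 ≤ b) : q ^ a / q ^ b ≤ 1 / q := by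
  have h0 : 0 < q := by linarith
  rw [div_le_div_iff₀ (by positivity) h0, one_mul, ← pow_succ]
  exact pow_le_pow_right₀ hq h

theorem sqrt_mul_div {q : ℝ} (hq : 0 < q) (C : ℝ) : √q * (C / q) = C / √q := by
  have h1 : 0 < √q := Real.sqrt_pos.2 hq
  have h2 : √q * √q = q := Real.mul_self_sqrt hq.le
  field_simp
  rw [sq, h2, mul_comm]

end NicePAux

open NicePAux

theorem rel_prob {F ι : Type} [Field F] [Fintype F] [Fintype ι] [DecidableEq ι] (n d : ℕ) :
    𝔼 v : ι → Fin n → F, ind (∃ co : Fin d → ι → F, LinearIndependent F co ∧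
      ∀ s, ∑ a, co s a • v a = 0) ≤
      (Fintype.card F : ℝ) ^ (Fintype.card ι * d) / (Fintype.card F : ℝ) ^ (n * d) := by
  classical
  have key : ∀ co : Fin d → ι → F, 𝔼 v : ι → Fin n → F, ind (LinearIndependent F co ∧
      ∀ s, ∑ a, co s a • v a = 0) ≤ 1 / (Fintype.card F : ℝ) ^ (n * d) := by
    intro co
    by_cases hco : LinearIndependent F co
    · let φ : (ι → Fin n → F) →+ (Fin d → Fin n → F) :=
        { toFun := fun v s => ∑ a, co s a • v a
          map_zero' := by funext s; simp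
          map_add' := fun v v' => by funext s; simp [Finset.sum_add_distrib] }
      have hφ : Function.Surjective φ := by
        intro y
        have h1 : ∀ i : Fin n, ∃ g : ι → F, ∀ s, ∑ a, g a * co s a = y s i := fun i =>
          exists_dual co (fun s => y s i) fun ρ hρ => by
            have := Fintype.linearIndependent_iff.1 hco ρ hρ
            simp [this]
        choose g hg using h1
        refine ⟨fun a i => g i a, ?_⟩
        funext s i
        rw [← hg i s]
        simp [φ, Finset.sum_apply, mul_comm]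
      have h2 := expect_surj φ hφ (fun y => ind (y = 0))
      rw [expect_ind_eq] at h2
      refine le_of_eq ?_
      have h3 : (Fintype.card (Fin d → Fin n → F) : ℝ) = (Fintype.card F : ℝ) ^ (n * d) := by
        simp [pow_mul]
      rw [← h3, ← h2]
      refine Finset.expect_congr rfl fun v _ => ind_congr ?_
      simp [hco, φ, funext_iff]
    · refine expect_le_of_le (by positivity) fun v => ?_
      rw [ind_neg (fun h => hco h.1)]
      positivity
  calc _ ≤ 𝔼 v : ι → Fin n → F, ∑ co : Fin d → ι → F, ind (LinearIndependent F co ∧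
        ∀ s, ∑ a, co s a • v a = 0) := expect_mono fun v => ind_exists_le _
    _ = ∑ co : Fin d → ι → F, 𝔼 v : ι → Fin n → F, ind (LinearIndependent F co ∧
        ∀ s, ∑ a, co s a • v a = 0) := Finset.expect_sum_comm _ _ _
    _ ≤ ∑ _co : Fin d → ι → F, 1 / (Fintype.card F : ℝ) ^ (n * d) :=
        Finset.sum_le_sum fun co _ => key co
    _ = _ := by simp [pow_mul, div_eq_mul_inv]

namespace NicePAux

/-- the relation space has dimension at least `d` -/
def Dep {F ι : Type} [Field F] [Fintype ι] {n : ℕ} (d : ℕ) (v : ι → Fin n → F) : Prop :=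
  ∃ co : Fin d → ι → F, LinearIndependent F co ∧ ∀ s, ∑ a, co s a • v a = 0

variable {P : Par} {F : Type} [Field F]

theorem pl_eq (α : Cur P F) (g : HV P F) (p : F[X]) (hp : p.natDegree ≤ P.K)
    (h : ∀ a : Fin (P.K + 1), dot g (hc α a) = p.coeff a) : pl α g = p := by
  rw [p.as_sum_range_C_mul_X_pow' (Nat.lt_succ_of_le hp), pl, ← Fin.sum_univ_eq_sum_range
    (fun a => C (p.coeff a) * X ^ a)]
  simp only [h]

theorem nice1_of (α : Cur P F) (h : ¬ Dep 1 α) : Nice1 α := by
  intro p hp
  obtain ⟨g, hg⟩ := exists_dual (hc α) (fun a => p.coeff a) fun ρ hρ => by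
    have h0 : ρ = 0 := by
      by_contra h0
      refine h ⟨fun _ => ρ, linearIndependent_unique_iff.2 h0, fun _ => ?_⟩
      funext i
      have := congrFun hρ (some i)
      simpa [hc, Finset.sum_apply] using this
    simp [h0]
  exact ⟨g, pl_eq α g p hp hg⟩

theorem isF0_of (hP : P.Ok) (α : Bool → Cur P F)
    (h : ¬ Dep 61 fun y : Bool × Fin (P.K + 1) => α y.1 y.2) (i : Bool) : ∃ f, IsF0 α i f := by
  classical
  let w : Bool × Fin (P.K + 1) → HV P F := fun y => hc (α y.1) y.2
  let Rel : Submodule F (Bool × Fin (P.K + 1) → F) :=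
    LinearMap.ker (Fintype.linearCombination F w)
  have hR : Module.finrank F Rel ≤ 60 := by
    by_contra h1
    obtain ⟨co, hco⟩ := exists_linearIndependent_of_le_finrank (R := F) (M := Rel) (n := 61)
      (by omega)
    refine h ⟨fun s => co s, hco.map' Rel.subtype (Submodule.ker_subtype _), fun s => ?_⟩
    funext j
    have h2 : ∑ a, (co s).1 a • w a = 0 := (co s).2
    have := congrFun h2 (some j)
    simpa [w, hc, Finset.sum_apply] using this
  let m : F[X] →ₗ[F] Module.Dual F (Bool × Fin (P.K + 1) → F) :=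
    ∑ a : Fin (P.K + 1), (lcoeff F a).smulRight (LinearMap.proj (i, a))
  have hm : ∀ q ρ, m q ρ = ∑ a : Fin (P.K + 1), ρ (i, a) * q.coeff a := by
    intro q ρ
    simp [m, LinearMap.sum_apply, mul_comm]
  let Λ : degreeLT F P.k →ₗ[F] (Fin 3 → Module.Dual F Rel) := LinearMap.pi fun j =>
    Rel.subtype.dualMap ∘ₗ m ∘ₗ LinearMap.mulRight F (X ^ (j : ℕ)) ∘ₗ (degreeLT F P.k).subtype
  have hk := hP.hk
  have hK := hP.K_ge
  have hker : LinearMap.ker Λ ≠ ⊥ := by
    apply LinearMap.ker_ne_bot_of_finrank_lt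
    rw [(degreeLTEquiv F P.k).finrank_eq, Module.finrank_pi_fintype]
    simp only [Subspace.dual_finrank_eq, Finset.sum_const, Finset.card_univ, Fintype.card_fin,
      smul_eq_mul, Module.finrank_fintype_fun_eq_card]
    omega
  obtain ⟨f, hf, hf0⟩ := Submodule.exists_mem_ne_zero_of_ne_bot hker
  have hf1 : (f : F[X]) ≠ 0 := fun h0 => hf0 (Subtype.ext h0)
  have hdeg : (f : F[X]).natDegree < P.k :=
    (natDegree_lt_iff_degree_lt hf1).2 (mem_degreeLT.1 f.2)
  have hj : ∀ (j : Fin 3) (ρ : Rel), m ((f : F[X]) * X ^ (j : ℕ)) ρ = 0 := by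
    intro j ρ
    have := congrFun (LinearMap.mem_ker.1 hf) j
    exact DFunLike.congr_fun this ρ
  refine ⟨f, hf1, hdeg, fun p hp => ?_⟩
  obtain ⟨g, hg⟩ := exists_dual w (fun y => if y.1 = i then (f * p : F[X]).coeff y.2 else 0)
    fun ρ hρ => by
      have h1 : m (f * p) ρ = 0 := by
        rw [p.as_sum_range_C_mul_X_pow' (Nat.lt_succ_of_le hp), ← Fin.sum_univ_eq_sum_range
          (fun a => C (p.coeff a) * X ^ a), Finset.mul_sum, map_sum, LinearMap.sum_apply]
        refine Finset.sum_eq_zero fun j _ => ?_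
        rw [mul_left_comm, ← smul_eq_C_mul, map_smul, LinearMap.smul_apply, hj j ⟨ρ, hρ⟩, smul_zero]
      rw [hm] at h1
      rw [Fintype.sum_prod_type, Finset.sum_eq_single i]
      · simpa using h1
      · intro i' _ hi'
        simp [hi']
      · simp
  refine ⟨g, pl_eq _ g _ ?_ fun a => ?_, pl_eq _ g _ (by simp) fun a => ?_⟩
  · exact natDegree_mul_le.trans (by omega)
  · exact (hg (i, a)).trans (if_pos rfl)
  · exact (hg (!i, a)).trans (by simp)

end NicePAux

theorem niceK_prob (P : Par) (hP : P.Ok) (ε : ℝ) (hε : 0 < ε) :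
    Ev P fun _ _ _ _ _ μ => 𝔼 u, μ u * ind (¬ ∀ h, NiceK (cur (crv u) h)) ≤ ε := by
  refine (ev_sqrt P 6 ε hε).mono fun F _ _ _ _ μ hμ hq => le_trans ?_ hq
  have hq1 : (1 : ℝ) ≤ Fintype.card F := by exact_mod_cast Fintype.card_pos
  have hq0 : (0 : ℝ) < Fintype.card F := by linarith
  have hn : 800 * (P.K + 1) ≤ P.n := by
    rw [hP.hn, mul_assoc]
    exact Nat.mul_le_mul_left _ (Nat.le_mul_of_pos_left _ (Nat.succ_pos _))
  have h1 : ∀ i h, 𝔼 u, μ u * ind (Dep 1 ((u i).1 h)) ≤ 1 / √(Fintype.card F : ℝ) := by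
    intro i h
    refine (hμ.marg i (fun v => ind (Dep 1 (v.1 h))) fun _ => ind_nonneg _).trans ?_
    rw [← sqrt_mul_div hq0]
    refine mul_le_mul_of_nonneg_left ?_ (Real.sqrt_nonneg _)
    let φ : Vx P F →+ Cur P F :=
      { toFun := fun v => v.1 h
        map_zero' := rfl
        map_add' := fun _ _ => rfl }
    refine (expect_surj φ (fun α => ⟨(fun _ => α, 0), rfl⟩) fun α => ind (Dep 1 α)).trans_le ?_
    refine (rel_prob P.n 1).trans (pow_div_le hq1 ?_)
    simp only [Fintype.card_fin]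
    omega
  have h2 : ∀ h, 𝔼 u, μ u * ind (Dep 61 fun y : Bool × Fin (P.K + 1) => (u y.1).1 h y.2) ≤
      1 / √(Fintype.card F : ℝ) := by
    intro h
    let φ : UC P F →+ (Bool × Fin (P.K + 1) → Fin P.n → F) :=
      { toFun := fun c y => c y.1 h y.2
        map_zero' := rfl
        map_add' := fun _ _ => rfl }
    have e : 𝔼 u : Un P F, ind (Dep 61 (φ (crv u))) =
        𝔼 v : Bool × Fin (P.K + 1) → Fin P.n → F, ind (Dep 61 v) := by
      rw [expect_un (fun c _ => ind (Dep 61 (φ c)))]
      simp only [Finset.expect_const univ_nonempty]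
      exact expect_surj φ (fun v => ⟨fun i _ a => v (i, a), rfl⟩) fun v => ind (Dep 61 v)
    calc _ ≤ 𝔼 u, (Fintype.card F : ℝ) ^ (30 * P.n) * ind (Dep 61 (φ (crv u))) :=
          expect_mono fun u => mul_le_mul_of_nonneg_right (hμ.le u) (ind_nonneg _)
      _ = (Fintype.card F : ℝ) ^ (30 * P.n) *
          𝔼 v : Bool × Fin (P.K + 1) → Fin P.n → F, ind (Dep 61 v) := by
          rw [← Finset.mul_expect, e]
      _ ≤ (Fintype.card F : ℝ) ^ (30 * P.n) * ((Fintype.card F : ℝ) ^
          (Fintype.card (Bool × Fin (P.K + 1)) * 61) / (Fintype.card F : ℝ) ^ (P.n * 61)) :=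
          mul_le_mul_of_nonneg_left (rel_prob P.n 61) (by positivity)
      _ ≤ 1 / (Fintype.card F : ℝ) := by
          rw [← mul_div_assoc, ← pow_add]
          refine pow_div_le hq1 ?_
          simp only [Fintype.card_prod, Fintype.card_bool, Fintype.card_fin]
          omega
      _ ≤ _ := by
          refine one_div_le_one_div_of_le (Real.sqrt_pos.2 hq0) ?_
          rw [Real.sqrt_le_left hq0.le]
          nlinarith
  calc _ ≤ 𝔼 u : Un P F, (∑ h : Bool, ∑ i : Bool, μ u * ind (Dep 1 ((u i).1 h)) +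
        ∑ h : Bool, μ u * ind (Dep 61 fun y : Bool × Fin (P.K + 1) => (u y.1).1 h y.2)) := by
        refine expect_mono fun u => ?_
        simp only [← Finset.mul_sum, ← mul_add]
        refine mul_le_mul_of_nonneg_left ?_ (hμ.nonneg u)
        refine le_trans (ind_mono (q := (∃ h i, Dep 1 ((u i).1 h)) ∨
          ∃ h, Dep 61 fun y : Bool × Fin (P.K + 1) => (u y.1).1 h y.2) fun hb => ?_)
          ((ind_or_le _ _).trans (add_le_add ((ind_exists_le _).trans
            (Finset.sum_le_sum fun h _ => ind_exists_le _)) (ind_exists_le _)))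
        by_contra hc
        push Not at hc
        exact hb fun h i => ⟨nice1_of _ (hc.1 h i), isF0_of hP (cur (crv u) h) (hc.2 h) i⟩
    _ = ∑ h : Bool, ∑ i : Bool, 𝔼 u : Un P F, μ u * ind (Dep 1 ((u i).1 h)) +
        ∑ h : Bool, 𝔼 u : Un P F, μ u * ind (Dep 61 fun y : Bool × Fin (P.K + 1) => (u y.1).1 h y.2) := by
        simp only [Finset.expect_add_distrib, Finset.expect_sum_comm]
    _ ≤ ∑ _h : Bool, ∑ _i : Bool, 1 / √(Fintype.card F : ℝ) +
        ∑ _h : Bool, 1 / √(Fintype.card F : ℝ) :=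
        add_le_add (Finset.sum_le_sum fun h _ => Finset.sum_le_sum fun i _ => h1 i h)
          (Finset.sum_le_sum fun h _ => h2 h)
    _ = _ := by simp; ring

end Vale.Agent.P060
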