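import Vale.Agent.P060.Basic

/-!
# One-sided weak regularity (task Reg)
For a partition part : Ξ → T let E c be the conditional expectation in slot c given part (average
over the y with part y = part (κ c) of G (update κ c y)).  The E c commute, are self-adjoint
idempotent, preserve the range [0, 2].  Energy = sum over c of avg (E c G)^2 ≤ 16; it does not decrease
under refinement.  If for some c and some b (|b| ≤ 1, not depending on slot c) the average over
y of |avg over the other slots of (G - E c G) b| exceeds δ/8, refine part by the sign a y of that inner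
average; the energy grows by at least (δ/8)^2.  At the end f c = E_(slots before c) (G - E c G) has
cut norm at most δ/8 (move the E to b), |f c| ≤ 2, so Box (mixS c) (f c) ≤ 8 δ/8; telescoping gives
G = E E E E G + sum f c, and E E E E G is a function Γ of the parts.
-/

open Finset Polynomial
open scoped BigOperators

namespace Vale.Agent.P060


namespace RegAux

variable {ι Ξ T : Type} [Fintype ι] [DecidableEq ι] [Fintype Ξ] [Nonempty Ξ]

/-- kernel of the conditional expectation -/
noncomputable def w (part : Ξ → T) (y z : Ξ) : ℝ :=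
  ind (part y = part z) / 𝔼 x, ind (part x = part z)

/-- conditional expectation in slot `c` -/
noncomputable def E (part : Ξ → T) (c : ι) (g : (ι → Ξ) → ℝ) : (ι → Ξ) → ℝ :=
  fun κ => 𝔼 y, w part y (κ c) * g (Function.update κ c y)

/-- depends on slot `c` only through the part -/
def Meas (part : Ξ → T) (c : ι) (g : (ι → Ξ) → ℝ) : Prop :=
  ∀ κ y, part y = part (κ c) → g (Function.update κ c y) = g κ

/-- one-sided cut norm bound -/
def Cut (c : ι) (h : (ι → Ξ) → ℝ) (η : ℝ) : Prop :=
  ∀ (a : Ξ → ℝ) (b : (ι → Ξ) → ℝ), (∀ y, |a y| ≤ 1) → (∀ κ, |b κ| ≤ 1) →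
    (∀ κ y, b (Function.update κ c y) = b κ) → 𝔼 κ, h κ * (a (κ c) * b κ) ≤ η

omit [Nonempty Ξ] in
theorem w_nonneg (part : Ξ → T) (y z : Ξ) : 0 ≤ w part y z :=
  div_nonneg (ind_nonneg _) (expect_nonneg' fun _ => ind_nonneg _)

omit [Nonempty Ξ] in
theorem w_congr (part : Ξ → T) (y : Ξ) {z z' : Ξ} (h : part z = part z') :
    w part y z = w part y z' := by
  simp only [w, h]

omit [Nonempty Ξ] in
theorem w_symm (part : Ξ → T) (y z : Ξ) : w part y z = w part z y := by
  by_cases h : part y = part z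
  · simp only [w, h]
  · simp only [w, ind_neg h, ind_neg (Ne.symm h), zero_div]

omit [Nonempty Ξ] in
theorem expect_w (part : Ξ → T) (z : Ξ) : 𝔼 y, w part y z = 1 := by
  have hpos : 0 < 𝔼 x, ind (part x = part z) := by
    rw [Finset.expect_eq_sum_div_card]
    refine div_pos ?_ (by exact_mod_cast Finset.card_pos.2 ⟨z, mem_univ _⟩)
    refine lt_of_lt_of_le ?_ (Finset.single_le_sum (f := fun x => ind (part x = part z))
      (fun x _ => ind_nonneg _) (mem_univ z))
    rw [ind_pos rfl]
    exact one_pos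
  simp only [w]
  rw [← Finset.expect_div, div_self hpos.ne']

omit [Fintype ι] [Nonempty Ξ] in
theorem E_le (part : Ξ → T) (c : ι) {g : (ι → Ξ) → ℝ} {B : ℝ} (h : ∀ κ, g κ ≤ B) (κ : ι → Ξ) :
    E part c g κ ≤ B := by
  calc E part c g κ ≤ 𝔼 y, w part y (κ c) * B :=
        expect_mono fun y => mul_le_mul_of_nonneg_left (h _) (w_nonneg _ _ _)
    _ = B := by rw [← Finset.expect_mul, expect_w, one_mul]

omit [Fintype ι] [Nonempty Ξ] in
theorem le_E (part : Ξ → T) (c : ι) {g : (ι → Ξ) → ℝ} {B : ℝ} (h : ∀ κ, B ≤ g κ) (κ : ι → Ξ) :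
    B ≤ E part c g κ := by
  calc B = 𝔼 y, w part y (κ c) * B := by rw [← Finset.expect_mul, expect_w, one_mul]
    _ ≤ E part c g κ := expect_mono fun y => mul_le_mul_of_nonneg_left (h _) (w_nonneg _ _ _)

omit [Fintype ι] [Nonempty Ξ] in
theorem abs_E_le (part : Ξ → T) (c : ι) {g : (ι → Ξ) → ℝ} {B : ℝ} (h : ∀ κ, |g κ| ≤ B)
    (κ : ι → Ξ) : |E part c g κ| ≤ B :=
  abs_le.2 ⟨le_E part c (fun κ => (abs_le.1 (h κ)).1) κ,
    E_le part c (fun κ => (abs_le.1 (h κ)).2) κ⟩

omit [Fintype ι] [Nonempty Ξ] in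
theorem E_sub (part : Ξ → T) (c : ι) (g g' : (ι → Ξ) → ℝ) :
    E part c (g - g') = E part c g - E part c g' := by
  funext κ
  simp only [E, Pi.sub_apply, mul_sub, Finset.expect_sub_distrib]

omit [Fintype ι] [Nonempty Ξ] in
theorem Meas.E_eq {part : Ξ → T} {c : ι} {g : (ι → Ξ) → ℝ} (h : Meas part c g) :
    E part c g = g := by
  funext κ
  have h1 : ∀ y, w part y (κ c) * g (Function.update κ c y) = w part y (κ c) * g κ := by
    intro y
    by_cases hy : part y = part (κ c)
    · rw [h κ y hy]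
    · simp only [w, ind_neg hy, zero_div, zero_mul]
  simp only [E, h1]
  rw [← Finset.expect_mul, expect_w, one_mul]

omit [Fintype ι] [Nonempty Ξ] in
theorem meas_E (part : Ξ → T) (c : ι) (g : (ι → Ξ) → ℝ) : Meas part c (E part c g) := by
  intro κ y hy
  simp only [E, Function.update_self, Function.update_idem, w_congr part _ hy]

omit [Fintype ι] [Nonempty Ξ] in
theorem Meas.E_ne {part : Ξ → T} {c c' : ι} {g : (ι → Ξ) → ℝ} (h : Meas part c g)
    (hne : c' ≠ c) : Meas part c (E part c' g) := by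
  intro κ y hy
  simp only [E, Function.update_of_ne hne]
  refine Finset.expect_congr rfl fun z _ => ?_
  rw [Function.update_comm hne.symm, h _ y (by rw [Function.update_of_ne hne.symm]; exact hy)]

theorem E_adj (part : Ξ → T) (c : ι) (g g' : (ι → Ξ) → ℝ) :
    𝔼 κ, E part c g κ * g' κ = 𝔼 κ, g κ * E part c g' κ := by
  rw [expect_update c, expect_update c (fun κ => g κ * E part c g' κ)]
  refine Finset.expect_congr rfl fun κ _ => ?_
  simp only [E, Function.update_self, Function.update_idem, Finset.expect_mul, Finset.mul_expect]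
  rw [Finset.expect_comm]
  refine Finset.expect_congr rfl fun y _ => Finset.expect_congr rfl fun z _ => ?_
  rw [w_symm part y z]
  ring

theorem Cut.E_ne {part : Ξ → T} {c c' : ι} {h : (ι → Ξ) → ℝ} {η : ℝ} (hc : Cut c h η)
    (hne : c' ≠ c) : Cut c (E part c' h) η := by
  intro a b ha hb hb'
  rw [E_adj]
  have h1 : E part c' (fun κ => a (κ c) * b κ) = fun κ => a (κ c) * E part c' b κ := by
    funext κ
    simp only [E, Function.update_of_ne hne.symm, Finset.mul_expect]
    exact Finset.expect_congr rfl fun y _ => by ring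
  rw [h1]
  refine hc a _ ha (abs_E_le part c' hb) fun κ y => ?_
  simp only [E, Function.update_of_ne hne]
  refine Finset.expect_congr rfl fun z _ => ?_
  rw [Function.update_comm hne.symm, hb']

theorem pyth {T' : Type} {part : Ξ → T} {part' : Ξ → T'}
    (hr : ∀ y z, part' y = part' z → part y = part z) (c : ι) (g : (ι → Ξ) → ℝ) :
    𝔼 κ, (E part' c g κ - E part c g κ) ^ 2 =
      (𝔼 κ, E part' c g κ ^ 2) - 𝔼 κ, E part c g κ ^ 2 := by
  have hm : Meas part' c (E part c g) := fun κ y hy => meas_E part c g κ y (hr _ _ hy)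
  have h1 : 𝔼 κ, E part' c g κ * E part c g κ = 𝔼 κ, E part c g κ ^ 2 := by
    rw [E_adj, hm.E_eq]
    simp only [sq]
    rw [E_adj, (meas_E part c g).E_eq]
  have h2 : ∀ κ, (E part' c g κ - E part c g κ) ^ 2 =
      E part' c g κ ^ 2 - 2 * (E part' c g κ * E part c g κ) + E part c g κ ^ 2 := fun κ => by ring
  simp only [h2, Finset.expect_add_distrib, Finset.expect_sub_distrib, ← Finset.mul_expect, h1]
  ring

theorem expect_slot (c : ι) (h : (ι → Ξ) → ℝ) (a : Ξ → ℝ) (b : (ι → Ξ) → ℝ)
    (hb : ∀ κ y, b (Function.update κ c y) = b κ) :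
    𝔼 κ, h κ * (a (κ c) * b κ) = 𝔼 y, a y * 𝔼 κ, h (Function.update κ c y) * b κ := by
  rw [expect_update c, Finset.expect_comm]
  refine Finset.expect_congr rfl fun y _ => ?_
  rw [Finset.mul_expect]
  refine Finset.expect_congr rfl fun κ _ => ?_
  simp only [Function.update_self, hb]
  ring

/-- energy increment -/
theorem incr {part : Ξ → T} {c : ι} {g : (ι → Ξ) → ℝ} {η : ℝ} (hη : 0 ≤ η)
    (hn : ¬ Cut c (g - E part c g) η) :
    ∃ σ : Ξ → Bool, ∀ {T' : Type} (part' : Ξ → T'),
      (∀ y z, part' y = part' z → part y = part z ∧ σ y = σ z) →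
      η ^ 2 + 𝔼 κ, E part c g κ ^ 2 ≤ 𝔼 κ, E part' c g κ ^ 2 := by
  classical
  simp only [Cut, not_forall, not_le] at hn
  obtain ⟨a, b, ha, hb, hb', hlt⟩ := hn
  set φ : Ξ → ℝ := fun y => 𝔼 κ, (g - E part c g) (Function.update κ c y) * b κ with hφ
  refine ⟨fun y => decide (0 ≤ φ y), fun part' hr => ?_⟩
  set a' : Ξ → ℝ := fun y => if 0 ≤ φ y then 1 else -1 with ha'
  have h1 : η < 𝔼 κ, (g - E part c g) κ * (a' (κ c) * b κ) := by
    refine hlt.trans_le ?_
    rw [expect_slot c _ a b hb', expect_slot c _ a' b hb']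
    refine expect_mono fun y => ?_
    change a y * φ y ≤ a' y * φ y
    have h2 := abs_le.1 (ha y)
    simp only [ha']
    split_ifs with h3
    · nlinarith
    · nlinarith [not_le.1 h3]
  have hm : Meas part' c fun κ => a' (κ c) * b κ := by
    intro κ y hy
    have h3 : (0 ≤ φ y) ↔ (0 ≤ φ (κ c)) := by simpa using (hr _ _ hy).2
    simp only [Function.update_self, hb', ha', h3]
  have hm' : Meas part' c (E part c g) := fun κ y hy => meas_E part c g κ y (hr _ _ hy).1
  have h4 : 𝔼 κ, (g - E part c g) κ * (a' (κ c) * b κ) =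
      𝔼 κ, (E part' c g κ - E part c g κ) * (a' (κ c) * b κ) := by
    have h5 := E_adj part' c (g - E part c g) fun κ => a' (κ c) * b κ
    rw [hm.E_eq, E_sub, hm'.E_eq] at h5
    exact h5.symm
  have h6 := Finset.expect_mul_sq_le_sq_mul_sq univ (fun κ => E part' c g κ - E part c g κ)
    fun κ => a' (κ c) * b κ
  have h7 : 𝔼 κ : ι → Ξ, (a' (κ c) * b κ) ^ 2 ≤ 1 := by
    refine expect_le_of_le zero_le_one fun κ => ?_
    have h8 : a' (κ c) ^ 2 = 1 := by
      simp only [ha']
      split_ifs <;> norm_num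
    rw [mul_pow, h8, one_mul, ← sq_abs]
    exact pow_le_one₀ (abs_nonneg _) (hb κ)
  have h9 := pyth (fun y z h => (hr y z h).1) c g
  have h10 : 0 ≤ 𝔼 κ, (E part' c g κ - E part c g κ) ^ 2 := expect_nonneg' fun _ => sq_nonneg _
  rw [h4] at h1
  have h11 := pow_le_pow_left₀ hη h1.le 2
  have h12 := mul_le_mul_of_nonneg_left h7 h10
  linarith

theorem iter (g : (ι → Ξ) → ℝ) {η : ℝ} (hη : 0 ≤ η) (j : ℕ) :
    ∃ part : Ξ → ℕ, (∀ y, part y < 2 ^ j) ∧
      ((∀ c, Cut c (g - E part c g) η) ∨ j * η ^ 2 ≤ ∑ c, 𝔼 κ, E part c g κ ^ 2) := by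
  induction j with
  | zero =>
    refine ⟨fun _ => 0, fun _ => by norm_num, Or.inr ?_⟩
    simp only [Nat.cast_zero, zero_mul]
    exact sum_nonneg fun c _ => expect_nonneg' fun _ => sq_nonneg _
  | succ j ih =>
    obtain ⟨part, hlt, h⟩ := ih
    by_cases hc : ∀ c, Cut c (g - E part c g) η
    · exact ⟨part, fun y => (hlt y).trans_le (Nat.pow_le_pow_right two_pos (Nat.le_succ j)),
        Or.inl hc⟩
    have h := h.resolve_left hc
    obtain ⟨c, hc⟩ := not_forall.1 hc
    obtain ⟨σ, hσ⟩ := incr hη hc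
    set part' : Ξ → ℕ := fun y => 2 * part y + (σ y).toNat with hp
    have hr : ∀ y z, part' y = part' z → part y = part z ∧ σ y = σ z := by
      intro y z hyz
      simp only [hp] at hyz
      revert hyz
      cases σ y <;> cases σ z <;> simp <;> omega
    refine ⟨part', fun y => ?_, Or.inr ?_⟩
    · have h1 := hlt y
      have h2 : (σ y).toNat ≤ 1 := Bool.toNat_le _
      simp only [hp, pow_succ]
      omega
    · have h1 := hσ part' hr
      have h2 : ∀ c', 𝔼 κ, E part c' g κ ^ 2 ≤ 𝔼 κ, E part' c' g κ ^ 2 := by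
        intro c'
        have h3 := pyth (fun y z h => (hr y z h).1) c' g
        have h4 : 0 ≤ 𝔼 κ, (E part' c' g κ - E part c' g κ) ^ 2 :=
          expect_nonneg' fun _ => sq_nonneg _
        linarith
      have h5 := Finset.sum_le_sum (s := univ.erase c) fun c' _ => h2 c'
      rw [← Finset.add_sum_erase _ _ (mem_univ c)] at h ⊢
      push_cast
      linarith

omit [Fintype Ξ] [Nonempty Ξ] in
theorem meas_all {part : Ξ → T} {g : (ι → Ξ) → ℝ} (h : ∀ c, Meas part c g) {κ κ' : ι → Ξ}
    (hκ : ∀ s, part (κ' s) = part (κ s)) : g κ' = g κ := by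
  have key : ∀ A : Finset ι, g (A.piecewise κ' κ) = g κ := by
    intro A
    induction A using Finset.induction_on with
    | empty => simp
    | insert s A hs ih =>
      rw [Finset.piecewise_insert, h s _ _ (by
        rw [Finset.piecewise_eq_of_notMem _ _ _ hs]; exact hκ s), ih]
  simpa using key univ

omit [Nonempty Ξ] in
theorem box_le {c : Bool × Bool} {h : (Bool × Bool → Ξ) → ℝ} {η : ℝ} (hη : 0 ≤ η)
    (hc : Cut c h η) (hb : ∀ κ, |h κ| ≤ 2) : Box (mixS c) h ≤ 8 * η := by
  have hmix : ∀ x y : Bool × Bool → Ξ, mixS c x y = Function.update y c (x c) := by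
    intro x y
    funext s
    by_cases hs : s = c
    · subst hs; simp [mixS]
    · simp [mixS, hs]
  simp only [Box, hmix]
  rw [Finset.expect_comm]
  refine expect_le_of_le (by positivity) fun y => ?_
  have h1 := hc (fun ξ => (h y / 2) * (h (Function.update y c ξ) / 2))
    (fun x => h (Function.update x c (y c)) / 2) (fun ξ => ?_) (fun x => ?_)
    (fun x ξ => by simp only [Function.update_idem])
  · refine le_trans (le_of_eq ?_) (mul_le_mul_of_nonneg_left h1 (by norm_num : (0 : ℝ) ≤ 8))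
    rw [Finset.mul_expect]
    exact Finset.expect_congr rfl fun x _ => by ring
  · rw [abs_mul, abs_div, abs_div, abs_two]
    have h2 := hb y
    have h3 := hb (Function.update y c ξ)
    exact mul_le_one₀ (by linarith) (by positivity) (by linarith)
  · rw [abs_div, abs_two]
    have h2 := hb (Function.update x c (y c))
    linarith

end RegAux

open RegAux in
theorem reg (δ : ℝ) (hδ : 0 < δ) : ∃ N : ℕ, 0 < N ∧ ∀ (Ξ : Type) [Fintype Ξ] [Nonempty Ξ]
    (G : (Bool × Bool → Ξ) → ℝ), (∀ κ, 0 ≤ G κ ∧ G κ ≤ 2) →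
    ∃ (part : Ξ → Fin N) (Γ : (Bool × Bool → Fin N) → ℝ)
      (f : Bool × Bool → (Bool × Bool → Ξ) → ℝ),
      (∀ κ, G κ = Γ (fun s => part (κ s)) + ∑ c, f c κ) ∧ (∀ c κ, |f c κ| ≤ 2) ∧
      (∀ c, Box (mixS c) (f c) ≤ δ) ∧ (∀ a, 0 ≤ Γ a ∧ Γ a ≤ 2) ∧
      ∀ a, Γ a * ∏ s, (𝔼 ξ, ind (part ξ = a s)) =
        𝔼 κ, G κ * ind ((fun s => part (κ s)) = a) := by
  classical
  set η := δ / 8 with hη
  have hη0 : 0 < η := by positivity
  obtain ⟨J, hJ⟩ := exists_nat_gt (16 / η ^ 2)
  refine ⟨2 ^ J, by positivity, fun Ξ _ _ G hG => ?_⟩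
  obtain ⟨p0, hlt, hp0⟩ := iter G hη0.le J
  have hE0 : ∀ {T : Type} (part : Ξ → T) (c : Bool × Bool) {g : (Bool × Bool → Ξ) → ℝ},
      (∀ κ, 0 ≤ g κ ∧ g κ ≤ 2) → ∀ κ, 0 ≤ E part c g κ ∧ E part c g κ ≤ 2 :=
    fun part c g hg κ => ⟨le_E part c (fun κ => (hg κ).1) κ, E_le part c (fun κ => (hg κ).2) κ⟩
  have hcut0 : ∀ c, Cut c (G - E p0 c G) η := by
    refine hp0.resolve_right (not_le.2 ?_)
    have h1 : ∑ c, 𝔼 κ, E p0 c G κ ^ 2 ≤ ∑ _c : Bool × Bool, (4 : ℝ) :=
      sum_le_sum fun c _ => expect_le_of_le (by norm_num) fun κ => by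
        have := hE0 p0 c hG κ
        nlinarith
    rw [div_lt_iff₀ (by positivity)] at hJ
    simp only [sum_const, card_univ, Fintype.card_prod, Fintype.card_bool, nsmul_eq_mul] at h1
    push_cast at h1
    linarith
  set part : Ξ → Fin (2 ^ J) := fun y => ⟨p0 y, hlt y⟩ with hpart
  have hE : ∀ c : Bool × Bool, E part c = E p0 c := by
    intro c
    funext g κ
    simp only [E, w, hpart, Fin.mk.injEq]
  have hcut : ∀ c, Cut c (G - E part c G) η := fun c => by rw [hE]; exact hcut0 c
  have hb : ∀ c κ, |(G - E part c G) κ| ≤ 2 := by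
    intro c κ
    have h1 := hG κ
    have h2 := hE0 part c hG κ
    rw [Pi.sub_apply, abs_le]
    constructor <;> linarith
  set G4 := E part (false, false) (E part (false, true) (E part (true, false)
    (E part (true, true) G))) with hG4
  have hG4r : ∀ κ, 0 ≤ G4 κ ∧ G4 κ ≤ 2 := hE0 _ _ (hE0 _ _ (hE0 _ _ (hE0 _ _ hG)))
  have hG4m : ∀ c, Meas part c G4 := by
    rintro ⟨_ | _, _ | _⟩
    · exact meas_E _ _ _
    · exact (meas_E _ _ _).E_ne (by decide)
    · exact ((meas_E _ _ _).E_ne (by decide)).E_ne (by decide)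
    · exact (((meas_E _ _ _).E_ne (by decide)).E_ne (by decide)).E_ne (by decide)
  set Γ : (Bool × Bool → Fin (2 ^ J)) → ℝ := fun a =>
    if h : ∃ κ : Bool × Bool → Ξ, (fun s => part (κ s)) = a then G4 h.choose else 0 with hΓ
  have hΓG : ∀ κ : Bool × Bool → Ξ, Γ (fun s => part (κ s)) = G4 κ := by
    intro κ
    have h : ∃ κ' : Bool × Bool → Ξ, (fun s => part (κ' s)) = fun s => part (κ s) := ⟨κ, rfl⟩
    simp only [hΓ, dif_pos h]
    exact meas_all hG4m fun s => congrFun h.choose_spec s
  set f : Bool × Bool → (Bool × Bool → Ξ) → ℝ := fun c =>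
    match c with
    | (false, false) => G - E part (false, false) G
    | (false, true) => E part (false, false) (G - E part (false, true) G)
    | (true, false) => E part (false, false) (E part (false, true) (G - E part (true, false) G))
    | (true, true) => E part (false, false) (E part (false, true) (E part (true, false)
        (G - E part (true, true) G))) with hf
  have hfb : ∀ c κ, |f c κ| ≤ 2 := by
    rintro ⟨_ | _, _ | _⟩
    · exact hb _
    · exact abs_E_le _ _ (hb _)
    · exact abs_E_le _ _ (abs_E_le _ _ (hb _))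
    · exact abs_E_le _ _ (abs_E_le _ _ (abs_E_le _ _ (hb _)))
  have hfc : ∀ c, Cut c (f c) η := by
    rintro ⟨_ | _, _ | _⟩
    · exact hcut _
    · exact (hcut _).E_ne (by decide)
    · exact ((hcut _).E_ne (by decide)).E_ne (by decide)
    · exact (((hcut _).E_ne (by decide)).E_ne (by decide)).E_ne (by decide)
  refine ⟨part, Γ, f, fun κ => ?_, hfb, fun c => ?_, fun a => ?_, fun a => ?_⟩
  · rw [hΓG]
    simp only [Fintype.sum_prod_type, Fintype.sum_bool, hf, E_sub, Pi.sub_apply, hG4]
    ring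
  · have := box_le hη0.le (hfc c) (hfb c)
    linarith
  · simp only [hΓ]
    split_ifs
    · exact hG4r _
    · norm_num
  · have hm : ∀ c, Meas part c fun κ : Bool × Bool → Ξ => ind ((fun s => part (κ s)) = a) := by
      intro c κ y hy
      have : (fun s => part (Function.update κ c y s)) = fun s => part (κ s) := by
        funext s
        by_cases hs : s = c
        · subst hs; rw [Function.update_self, hy]
        · rw [Function.update_of_ne hs]
      simp only [this]
    have h1 : 𝔼 κ, G4 κ * ind ((fun s => part (κ s)) = a) =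
        𝔼 κ, G κ * ind ((fun s => part (κ s)) = a) := by
      rw [hG4, E_adj, (hm _).E_eq, E_adj, (hm _).E_eq, E_adj, (hm _).E_eq, E_adj, (hm _).E_eq]
    rw [← h1, ← expect_prod_pi (fun s ξ => ind (part ξ = a s)), Finset.mul_expect]
    refine Finset.expect_congr rfl fun κ _ => ?_
    rw [← ind_forall, ind_congr funext_iff.symm]
    by_cases h : (fun s => part (κ s)) = a
    · rw [← hΓG κ, h]
    · rw [ind_neg h, mul_zero, mul_zero]

end Vale.Agent.P060
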