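import Vale.Agent.P060.TPabs
import Vale.Agent.P060.Indep

/-!
# Two-vertex equidistribution for units (task TP)
Apply tp_abs with B = Vx, p = vp, D = K + 1 = 16 t, ι = Bool × Bool × Bool (copy, column, half),
hf = half, μ a b = μ (fun i => if i then b else a), M = q^(30 n), Km = sqrt q, δ = ε / 4,
β = 1 / q^s with s = (t - 1) / 2.  A pair of Lab (resp. Key) is the same as a pair of ι → F
(resp. ι → Pt), one for each vertex.  Numerics: 2 s ≤ t - 1 gives hβδ for large q;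
(s - 8) 2 t ≥ 30 n + 1 follows from n = 800 (R+1) 16 t and t ≥ 400000 (R+1).
-/

open Finset Polynomial
open scoped BigOperators

namespace Vale.Agent.P060

namespace TPAux

/-- a pair of per-vertex families gives two copies of a slot family -/
def mk2 {X : Type} (o0 o1 : Bool × Bool × Bool → X) (cp : Bool) : Bool × Bool → Bool → X :=
  fun s h => cond s.1 (o1 (cp, s.2, h)) (o0 (cp, s.2, h))

def mkEquiv (X : Type) : (Bool × Bool × Bool → X) × (Bool × Bool × Bool → X) ≃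
    (Bool × Bool → Bool → X) × (Bool × Bool → Bool → X) where
  toFun z := (mk2 z.1 z.2 false, mk2 z.1 z.2 true)
  invFun w := (fun c => cond c.1 (w.2 (false, c.2.1) c.2.2) (w.1 (false, c.2.1) c.2.2),
    fun c => cond c.1 (w.2 (true, c.2.1) c.2.2) (w.1 (true, c.2.1) c.2.2))
  left_inv := by
    rintro ⟨o0, o1⟩
    refine Prod.ext ?_ ?_ <;> funext c <;> obtain ⟨c1, c2, c3⟩ := c <;> cases c1 <;> rfl
  right_inv := by
    rintro ⟨w0, w1⟩
    refine Prod.ext ?_ ?_ <;> funext c h <;> obtain ⟨c1, c2⟩ := c <;> cases c1 <;> rfl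

theorem expect_mk2 {X : Type} [Fintype X]
    (G : (Bool × Bool → Bool → X) → (Bool × Bool → Bool → X) → ℝ) :
    𝔼 ω, 𝔼 ω', G ω ω' = 𝔼 o0, 𝔼 o1, G (mk2 o0 o1 false) (mk2 o0 o1 true) := by
  rw [← expect_prod' (fun z : (Bool × Bool → Bool → X) × (Bool × Bool → Bool → X) => G z.1 z.2),
    ← expect_prod' (fun z : (Bool × Bool × Bool → X) × (Bool × Bool × Bool → X) =>
      G (mk2 z.1 z.2 false) (mk2 z.1 z.2 true))]
  exact (Fintype.expect_equiv (mkEquiv X) _ _ fun _ => rfl).symm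

theorem expect_unit {X : Type} [Fintype X] (Φ : (Bool → X) → ℝ) :
    𝔼 u, Φ u = 𝔼 a, 𝔼 b, Φ (fun i => cond i b a) := by
  rw [← expect_bool_fun (fun a b => Φ (fun i => cond i b a))]
  refine Finset.expect_congr rfl fun u _ => ?_
  congr 1
  funext i
  cases i <;> rfl

theorem key_mk2 {P : Par} {F : Type} [Field F] (a b : Vx P F) (o0 o1 : Bool × Bool × Bool → F)
    (cp : Bool) : key (crv (fun i => cond i b a)) (mk2 o0 o1 cp) =
      mk2 (fun c => vp a (c.2.2, o0 c)) (fun c => vp b (c.2.2, o1 c)) cp := by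
  funext s h
  obtain ⟨s1, s2⟩ := s
  cases s1 <;> rfl

theorem num1 {q A : ℝ} {t s : ℕ} (hq : 1 ≤ q) (hs : 2 * s + 1 ≤ t) {B δ : ℝ} (hδ : 0 < δ)
    (hA : A * B ^ t / δ ≤ q) : A * (B / q) ^ t / δ ≤ (1 / q ^ s) ^ 2 := by
  have hq0 : 0 < q := by linarith
  have e1 : A * (B / q) ^ t / δ = (A * B ^ t / δ) / q ^ t := by
    rw [div_pow]; field_simp
  have e2 : (1 / q ^ s) ^ 2 = q / q ^ (2 * s + 1) := by field_simp; ring
  rw [e1, e2]
  calc A * B ^ t / δ / q ^ t ≤ q / q ^ t := div_le_div_of_nonneg_right hA (by positivity)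
    _ ≤ _ := div_le_div_of_nonneg_left hq0.le (by positivity) (pow_le_pow_right₀ hq hs)

theorem num2 {q : ℝ} {s : ℕ} (hq : 1 ≤ q) (hs : 2 ≤ s) : √q * (1 / q ^ s) ≤ 1 / q := by
  have hq0 : 0 < q := by linarith
  have h1 : √q ≤ q := by
    rw [Real.sqrt_le_left hq0.le]; nlinarith
  have h2 : 1 / q ^ s ≤ 1 / q ^ 2 :=
    one_div_le_one_div_of_le (by positivity) (pow_le_pow_right₀ hq hs)
  calc √q * (1 / q ^ s) ≤ q * (1 / q ^ 2) := mul_le_mul h1 h2 (by positivity) hq0.le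
    _ = 1 / q := by field_simp

theorem num3 {q : ℝ} {s t N : ℕ} (hq : 1 ≤ q) (h : N + 16 * t + 1 ≤ s * (2 * t)) :
    q ^ N * (q ^ 8 * (1 / q ^ s)) ^ (2 * t) ≤ 1 / q := by
  have hq0 : 0 < q := by linarith
  have e1 : q ^ N * (q ^ 8 * (1 / q ^ s)) ^ (2 * t) = q ^ (N + 16 * t) / q ^ (s * (2 * t)) := by
    rw [mul_pow, one_div_pow, ← pow_mul, ← pow_mul, pow_add, show 8 * (2 * t) = 16 * t by ring]
    field_simp
  rw [e1, div_le_div_iff₀ (by positivity) hq0, one_mul, ← pow_succ]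
  exact pow_le_pow_right₀ hq h

end TPAux

open TPAux in
theorem tp2 (P : Par) (hP : P.Ok) (ε : ℝ) (hε : 0 < ε) :
    Ev P fun _ _ _ _ _ μ => TP2 μ ε := by
  refine ((ev_card P (2 * 16 ^ P.t * ((2 * P.t + 1) * 8 ^ 2) ^ P.t / (ε / 4) ^ (2 * P.t))).and
    (ev_card P (2 * (6 + 2 * ((2 * P.t + 1) * 8 ^ 2)) / ε))).mono ?_
  intro F _ _ _ _ μ hμ hq f hf1
  obtain ⟨hq1, hq2⟩ := hq
  set q : ℝ := (Fintype.card F : ℝ) with hqdef
  have hq : 1 ≤ q := by rw [hqdef]; exact_mod_cast Fintype.card_pos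
  have hq0 : 0 < q := by linarith
  have hK := hP.hK
  have ht1 := hP.ht1
  have hn := hP.hn
  have hcard : Fintype.card (Bool × Bool × Bool) = 8 := by simp
  have hs2 : 2 ≤ (P.t - 1) / 2 := by omega
  have hkey := tp_abs (ι := Bool × Bool × Bool) (P.K + 1) (vp : Vx P F → Bool × F → Pt P F) indep_vp
    (fun c => c.2.2) P.t (by rw [hcard]; omega) (fun a b => μ fun i => cond i b a)
    (q ^ (30 * P.n)) √q (1 / q ^ ((P.t - 1) / 2)) (ε / 4) (fun _ _ => hμ.nonneg _)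
    (fun _ _ => hμ.le _) (by rw [← expect_unit]; exact hμ.total) (Real.sqrt_nonneg _)
    (fun g hg => by
      have := hμ.marg false g hg
      rwa [expect_unit] at this)
    (fun g hg => by
      have := hμ.marg true g hg
      rwa [expect_unit] at this)
    (by positivity) (by positivity)
    (by
      rw [hcard]
      exact num1 hq (by omega) (by positivity) (by exact_mod_cast hq1))
    (fun o0 o1 ξ0 ξ1 => f (mk2 o0 o1 false) (mk2 o0 o1 true) (mk2 ξ0 ξ1 false) (mk2 ξ0 ξ1 true))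
    (fun _ _ _ _ => hf1 _ _ _ _)
  have e1 : (𝔼 u, μ u * 𝔼 ω, 𝔼 ω', f ω ω' (key (crv u) ω) (key (crv u) ω')) =
      𝔼 a : Vx P F, 𝔼 b : Vx P F, (μ fun i => cond i b a) * 𝔼 o0, 𝔼 o1,
        f (mk2 o0 o1 false) (mk2 o0 o1 true)
          (mk2 (fun c => vp a (c.2.2, o0 c)) (fun c => vp b (c.2.2, o1 c)) false)
          (mk2 (fun c => vp a (c.2.2, o0 c)) (fun c => vp b (c.2.2, o1 c)) true) := by
    rw [expect_unit]
    refine Finset.expect_congr rfl fun a _ => Finset.expect_congr rfl fun b _ => ?_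
    rw [expect_mk2]
    simp only [key_mk2]
  have e2 : (𝔼 ω, 𝔼 ω', 𝔼 κ, 𝔼 κ', f ω ω' κ κ') = 𝔼 o0, 𝔼 o1, 𝔼 ξ0, 𝔼 ξ1,
      f (mk2 o0 o1 false) (mk2 o0 o1 true) (mk2 ξ0 ξ1 false) (mk2 ξ0 ξ1 true) := by
    rw [expect_mk2]
    refine Finset.expect_congr rfl fun o0 _ => Finset.expect_congr rfl fun o1 _ => ?_
    exact expect_mk2 _
  rw [e1, e2]
  refine hkey.trans ?_
  rw [hcard]
  have n2 := num2 hq hs2
  have n3 : q ^ (30 * P.n) * (q ^ 8 * (1 / q ^ ((P.t - 1) / 2))) ^ (2 * P.t) ≤ 1 / q := by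
    refine num3 hq ?_
    have h1 : 192000 * (P.R + 1) + 9 ≤ (P.t - 1) / 2 := by omega
    have h2 := Nat.mul_le_mul_right (2 * P.t) h1
    rw [hn, hK]
    have h3 : (192000 * (P.R + 1) + 9) * (2 * P.t) =
      30 * (800 * (P.R + 1) * (16 * P.t)) + 18 * P.t := by ring
    omega
  have n4 : √q * (1 / q ^ ((P.t - 1) / 2)) ^ 2 ≤ 1 / q := by
    refine le_trans (mul_le_mul_of_nonneg_left ?_ (Real.sqrt_nonneg _)) n2
    have : 1 / q ^ ((P.t - 1) / 2) ≤ 1 := by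
      rw [div_le_one (by positivity)]; exact one_le_pow₀ hq
    have h0 : 0 ≤ 1 / q ^ ((P.t - 1) / 2) := by positivity
    nlinarith
  have n5 : (6 + 2 * ((2 * P.t + 1) * 8 ^ 2)) * (1 / q) ≤ ε / 2 := by
    rw [div_le_iff₀ hε] at hq2
    rw [mul_one_div, div_le_iff₀ hq0]
    linarith
  have n6 : (2 * (P.t : ℝ) + 1) * ((8 : ℕ) : ℝ) ^ 2 / q = ((2 * P.t + 1) * 8 ^ 2) * (1 / q) := by
    push_cast; ring
  rw [n6]
  linarith

end Vale.Agent.P060
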