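import Vale.Agent.P060.KSUnit
import Vale.Agent.P060.AL2
import Vale.Agent.P060.Reg
import Vale.Agent.P060.TP
import Vale.Agent.P060.F1
import Vale.Agent.P060.NiceP
import Vale.Agent.P060.Weyl
import Vale.Agent.P060.ChainAux

/-!
# Key stage (task KeyStage)
G κ = Nw μ (ind W0) κ * ind (Lt μ κ) ∈ [0,2]; Qf = avg G κ G (tp κ).  J0 = 2^(k^2), τ = 4^(2 J0),
θ = (1/(500 J0))^4, η = 1/(250000 τ), c = θ^2 (η/2)^4 / τ^4.  Take δ with 4 ((2 J0)^4 2δ)^(1/4) ≤ c/4 and reg δ.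
Structured part: sum_a Πp a Γ a Γ (tp a) ≥ c - 3 (2ε) by str, al2, ks_unit (good u = μ u ≠ 0, NiceK, Close;
e a = mass of (not Lt and parts = a)).  Each f c contributes at most the ks_box bound plus 2 * 2ε.
-/

open Finset Polynomial
open scoped BigOperators

namespace Vale.Agent.P060

section
variable {P : Par} {F : Type} [Field F] [Fintype F] [DecidableEq F] [Algebra (ZMod 2) F]

theorem ks_err (μ : Un P F → ℝ) (hμ : Adm μ) {ε δ η : ℝ} (hT : TP2 μ ε) (hη : 0 ≤ η)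
    (hδ : (2 * 2 ^ (P.k ^ 2)) ^ 4 * (δ + 16 * ε) ≤ η ^ 4) (c : Bool × Bool)
    (f : Key P F → ℝ) (hf : ∀ κ, |f κ| ≤ 2) (hB : Box (mixS c) f ≤ δ) :
    -(η + 4 * ε) ≤
      𝔼 κ, f κ * Nw μ (fun u ω => ind (W0 u ω ∧ Lt μ (key (crv u) ω))) (tp κ) := by
  have e1 : 𝔼 κ, f κ * Nw μ (fun u ω => ind (W0 u ω ∧ Lt μ (key (crv u) ω))) (tp κ) =
      mass μ fun u ω => ind (W0 u ω ∧ Lt μ (key (crv u) ω)) * f (tp (key (crv u) ω)) := by
    rw [← expect_Nw_mul μ _ fun κ => f (tp κ), ← expect_tp]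
    simp only [tp_tp, mul_comm]
  have e2 : |mass μ fun u ω => ind (W0 u ω) * f (tp (key (crv u) ω))| ≤ η :=
    le_of_pow_le_pow_left₀ (by norm_num) hη ((ks_box μ hμ hT c f hf hB).trans hδ)
  have e3 := light μ hμ hT
  have e4 : mass μ (fun u ω => ind (W0 u ω) * f (tp (key (crv u) ω))) ≤
      mass μ (fun u ω => ind (W0 u ω ∧ Lt μ (key (crv u) ω)) * f (tp (key (crv u) ω))) +
        mass μ (fun u ω => ind (¬ Lt μ (key (crv u) ω))) * 2 := by
    rw [← mass_mul_const, ← mass_add]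
    refine mass_mono hμ.nonneg fun u ω => ?_
    have := abs_le.1 (hf (tp (key (crv u) ω)))
    by_cases h : Lt μ (key (crv u) ω) <;> by_cases h' : W0 u ω <;>
      simp [h, h', ind_pos, ind_neg, this.2]
  rw [e1]
  linarith [(abs_le.1 e2).1]

omit [Field F] [DecidableEq F] [Algebra (ZMod 2) F] in
theorem ks_struct {N : ℕ} (part : (Bool → Pt P F) → Fin N) (G : Key P F → ℝ)
    (Γ : (Bool × Bool → Fin N) → ℝ)
    (hΓ : ∀ a, Γ a * ∏ s, (𝔼 ξ, ind (part ξ = a s)) =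
      𝔼 κ, G κ * ind ((fun s => part (κ s)) = a)) :
    𝔼 κ : Key P F, Γ (fun s => part (κ s)) * G (tp κ) =
      ∑ a : Bool × Bool → Fin N, (∏ s, 𝔼 ξ, ind (part ξ = a s)) * (Γ a * Γ (tp a)) := by
  have e1 : ∀ κ : Key P F, Γ (fun s => part (κ s)) * G (tp κ) =
      ∑ a : Bool × Bool → Fin N, Γ a * (G (tp κ) * ind ((fun s => part (tp κ s)) = tp a)) := by
    intro κ
    rw [Finset.sum_eq_single (fun s => part (κ s))]
    · rw [ind_pos (by rfl), mul_one]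
    · intro a _ ha
      rw [ind_neg, mul_zero, mul_zero]
      intro h
      apply ha
      rw [← tp_tp a, ← h]
      rfl
    · simp
  simp only [e1, Finset.expect_sum_comm, ← Finset.mul_expect]
  refine Finset.sum_congr rfl fun a _ => ?_
  rw [expect_tp fun κ : Key P F => G κ * ind ((fun s => part (κ s)) = tp a), ← hΓ]
  have : ∏ s, (𝔼 ξ, ind (part ξ = tp a s)) = ∏ s, 𝔼 ξ, ind (part ξ = a s) :=
    Fintype.prod_equiv (Equiv.prodComm Bool Bool) _ _ fun s => rfl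
  rw [this]; ring

theorem ks_core (hP : P.Ok) (μ : Un P F → ℝ) (hμ : Adm μ) {ε δ η : ℝ} (hε0 : 0 ≤ ε)
    (hε : ε ≤ 1 / (10000 * (2 ^ (P.k ^ 2)) ^ 2)) (hε4 : ε ≤ 1 / 4) (hT : TP2 μ ε)
    (hW : Weyl F (3 * P.K) ε) (hη : 0 ≤ η)
    (hδ : (2 * 2 ^ (P.k ^ 2)) ^ 4 * (δ + 16 * ε) ≤ η ^ 4) {N : ℕ} (hN0 : 0 < N)
    (hreg : ∀ (G : (Bool × Bool → Bool → Pt P F) → ℝ), (∀ κ, 0 ≤ G κ ∧ G κ ≤ 2) →
      ∃ (part : (Bool → Pt P F) → Fin N) (Γ : (Bool × Bool → Fin N) → ℝ)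
        (f : Bool × Bool → (Bool × Bool → Bool → Pt P F) → ℝ),
        (∀ κ, G κ = Γ (fun s => part (κ s)) + ∑ c, f c κ) ∧ (∀ c κ, |f c κ| ≤ 2) ∧
        (∀ c, Box (mixS c) (f c) ≤ δ) ∧ (∀ a, 0 ≤ Γ a ∧ Γ a ≤ 2) ∧
        ∀ a, Γ a * ∏ s, (𝔼 ξ, ind (part ξ = a s)) =
          𝔼 κ, G κ * ind ((fun s => part (κ s)) = a))
    (hN : 𝔼 u, μ u * ind (¬ ∀ h, NiceK (cur (crv u) h)) ≤ ε)
    (hC : ∀ part : (Bool → Pt P F) → Fin N,
      𝔼 u, μ u * ind (¬ Close part (1 / (2000 * (2 ^ (P.k ^ 2)) ^ 2 * N)) (crv u)) ≤ ε) :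
    ((1 / (500 * 2 ^ (P.k ^ 2) : ℝ)) ^ 4) ^ 2 *
      ((1 / (250000 * 4 ^ (2 * 2 ^ (P.k ^ 2)) : ℝ) / 2) ^ 4 /
        ((4 ^ (2 * 2 ^ (P.k ^ 2)) : ℕ) : ℝ) ^ 4) - 4 * η - 22 * ε ≤
      Qf μ (fun u ω => ind (W0 u ω ∧ Lt μ (key (crv u) ω)))
        (fun u ω => ind (W0 u ω ∧ Lt μ (key (crv u) ω))) := by
  set wl : Un P F → Lab F → ℝ := fun u ω => ind (W0 u ω ∧ Lt μ (key (crv u) ω)) with hwl
  obtain ⟨part, Γ, f, hG, hf, hB, hΓ2, hΓ⟩ := hreg (Nw μ wl) fun κ =>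
    ⟨Nw_nonneg hμ.nonneg (fun u ω => ind_nonneg _) κ,
      Nw_le_two hμ.nonneg (fun u ω => ind_mono fun h => h.2) κ⟩
  set θ : ℝ := (1 / (500 * 2 ^ (P.k ^ 2) : ℝ)) ^ 4 with hθ
  set η1 : ℝ := 1 / (250000 * 4 ^ (2 * 2 ^ (P.k ^ 2)) : ℝ) with hη1
  set p : Fin N → ℝ := fun a => 𝔼 ξ, ind (part ξ = a) with hp
  have hp0 : ∀ a, 0 ≤ p a := fun a => expect_nonneg' fun _ => ind_nonneg _
  have hp1 : ∑ a, p a = 1 := by
    simp only [hp, ← Finset.expect_sum_comm, sum_ind_eq]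
    simp
  set good : Un P F → Prop := fun u => μ u ≠ 0 ∧ (∀ h, NiceK (cur (crv u) h)) ∧
    Close part (1 / (2000 * (2 ^ (P.k ^ 2)) ^ 2 * N)) (crv u) with hgood
  have hex : ∀ u, ∃ (ty : Fin N → Fin (4 ^ (2 * 2 ^ (P.k ^ 2))))
      (Rel : ZMod 2 → Fin (4 ^ (2 * 2 ^ (P.k ^ 2))) → Fin (4 ^ (2 * 2 ^ (P.k ^ 2))) → Prop),
      good u → (∀ (a : Bool × Bool → Fin N) σ,
        Rel σ (ty (a (false, false))) (ty (a (true, false))) →
        Rel σ (ty (a (false, true))) (ty (a (true, true))) →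
        θ * ∏ s, p (a s) ≤ 𝔼 ω, ind (W0 u ω ∧ (fun s => part (key (crv u) ω s)) = a)) ∧
      η1 ≤ ∑ a, ∑ b, p a * p b * ind (∃ σ, Rel σ (ty a) (ty b) ∧ Rel σ (ty b) (ty a)) := by
    intro u
    by_cases hu : good u
    · obtain ⟨ty, Rel, h⟩ := ks_unit hP hε0 hε hW hN0 part u hu.2.1 (hμ.supp u hu.1) hu.2.2
      exact ⟨ty, Rel, fun _ => h⟩
    · exact ⟨fun _ => ⟨0, by positivity⟩, fun _ _ _ => True, fun h => absurd h hu⟩
  choose ty Rel hty using hex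
  have hg2 : 1 / 2 ≤ 𝔼 u, μ u * ind (good u) := by
    have a1 : 𝔼 u, μ u ≤ 𝔼 u, (μ u * ind (good u) + μ u * ind (¬ ∀ h, NiceK (cur (crv u) h)) +
        μ u * ind (¬ Close part (1 / (2000 * (2 ^ (P.k ^ 2)) ^ 2 * N)) (crv u))) := by
      refine expect_mono fun u => ?_
      have m0 := hμ.nonneg u
      have n1 := mul_nonneg m0 (ind_nonneg (good u))
      have n2 := mul_nonneg m0 (ind_nonneg (¬ ∀ h, NiceK (cur (crv u) h)))
      have n3 := mul_nonneg m0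
        (ind_nonneg (¬ Close part (1 / (2000 * (2 ^ (P.k ^ 2)) ^ 2 * N)) (crv u)))
      by_cases h0 : μ u = 0
      · rw [h0]; simp
      by_cases h1 : ∀ h, NiceK (cur (crv u) h)
      swap
      · rw [ind_pos h1]; linarith
      by_cases h2 : Close part (1 / (2000 * (2 ^ (P.k ^ 2)) ^ 2 * N)) (crv u)
      swap
      · rw [ind_pos h2]; linarith
      rw [ind_pos (p := good u) ⟨h0, h1, h2⟩]; linarith
    rw [Finset.expect_add_distrib, Finset.expect_add_distrib, hμ.total] at a1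
    linarith [hC part]
  set Rr : (Bool × Bool → Fin N) → ℝ := fun a => 𝔼 u, μ u * ind (good u ∧ ∃ σ,
      Rel u σ (ty u (a (false, false))) (ty u (a (true, false))) ∧
      Rel u σ (ty u (a (false, true))) (ty u (a (true, true)))) with hRr
  have hη10 : 0 ≤ η1 := by positivity
  have h2 := al2 μ hμ.nonneg hμ.total.le good hg2 p hp0 hp1 ty Rel η1 hη10
    (fun u hu => (hty u hu).2) Rr (fun a => rfl)
  have hθ0 : 0 ≤ θ := by positivity
  have hθ1 : θ ≤ 1 := by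
    refine pow_le_one₀ (by positivity) ?_
    rw [div_le_one (by positivity)]
    have : (1 : ℝ) ≤ 2 ^ (P.k ^ 2) := one_le_pow₀ (by norm_num)
    linarith
  have h3 := str p hp0 Γ Rr (fun a => mass μ fun u ω => ind (¬ Lt μ (key (crv u) ω)) *
      ind ((fun s => part (key (crv u) ω s)) = a)) θ (2 * ε) hθ0 hθ1 hΓ2
    (fun a => ⟨expect_nonneg' fun u => mul_nonneg (hμ.nonneg u) (ind_nonneg _), by
      rw [← hμ.total]
      exact expect_mono fun u => mul_le_of_le_one_right (hμ.nonneg u) (ind_le_one _)⟩)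
    (fun a => expect_nonneg' fun u => expect_nonneg' fun ω =>
      mul_nonneg (hμ.nonneg u) (mul_nonneg (ind_nonneg _) (ind_nonneg _)))
    (by
      rw [← mass_sum]
      simp only [← Finset.mul_sum, sum_ind_eq, mul_one]
      exact light μ hμ hT)
    (fun a => by
      rw [hΓ a, expect_Nw_mul μ wl fun κ => ind ((fun s => part (κ s)) = a), sub_le_iff_le_add,
        ← mass_add]
      calc θ * (∏ s, p (a s)) * Rr a
          ≤ mass μ fun u ω => ind (W0 u ω ∧ (fun s => part (key (crv u) ω s)) = a) := by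
            rw [mass_eq, hRr, Finset.mul_expect]
            refine expect_mono fun u => ?_
            rw [mul_left_comm]
            refine mul_le_mul_of_nonneg_left ?_ (hμ.nonneg u)
            by_cases hu : good u ∧ ∃ σ,
                Rel u σ (ty u (a (false, false))) (ty u (a (true, false))) ∧
                Rel u σ (ty u (a (false, true))) (ty u (a (true, true)))
            · rw [ind_pos hu, mul_one]
              obtain ⟨hu, σ, r1, r2⟩ := hu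
              exact (hty u hu).1 a σ r1 r2
            · rw [ind_neg hu, mul_zero]
              exact expect_nonneg' fun _ => ind_nonneg _
        _ ≤ _ := by
            refine mass_mono hμ.nonneg fun u ω => ?_
            simp only [hwl, ind_and, ind_not]
            have b0 := ind_nonneg ((fun s => part (key (crv u) ω s)) = a)
            have b1 := ind_le_one (W0 u ω)
            have b2 := ind_le_one (Lt μ (key (crv u) ω))
            nlinarith [mul_nonneg (mul_nonneg (sub_nonneg.2 b1) (sub_nonneg.2 b2)) b0])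
  have h4 : Qf μ wl wl = (𝔼 κ : Key P F, Γ (fun s => part (κ s)) * Nw μ wl (tp κ)) +
      ∑ c, 𝔼 κ : Key P F, f c κ * Nw μ wl (tp κ) := by
    rw [Qf, ← Finset.expect_sum_comm, ← Finset.expect_add_distrib]
    refine Finset.expect_congr rfl fun κ _ => ?_
    rw [hG κ, add_mul, Finset.sum_mul]
  have h5 : ∑ _c : Bool × Bool, -(η + 4 * ε) ≤ ∑ c, 𝔼 κ : Key P F, f c κ * Nw μ wl (tp κ) :=
    Finset.sum_le_sum fun c _ => ks_err μ hμ hT hη hδ c (f c) (hf c) (hB c)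
  rw [ks_struct part (Nw μ wl) Γ hΓ] at h4
  simp only [Finset.sum_const, Finset.card_univ, Fintype.card_prod, Fintype.card_bool,
    nsmul_eq_mul] at h5
  push_cast at h5
  have h6 := mul_le_mul_of_nonneg_left h2 (pow_nonneg hθ0 2)
  linarith

end

theorem keystage (k : ℕ) : ∃ c1 : ℝ, 0 < c1 ∧ ∀ P : Par, P.Ok → P.k = k →
    Ev P fun _ _ _ _ _ μ => c1 ≤ Qf μ (fun u ω => ind (W0 u ω ∧ Lt μ (key (crv u) ω)))
      (fun u ω => ind (W0 u ω ∧ Lt μ (key (crv u) ω))) := by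
  set c : ℝ := ((1 / (500 * 2 ^ (k ^ 2) : ℝ)) ^ 4) ^ 2 *
      ((1 / (250000 * 4 ^ (2 * 2 ^ (k ^ 2)) : ℝ) / 2) ^ 4 /
        ((4 ^ (2 * 2 ^ (k ^ 2)) : ℕ) : ℝ) ^ 4) with hc
  have hc0 : 0 < c := by positivity
  refine ⟨c / 2, by positivity, fun P hP hk => ?_⟩
  subst hk
  set δ : ℝ := (c / 16) ^ 4 / (2 * (2 * 2 ^ (P.k ^ 2)) ^ 4) with hδ
  have hδ0 : 0 < δ := by positivity
  obtain ⟨N, hN0, hreg⟩ := reg δ hδ0
  set ε : ℝ := min (min (δ / 16) (c / 88)) (min (1 / (10000 * (2 ^ (P.k ^ 2)) ^ 2)) (1 / 4))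
    with hε
  have hε0 : 0 < ε := lt_min (lt_min (by positivity) (by positivity))
    (lt_min (by positivity) (by positivity))
  have hε1 : ε ≤ δ / 16 := (min_le_left _ _).trans (min_le_left _ _)
  have hε2 : ε ≤ c / 88 := (min_le_left _ _).trans (min_le_right _ _)
  have hε3 : ε ≤ 1 / (10000 * (2 ^ (P.k ^ 2)) ^ 2) := (min_le_right _ _).trans (min_le_left _ _)
  have hε4 : ε ≤ 1 / 4 := (min_le_right _ _).trans (min_le_right _ _)
  have hNR : (0 : ℝ) < N := by exact_mod_cast hN0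
  refine ((((tp2 P hP ε hε0).and (ev_weyl P ε hε0)).and (niceK_prob P hP ε hε0)).and
    (close_prob P hP N (1 / (2000 * (2 ^ (P.k ^ 2)) ^ 2 * N)) ε (by positivity) hε0)).mono ?_
  rintro F _ _ _ _ μ hμ ⟨⟨⟨h1, h2⟩, h3⟩, h4⟩
  have h := ks_core hP μ hμ (δ := δ) (η := c / 16) hε0.le hε3 hε4 h1 h2 (by positivity) (by
    have : (2 * 2 ^ (P.k ^ 2) : ℝ) ^ 4 * (2 * δ) = (c / 16) ^ 4 := by
      rw [hδ]; field_simp
    rw [← this]
    exact mul_le_mul_of_nonneg_left (by linarith) (by positivity)) hN0 (hreg _) h3 h4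
  rw [← hc] at h
  linarith

end Vale.Agent.P060
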