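import Vale.Agent.P060.Basic

/-! # Collisions of places (auxiliary for Moment and Rare) -/

open Finset Polynomial
open scoped BigOperators

namespace Vale.Agent.P060.MomentAux

/-- two places of `ω` coincide, or one of them is a place of an element of `T` -/
def Col {L ι : Type} (hf : ι → Bool) (ω : ι → L) (T : Finset (ι → L)) : Prop :=
  (∃ c c', c ≠ c' ∧ (hf c, ω c) = (hf c', ω c')) ∨ ∃ ω' ∈ T, ∃ c c', (hf c, ω c) = (hf c', ω' c')

theorem col_prob {L ι : Type} [Fintype L] [Nonempty L] [Fintype ι] [DecidableEq ι]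
    (hf : ι → Bool) (T : Finset (ι → L)) :
    𝔼 ω, ind (Col hf ω T) ≤ (T.card + 1) * (Fintype.card ι : ℝ) ^ 2 / Fintype.card L := by
  classical
  have h1 : ∀ (c : ι) (a : L), 𝔼 ω : ι → L, ind (ω c = a) = 1 / (Fintype.card L : ℝ) := by
    intro c a
    rw [expect_update c]
    simp [expect_ind_eq]
  have h2 : ∀ c c' : ι, 𝔼 ω : ι → L, ind (c ≠ c' ∧ ω c = ω c') ≤ 1 / (Fintype.card L : ℝ) := by
    intro c c'
    by_cases h : c = c'
    · simp [h, ind_neg]
    · rw [expect_update c]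
      simp [expect_ind_eq, h, Function.update_of_ne (Ne.symm h)]
  have h3 : ∀ ω : ι → L, ind (Col hf ω T) ≤ ∑ c, ∑ c', ind (c ≠ c' ∧ ω c = ω c') +
      ∑ ω' ∈ T, ∑ c, ∑ c', ind (ω c = ω' c') := by
    intro ω
    have n1 : 0 ≤ ∑ c, ∑ c', ind (c ≠ c' ∧ ω c = ω c') :=
      sum_nonneg fun _ _ => sum_nonneg fun _ _ => ind_nonneg _
    have n2 : ∀ ω' : ι → L, 0 ≤ ∑ c, ∑ c', ind (ω c = ω' c') := fun _ =>
      sum_nonneg fun _ _ => sum_nonneg fun _ _ => ind_nonneg _
    have ex : ∀ p : ι → ι → Prop, (∃ c c', p c c') → 1 ≤ ∑ c, ∑ c', ind (p c c') := fun p h => by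
      rw [← ind_pos h]
      exact (ind_exists_le _).trans (sum_le_sum fun c _ => ind_exists_le _)
    by_cases h : Col hf ω T
    · rw [ind_pos h]
      rcases h with ⟨c, c', a, b⟩ | ⟨ω', hω', c, c', b⟩
      · have := ex (fun c c' => c ≠ c' ∧ ω c = ω c') ⟨c, c', a, congrArg Prod.snd b⟩
        linarith [sum_nonneg fun ω' (_ : ω' ∈ T) => n2 ω']
      · have := ex (fun c c' => ω c = ω' c') ⟨c, c', congrArg Prod.snd b⟩
        linarith [single_le_sum (fun ω' (_ : ω' ∈ T) => n2 ω') hω']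
    · rw [ind_neg h]
      exact add_nonneg n1 (sum_nonneg fun ω' _ => n2 ω')
  refine (expect_mono h3).trans ?_
  simp only [expect_add_distrib, expect_sum_comm, h1]
  have := sum_le_sum fun c (_ : c ∈ univ) => sum_le_sum fun c' (_ : c' ∈ univ) => h2 c c'
  simp only [sum_const, card_univ, nsmul_eq_mul] at this ⊢
  refine (add_le_add this le_rfl).trans (le_of_eq ?_)
  ring

end Vale.Agent.P060.MomentAux
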