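import Vale.Agent.P060.Hit
import Vale.Agent.P060.MomentAux

/-!
# Moment bound for U-statistics (task Moment)
Expand the 2t-th power as an average over ω : Fin (2t) → ι → L.  Call ω s hit by a set T if two of
its places (hf c, ω s c) coincide or one of them is a place of an element of T.  If some s is neither
forward- nor backward-hit then its places are distinct and differ from all other places, so by Indep
(J = ι, J' = the other indices times ι) the average over b of the product vanishes.  Otherwise bound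
the product by 2^(2t) and use hit_bound with ν = 1 / card (ι → L), W = 1,
σ = (2t+1) |ι|^2 / |L|.
-/

open Finset Polynomial
open scoped BigOperators

namespace Vale.Agent.P060


theorem moment_bound {B L Ξ ι : Type} [Fintype B] [Nonempty B] [Fintype L] [Nonempty L]
    [Fintype Ξ] [Nonempty Ξ] [Fintype ι] [DecidableEq ι] (D : ℕ) (p : B → Bool × L → Ξ)
    (hp : Indep D p) (hf : ι → Bool) (t : ℕ) (ht : 2 * t * Fintype.card ι ≤ D)
    (f : (ι → L) → (ι → Ξ) → ℝ) (hf1 : ∀ ω ξ, |f ω ξ| ≤ 1) :
    𝔼 b, (𝔼 ω, (f ω (fun c => p b (hf c, ω c)) - 𝔼 ξ, f ω ξ)) ^ (2 * t) ≤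
      2 * 16 ^ t * ((2 * t + 1) * (Fintype.card ι : ℝ) ^ 2 / Fintype.card L) ^ t := by
  classical
  set g : B → (ι → L) → ℝ := fun b ω => f ω (fun c => p b (hf c, ω c)) - 𝔼 ξ, f ω ξ with hg
  have g2 : ∀ b ω, |g b ω| ≤ 2 := fun b ω => by
    have := abs_expect_le_of_le zero_le_one (hf1 ω)
    exact (abs_sub _ _).trans (by linarith [hf1 ω fun c => p b (hf c, ω c)])
  have e : ∀ b, (𝔼 ω, g b ω) ^ (2 * t) = 𝔼 ω : Fin (2 * t) → ι → L, ∏ s, g b (ω s) := fun b => by
    rw [expect_prod_pi fun _ => g b, Fin.prod_const]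
  have hN : (0 : ℝ) < Fintype.card (ι → L) := by exact_mod_cast Fintype.card_pos
  have H := hit_bound (Y := ι → L) (fun _ => 1 / (Fintype.card (ι → L) : ℝ))
    (fun _ => by positivity) 1 ((2 * t + 1) * (Fintype.card ι : ℝ) ^ 2 / Fintype.card L)
    (by rw [sum_const, card_univ, nsmul_eq_mul, mul_one_div_cancel hN.ne']) t (MomentAux.Col hf)
    fun T hT => by
      have := MomentAux.col_prob hf T
      rw [Fintype.expect_eq_sum_div_card, div_eq_mul_one_div, sum_mul] at this
      simp only [mul_comm (1 / (Fintype.card (ι → L) : ℝ))]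
      refine this.trans ?_
      have : (T.card : ℝ) ≤ 2 * t := by exact_mod_cast hT
      gcongr
  show 𝔼 b, (𝔼 ω, g b ω) ^ (2 * t) ≤ _
  simp only [e]
  rw [expect_comm]
  have key : ∀ ω : Fin (2 * t) → ι → L, 𝔼 b, ∏ s, g b (ω s) ≤
      4 ^ t * ind (∀ s, MomentAux.Col hf (ω s) ((univ.filter fun s' => s' < s).image ω) ∨
        MomentAux.Col hf (ω s) ((univ.filter fun s' => s < s').image ω)) := by
    intro ω
    by_cases h : ∀ s, MomentAux.Col hf (ω s) ((univ.filter fun s' => s' < s).image ω) ∨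
        MomentAux.Col hf (ω s) ((univ.filter fun s' => s < s').image ω)
    · rw [ind_pos h, mul_one]
      refine expect_le_of_le (by positivity) fun b => (le_abs_self _).trans ?_
      rw [abs_prod]
      refine (prod_le_prod (fun s _ => abs_nonneg _) fun s _ => g2 b (ω s)).trans (le_of_eq ?_)
      rw [Fin.prod_const, pow_mul]; norm_num
    · rw [ind_neg h, mul_zero]
      obtain ⟨s, hs⟩ := not_forall.1 h
      rw [not_or] at hs
      have := hp ι ({s' // s' ≠ s} × ι) (fun c => (hf c, ω s c)) (fun j => (hf j.2, ω j.1 j.2))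
        (fun c c' hc => by
          by_contra hne
          exact hs.1 (Or.inl ⟨c, c', hne, hc⟩))
        (fun c j hc => by
          rcases lt_or_gt_of_ne j.1.2 with h1 | h1
          · exact hs.1 (Or.inr ⟨ω j.1, mem_image_of_mem _ (by simpa using h1), c, j.2, hc⟩)
          · exact hs.2 (Or.inr ⟨ω j.1, mem_image_of_mem _ (by simpa using h1), c, j.2, hc⟩))
        (by
          rw [Fintype.card_prod, Fintype.card_subtype_compl, Fintype.card_fin,
            Fintype.card_subtype_eq]
          have := s.2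
          obtain ⟨k, hk⟩ : ∃ k, 2 * t = k + 1 := ⟨2 * t - 1, by omega⟩
          rw [hk] at ht ⊢
          simpa [add_mul, add_comm] using ht)
        fun v v' => (f (ω s) v - 𝔼 ξ, f (ω s) ξ) *
          ∏ s' : {s' // s' ≠ s}, (f (ω s') (fun c => v' (s', c)) - 𝔼 ξ, f (ω s') ξ)
      simp only [← expect_mul, expect_sub_distrib, Fintype.expect_const, sub_self, zero_mul] at this
      simp only [Fintype.prod_eq_mul_prod_subtype_ne _ s]
      exact this.le
  refine (expect_mono key).trans ?_
  rw [← mul_expect, Fintype.expect_eq_sum_div_card]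
  simp only [Fin.prod_const, ← mul_sum, one_mul] at H
  rw [Fintype.card_fun, Fintype.card_fin, Nat.cast_pow, div_eq_mul_one_div, ← one_div_pow,
    mul_comm (∑ _, _)]
  refine (mul_le_mul_of_nonneg_left H (by positivity)).trans (le_of_eq ?_)
  rw [show (16 : ℝ) = 4 * 4 by norm_num, mul_pow]; ring

theorem conc {B L Ξ ι : Type} [Fintype B] [Nonempty B] [Fintype L] [Nonempty L]
    [Fintype Ξ] [Nonempty Ξ] [Fintype ι] [DecidableEq ι] (D : ℕ) (p : B → Bool × L → Ξ)
    (hp : Indep D p) (hf : ι → Bool) (t : ℕ) (ht : 2 * t * Fintype.card ι ≤ D)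
    (f : (ι → L) → (ι → Ξ) → ℝ) (hf1 : ∀ ω ξ, |f ω ξ| ≤ 1) (δ : ℝ) (hδ : 0 < δ) :
    𝔼 b, ind (δ ≤ |𝔼 ω, (f ω (fun c => p b (hf c, ω c)) - 𝔼 ξ, f ω ξ)|) ≤
      2 * 16 ^ t * ((2 * t + 1) * (Fintype.card ι : ℝ) ^ 2 / Fintype.card L) ^ t / δ ^ (2 * t) := by
  have h := moment_bound D p hp hf t ht f hf1
  refine le_trans (expect_mono fun b => ind_mono fun hb => ?_)
    ((markov _ (fun b => by rw [pow_mul]; positivity) (pow_pos hδ (2 * t))).trans
      (div_le_div_of_nonneg_right h (by positivity)))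
  rw [pow_mul, pow_mul, ← sq_abs (𝔼 ω, _)]
  gcongr

end Vale.Agent.P060
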