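import Vale.Agent.P060.Equi

/-!
# Rank of two-variable functions (task Rank)
T is a space of functions each of which is constant or has bias ≤ ε; all rows and columns of φ lie
in T.  Let L y = fun (x, x') => φ x y + φ x' y, so that φ (·, y) is constant iff L y = 0, and rk φ is
the dimension of the span of the L y + L y'.
rk_bias: |bias φ| ≤ P_y (L y = 0) + ε.  With ρ = rk φ choose ρ linear functionals λ_1..λ_ρ on functions
of (x, x') that are independent on that span; y ↦ λ (L y) is a combination of rows so lies in T, and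
for a nonzero combination λ it is not constant; equi gives P_y (L y = 0) ≤ 1/2^ρ + ε.
rk_ge: the span is the image of the span of the b y + b y' under the injective map
v ↦ sum v l (a l x + a l x'); the projection of that span to the coordinates e ι' is onto, since a
nonzero functional killing it is a constant combination.
-/

open Finset Polynomial
open scoped BigOperators

namespace Vale.Agent.P060

theorem rk_bias {X : Type} [Fintype X] [Nonempty X] (T : Submodule (ZMod 2) (X → ZMod 2))
    (ε : ℝ) (hε : 0 ≤ ε) (hT : ∀ g ∈ T, (∃ c, ∀ x, g x = c) ∨ |bias g| ≤ ε)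
    (φ : X → X → ZMod 2) (hr : ∀ x, φ x ∈ T) (hc : ∀ y, (fun x => φ x y) ∈ T) :
    |bias fun z : X × X => φ z.1 z.2| ≤ 1 / 2 ^ rk φ + 2 * ε := by
  classical
  set L : X → X × X → ZMod 2 := fun y x => φ x.1 y + φ x.2 y with hL
  set Sp := Submodule.span (ZMod 2) (Set.range fun y : X × X => fun x : X × X =>
    φ x.1 y.1 + φ x.2 y.1 + φ x.1 y.2 + φ x.2 y.2) with hSp
  have hrk : rk φ = Module.finrank (ZMod 2) Sp := rfl
  let bS := Module.finBasis (ZMod 2) Sp
  choose lam hlam using fun i => LinearMap.exists_extend (bS.coord i)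
  have hT' : ∀ μ : (X × X → ZMod 2) →ₗ[ZMod 2] ZMod 2, (fun y => μ (L y)) ∈ T := by
    intro μ
    have : (fun y => μ (L y)) = ∑ x : X × X, μ (Pi.single x 1) • (φ x.1 + φ x.2) := by
      funext y
      conv_lhs => rw [pi_eq_sum_univ' (L y)]
      simp [map_sum, hL, Finset.sum_apply, mul_comm, add_mul]
    rw [this]
    exact T.sum_mem fun x _ => T.smul_mem _ (T.add_mem (hr _) (hr _))
  have he := equi (fun y i => lam i (L y)) ε hε (fun d hd => by
    have hm := hT' (∑ i, d i • lam i)
    simp only [LinearMap.sum_apply, LinearMap.smul_apply, smul_eq_mul] at hm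
    refine (hT _ hm).resolve_left ?_
    rintro ⟨c, hcst⟩
    have hker : Sp ≤ LinearMap.ker (∑ i, d i • lam i) := by
      refine Submodule.span_le.2 ?_
      rintro _ ⟨y, rfl⟩
      have : (fun x : X × X => φ x.1 y.1 + φ x.2 y.1 + φ x.1 y.2 + φ x.2 y.2) = L y.1 + L y.2 := by
        funext x; simp only [hL, Pi.add_apply]; ring
      simp only [this, SetLike.mem_coe, LinearMap.mem_ker, map_add, LinearMap.sum_apply,
        LinearMap.smul_apply, smul_eq_mul, hcst, zmod2_add_self]
    apply hd
    funext i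
    have h1 := hker (bS i).2
    have h2 : ∀ j, lam j (bS i) = bS.coord j (bS i) := fun j => by rw [← hlam j]; rfl
    simpa [LinearMap.sum_apply, h2, Finsupp.single_apply] using h1) 0
  have he2 := (abs_le.1 he).2
  rw [sub_le_iff_le_add, Fintype.card_fin] at he2
  rw [hrk]
  have h1 : (bias fun z : X × X => φ z.1 z.2) = 𝔼 y, bias fun x => φ x y := by
    rw [bias, expect_prod', Finset.expect_comm]; rfl
  rw [h1]
  refine (abs_expect_le _).trans ?_
  have h2 : ∀ y, |bias fun x => φ x y| ≤ ind ((fun i => lam i (L y)) = 0) + ε := by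
    intro y
    rcases hT _ (hc y) with ⟨c, hcst⟩ | h
    · have : L y = 0 := by funext x; simp only [hL, hcst, zmod2_add_self, Pi.zero_apply]
      rw [ind_pos (by funext i; simp [this])]
      linarith [abs_bias_le fun x => φ x y]
    · linarith [ind_nonneg ((fun i => lam i (L y)) = 0)]
  refine (expect_mono h2).trans ?_
  rw [Finset.expect_add_distrib, Finset.expect_const univ_nonempty]
  linarith

theorem rk_bias_half {X : Type} [Fintype X] [Nonempty X] (T : Submodule (ZMod 2) (X → ZMod 2))
    (ε : ℝ) (hε : 0 ≤ ε) (hT : ∀ g ∈ T, (∃ c, ∀ x, g x = c) ∨ |bias g| ≤ ε)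
    (φ : X → X → ZMod 2) (hr : ∀ x, φ x ∈ T) (hc : ∀ y, (fun x => φ x y) ∈ T)
    (hφ : ¬ ∃ c, ∀ x y, φ x y = c) :
    |bias fun z : X × X => φ z.1 z.2| ≤ 1 / 2 + 2 * ε := by
  by_cases h0 : rk φ = 0
  swap
  · refine (rk_bias T ε hε hT φ hr hc).trans (add_le_add_left ?_ _)
    exact one_div_le_one_div_of_le (by norm_num) (le_self_pow₀ (by norm_num) h0)
  obtain ⟨x0⟩ := ‹Nonempty X›
  have hz : ∀ x y, φ x y = φ x x0 + (φ x0 y + φ x0 x0) := by
    intro x y
    have h1 := Submodule.finrank_eq_zero.1 h0
    have h2 := congrFun ((Submodule.eq_bot_iff _).1 h1 _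
      (Submodule.subset_span ⟨(y, x0), rfl⟩)) (x, x0)
    simp only [Pi.zero_apply] at h2
    have key : ∀ a b c d : ZMod 2, a + b + c + d = 0 → a = c + (b + d) := by decide
    exact key _ _ _ _ h2
  have h1 : (bias fun z : X × X => φ z.1 z.2) =
      (bias fun x => φ x x0) * ((bias (φ x0)) * sgn (φ x0 x0)) := by
    rw [bias, expect_prod', ← bias_add_const, bias, bias, Finset.expect_mul_expect]
    exact Finset.expect_congr rfl fun x _ => Finset.expect_congr rfl fun y _ => by
      rw [← sgn_add, ← hz]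
  rw [h1, abs_mul, abs_mul, abs_sgn, mul_one]
  have b1 := abs_bias_le fun x => φ x x0
  have b2 := abs_bias_le (φ x0)
  have n1 := abs_nonneg (bias fun x => φ x x0)
  have n2 := abs_nonneg (bias (φ x0))
  rcases hT _ (hc x0) with ⟨c, h3⟩ | h3
  · rcases hT _ (hr x0) with ⟨c', h4⟩ | h4
    · exact absurd ⟨c + (c' + φ x0 x0), fun x y => by rw [hz x y, h3 x, h4 y]⟩ hφ
    · nlinarith
  · nlinarith

theorem rk_add {X : Type} [Fintype X] (φ ψ : X → X → ZMod 2) :
    rk (fun x y => φ x y + ψ x y) ≤ rk φ + rk ψ := by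
  refine le_trans (Submodule.finrank_mono ?_) (Submodule.finrank_add_le_finrank_add_finrank _ _)
  rw [Submodule.span_le]
  rintro _ ⟨y, rfl⟩
  refine Submodule.mem_sup.2 ⟨_, Submodule.subset_span ⟨y, rfl⟩, _,
    Submodule.subset_span ⟨y, rfl⟩, ?_⟩
  funext x
  simp only [Pi.add_apply]
  ring

theorem rk_le {X ι : Type} [Fintype X] [Fintype ι] (a b : ι → X → ZMod 2) (a0 b0 : X → ZMod 2) :
    rk (fun x y => ∑ l, a l x * b l y + a0 x + b0 y) ≤ Fintype.card ι := by
  refine le_trans (Submodule.finrank_mono (t := Submodule.span (ZMod 2)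
    (Set.range fun l => fun x : X × X => a l x.1 + a l x.2)) ?_) (finrank_range_le_card _)
  rw [Submodule.span_le]
  rintro _ ⟨y, rfl⟩
  rw [SetLike.mem_coe, Submodule.mem_span_range_iff_exists_fun]
  refine ⟨fun l => b l y.1 + b l y.2, ?_⟩
  funext x
  simp only [Finset.sum_apply, Pi.smul_apply, smul_eq_mul]
  have key : ∀ p q r s u v w z : ZMod 2,
      p + u + w + (q + v + w) + (r + u + z) + (s + v + z) = p + q + r + s := by decide
  rw [key]
  simp only [← Finset.sum_add_distrib]
  exact Finset.sum_congr rfl fun l _ => by ring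

theorem rk_ge {X ι ι' : Type} [Fintype X] [Nonempty X] [Fintype ι] [Fintype ι']
    (a b : ι → X → ZMod 2) (e : ι' → ι)
    (ha : ∀ (d : ι → ZMod 2) (c : ZMod 2), (∀ x, ∑ l, d l * a l x = c) → d = 0)
    (hb : ∀ (d : ι' → ZMod 2) (c : ZMod 2), (∀ y, ∑ l, d l * b (e l) y = c) → d = 0) :
    Fintype.card ι' ≤ rk fun x y => ∑ l, a l x * b l y := by
  classical
  obtain ⟨x0⟩ := ‹Nonempty X›
  let A : (ι → ZMod 2) →ₗ[ZMod 2] (X × X → ZMod 2) :=
    Fintype.linearCombination (ZMod 2) fun l x => a l x.1 + a l x.2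
  have hA : ∀ v x, A v x = ∑ l, v l * (a l x.1 + a l x.2) := fun v x => by
    simp [A, Fintype.linearCombination_apply, Finset.sum_apply]
  have hinj : Function.Injective A := by
    rw [injective_iff_map_eq_zero]
    intro v hv
    refine ha v (∑ l, v l * a l x0) fun x => ?_
    have h1 := hA v (x, x0)
    rw [hv] at h1
    simp only [Pi.zero_apply, mul_add, Finset.sum_add_distrib] at h1
    have key : ∀ p q : ZMod 2, 0 = p + q → p = q := by decide
    exact key _ _ h1
  set S := Submodule.span (ZMod 2) (Set.range fun y : X × X => fun l => b l y.1 + b l y.2) with hS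
  have h1 : rk (fun x y => ∑ l, a l x * b l y) = Module.finrank (ZMod 2) (S.map A) := by
    rw [rk, hS, Submodule.map_span, ← Set.range_comp]
    refine congrArg (fun g : X × X → X × X → ZMod 2 =>
      Module.finrank (ZMod 2) (Submodule.span (ZMod 2) (Set.range g))) ?_
    funext y x
    simp only [Function.comp_apply, hA, ← Finset.sum_add_distrib]
    exact Finset.sum_congr rfl fun l _ => by ring
  have h2 : S.map (LinearMap.funLeft (ZMod 2) (ZMod 2) e) = ⊤ := by
    by_contra hne
    obtain ⟨f, hf0, hf⟩ := Submodule.exists_le_ker_of_lt_top _ (lt_top_iff_ne_top.2 hne)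
    have hfv : ∀ v, f v = ∑ l, f (Pi.single l 1) * v l := fun v => by
      conv_lhs => rw [pi_eq_sum_univ' v]
      simp [map_sum, mul_comm]
    have hd := hb (fun l => f (Pi.single l 1)) (∑ l, f (Pi.single l 1) * b (e l) x0) fun y => by
      have h3 := hf (Submodule.mem_map_of_mem (Submodule.subset_span ⟨(y, x0), rfl⟩))
      rw [LinearMap.mem_ker, hfv] at h3
      simp only [LinearMap.funLeft_apply, mul_add, Finset.sum_add_distrib] at h3
      have key : ∀ p q : ZMod 2, p + q = 0 → p = q := by decide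
      exact key _ _ h3
    apply hf0
    ext l
    simpa using congrFun hd l
  rw [h1, ← (Submodule.equivMapOfInjective A hinj S).finrank_eq]
  have h3 := Submodule.finrank_map_le (LinearMap.funLeft (ZMod 2) (ZMod 2) e) S
  rw [h2] at h3
  simpa using h3

end Vale.Agent.P060
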