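import Vale.Agent.P060.MomentAux

/-!
# Rare events for two vertices (task Rare)
B1 = the a whose section S a has density at least β; by Markov B1 has density at most β, so μ-mass at
most Km β.  For a outside B1 call b rare if there are t label vectors ω 1 .. ω t whose t |ι| places
(hf c, ω s c) are all distinct and with S a (ω s) (keys) for all s.  By Indep (J = Fin t × ι, J' empty)
and a union bound, b is rare with probability at most (sum over ω of P_ξ (S a ω ξ))^t ≤ (|L|^|ι| β)^t.
If b is not rare take a maximal such family (fewer than t members): every ω with S a ω (keys) has two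
equal places or shares a place with the family, which has probability at most (t+1) |ι|^2 / |L|.
-/

open Finset Polynomial
open scoped BigOperators

namespace Vale.Agent.P060

namespace RareAux

theorem greedy {L ι : Type} (hf : ι → Bool) (Q : (ι → L) → Prop) : ∀ k : ℕ,
    (∃ T : Finset (ι → L), T.card ≤ k ∧ ∀ ω, Q ω → MomentAux.Col hf ω T) ∨
      ∃ ω : Fin k → ι → L, (Function.Injective fun j : Fin k × ι => (hf j.2, ω j.1 j.2)) ∧
        ∀ s, Q (ω s)
  | 0 => Or.inr ⟨Fin.elim0, fun j => j.1.elim0, fun s => s.elim0⟩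
  | k + 1 => by
    classical
    rcases greedy hf Q k with ⟨T, h1, h2⟩ | ⟨ω, h1, h2⟩
    · exact Or.inl ⟨T, by omega, h2⟩
    by_cases h : ∀ ω', Q ω' → MomentAux.Col hf ω' (univ.image ω)
    · exact Or.inl ⟨_, card_image_le.trans (by simp), h⟩
    push Not at h
    obtain ⟨ω', a, b⟩ := h
    refine Or.inr ⟨Fin.cons ω' ω, ?_, fun s => Fin.cases a h2 s⟩
    rintro ⟨s, c⟩ ⟨s', c'⟩ he
    induction s using Fin.cases with
    | zero =>
      induction s' using Fin.cases with
      | zero =>
        by_contra hne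
        exact b (Or.inl ⟨c, c', fun e => hne (by rw [e]), he⟩)
      | succ s' => exact absurd (Or.inr ⟨ω s', mem_image_of_mem _ (mem_univ _), c, c', he⟩) b
    | succ s =>
      induction s' using Fin.cases with
      | zero => exact absurd (Or.inr ⟨ω s, mem_image_of_mem _ (mem_univ _), c', c, he.symm⟩) b
      | succ s' =>
        have := @h1 (s, c) (s', c') he
        rw [Prod.mk.injEq] at this
        rw [this.1, this.2]

theorem rare_prob {B L Ξ ι : Type} [Fintype B] [Nonempty B] [Fintype L] [Nonempty L]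
    [Fintype Ξ] [Nonempty Ξ] [Fintype ι] [DecidableEq ι] (D : ℕ) (p : B → Bool × L → Ξ)
    (hp : Indep D p) (hf : ι → Bool) (t : ℕ) (ht : t * Fintype.card ι ≤ D)
    (S : (ι → L) → (ι → Ξ) → Prop) :
    𝔼 b, ind (∃ ω : Fin t → ι → L, (Function.Injective fun j : Fin t × ι => (hf j.2, ω j.1 j.2)) ∧
      ∀ s, S (ω s) fun c => p b (hf c, ω s c)) ≤
      ((Fintype.card L : ℝ) ^ Fintype.card ι * 𝔼 ω, 𝔼 ξ, ind (S ω ξ)) ^ t := by
  classical
  refine (expect_mono fun b => ind_exists_le _).trans ?_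
  rw [expect_sum_comm]
  have e : ((Fintype.card L : ℝ) ^ Fintype.card ι * 𝔼 ω, 𝔼 ξ, ind (S ω ξ)) ^ t =
      ∑ ω : Fin t → ι → L, ∏ s, 𝔼 ξ, ind (S (ω s) ξ) := by
    have hN : (Fintype.card L : ℝ) ^ Fintype.card ι ≠ 0 := by
      have : (0 : ℝ) < Fintype.card L := by exact_mod_cast Fintype.card_pos
      positivity
    rw [Fintype.expect_eq_sum_div_card, Fintype.card_fun, Nat.cast_pow, mul_div_cancel₀ _ hN,
      ← Fin.prod_const, prod_univ_sum, Fintype.piFinset_univ]
  rw [e]
  refine sum_le_sum fun ω _ => ?_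
  by_cases h : Function.Injective fun j : Fin t × ι => (hf j.2, ω j.1 j.2)
  · have := hp (Fin t × ι) Empty _ Empty.elim h (fun _ j => j.elim) (by simpa using ht)
      fun v _ => ∏ s, ind (S (ω s) fun c => v (s, c))
    simp only [h, true_and, ind_forall]
    rw [this, Fintype.expect_const, ← expect_prod_pi]
    exact le_of_eq (Fintype.expect_equiv (Equiv.curry _ _ _) _ _ fun v => rfl)
  · simp only [h, false_and, ind_neg not_false, Fintype.expect_const]
    exact prod_nonneg fun s _ => expect_nonneg' fun _ => ind_nonneg _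

end RareAux

theorem rare2 {A B L Ξ ι : Type} [Fintype A] [Nonempty A] [Fintype B] [Nonempty B] [Fintype L] [Nonempty L]
    [Fintype Ξ] [Nonempty Ξ] [Fintype ι] [DecidableEq ι] (D : ℕ) (p : B → Bool × L → Ξ)
    (hp : Indep D p) (hf : ι → Bool) (t : ℕ) (ht : t * Fintype.card ι ≤ D)
    (μ : A → B → ℝ) (M Km β : ℝ) (h0 : ∀ a b, 0 ≤ μ a b) (hM : ∀ a b, μ a b ≤ M)
    (htot : 𝔼 a, 𝔼 b, μ a b ≤ 1) (hKm : 0 ≤ Km)
    (hmarg : ∀ g : A → ℝ, (∀ a, 0 ≤ g a) → 𝔼 a, 𝔼 b, μ a b * g a ≤ Km * 𝔼 a, g a)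
    (S : A → (ι → L) → (ι → Ξ) → Prop) (hβ : 0 < β)
    (hS : 𝔼 a, 𝔼 ω, 𝔼 ξ, ind (S a ω ξ) ≤ β ^ 2) :
    𝔼 a, 𝔼 b, μ a b * 𝔼 ω, ind (S a ω fun c => p b (hf c, ω c)) ≤
      Km * β + M * ((Fintype.card L : ℝ) ^ Fintype.card ι * β) ^ t +
        (t + 1) * (Fintype.card ι : ℝ) ^ 2 / Fintype.card L := by
  set c : ℝ := (t + 1) * (Fintype.card ι : ℝ) ^ 2 / Fintype.card L with hc
  have c0 : 0 ≤ c := by positivity
  set sec : A → ℝ := fun a => 𝔼 ω, 𝔼 ξ, ind (S a ω ξ) with hsec
  have s0 : ∀ a, 0 ≤ sec a := fun a => expect_nonneg' fun _ => expect_nonneg' fun _ => ind_nonneg _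
  set Ra : A → B → Prop := fun a b => ∃ ω : Fin t → ι → L,
    (Function.Injective fun j : Fin t × ι => (hf j.2, ω j.1 j.2)) ∧
      ∀ s, S a (ω s) fun c => p b (hf c, ω s c) with hRa
  have M0 : 0 ≤ M := (h0 (Classical.arbitrary A) (Classical.arbitrary B)).trans (hM _ _)
  have key : ∀ a b, μ a b * 𝔼 ω, ind (S a ω fun c => p b (hf c, ω c)) ≤
      μ a b * ind (β ≤ sec a) + M * ind (¬ β ≤ sec a ∧ Ra a b) + c * μ a b := by
    intro a b
    have a1 : 𝔼 ω, ind (S a ω fun c => p b (hf c, ω c)) ≤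
        ind (β ≤ sec a) + ind (¬ β ≤ sec a ∧ Ra a b) + c := by
      have one : 𝔼 ω, ind (S a ω fun c => p b (hf c, ω c)) ≤ 1 :=
        expect_le_of_le zero_le_one fun _ => ind_le_one _
      have n1 := ind_nonneg (β ≤ sec a)
      have n2 := ind_nonneg (¬ β ≤ sec a ∧ Ra a b)
      by_cases h1 : β ≤ sec a
      · rw [ind_pos h1]; linarith
      rcases RareAux.greedy hf (fun ω => S a ω fun c => p b (hf c, ω c)) t with ⟨T, t1, t2⟩ | h2
      · have := (expect_mono fun ω => ind_mono (t2 ω)).trans (MomentAux.col_prob hf T)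
        have t1' : (T.card : ℝ) ≤ t := by exact_mod_cast t1
        have : (T.card + 1) * (Fintype.card ι : ℝ) ^ 2 / Fintype.card L ≤ c := by
          rw [hc]; gcongr
        linarith
      · rw [ind_pos (show ¬ β ≤ sec a ∧ Ra a b from ⟨h1, h2⟩)]; linarith
    have a2 := mul_le_mul_of_nonneg_left a1 (h0 a b)
    have a3 := mul_le_mul_of_nonneg_right (hM a b) (ind_nonneg (¬ β ≤ sec a ∧ Ra a b))
    linarith
  refine (expect_mono fun a => expect_mono fun b => key a b).trans ?_
  simp only [expect_add_distrib]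
  refine add_le_add (add_le_add ?_ ?_) ?_
  · refine (hmarg _ fun a => ind_nonneg _).trans (mul_le_mul_of_nonneg_left
      ((markov sec s0 hβ).trans ?_) hKm)
    rw [div_le_iff₀ hβ, ← sq]; exact hS
  · simp only [← mul_expect]
    refine mul_le_mul_of_nonneg_left (expect_le_of_le (by positivity) fun a => ?_) M0
    by_cases h1 : β ≤ sec a
    · simp only [h1, not_true, false_and, ind_neg not_false, Fintype.expect_const]
      positivity
    · simp only [h1, not_false_iff, true_and]
      refine (RareAux.rare_prob D p hp hf t ht (S a)).trans ?_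
      have := s0 a
      have := (not_le.1 h1).le
      gcongr
  · simp only [← mul_expect]
    exact mul_le_of_le_one_right c0 htot

end Vale.Agent.P060
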