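import Vale.Agent.P060.Moment
import Vale.Agent.P060.Rare

/-!
# Two-vertex equidistribution, abstract form (task TPabs)
Write f = (f - average over ξ0) + (average over ξ0).  Let g a ω1 ξ1 be the average over ω0 of
f ω0 ω1 (keys a ω0) ξ1 - avg_ξ0 f ω0 ω1 ξ0 ξ1; |g| ≤ 2.  By conc the event δ ≤ |g a ω1 ξ1| has density at
most β^2, so rare2 bounds its μ-mass at ξ1 = keys b ω1.  The second part is a function of
(ω1, keys b ω1) only: use conc and the marginal bound for b.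
-/

open Finset Polynomial
open scoped BigOperators

namespace Vale.Agent.P060


theorem tp_abs {B L Ξ ι : Type} [Fintype B] [Nonempty B] [Fintype L] [Nonempty L]
    [Fintype Ξ] [Nonempty Ξ] [Fintype ι] [DecidableEq ι] (D : ℕ) (p : B → Bool × L → Ξ)
    (hp : Indep D p) (hf : ι → Bool) (t : ℕ) (ht : 2 * t * Fintype.card ι ≤ D)
    (μ : B → B → ℝ) (M Km β δ : ℝ) (h0 : ∀ a b, 0 ≤ μ a b) (hM : ∀ a b, μ a b ≤ M)
    (htot : 𝔼 a, 𝔼 b, μ a b = 1) (hKm : 0 ≤ Km)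
    (hmarg : ∀ g : B → ℝ, (∀ a, 0 ≤ g a) → 𝔼 a, 𝔼 b, μ a b * g a ≤ Km * 𝔼 a, g a)
    (hmarg' : ∀ g : B → ℝ, (∀ a, 0 ≤ g a) → 𝔼 a, 𝔼 b, μ a b * g b ≤ Km * 𝔼 a, g a)
    (hβ : 0 < β) (hδ : 0 < δ)
    (hβδ : 2 * 16 ^ t * ((2 * t + 1) * (Fintype.card ι : ℝ) ^ 2 / Fintype.card L) ^ t /
      δ ^ (2 * t) ≤ β ^ 2)
    (f : (ι → L) → (ι → L) → (ι → Ξ) → (ι → Ξ) → ℝ) (hf1 : ∀ ω ω' ξ ξ', |f ω ω' ξ ξ'| ≤ 1) :
    |(𝔼 a, 𝔼 b, μ a b * 𝔼 ω, 𝔼 ω',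
        f ω ω' (fun c => p a (hf c, ω c)) (fun c => p b (hf c, ω' c))) -
      𝔼 ω, 𝔼 ω', 𝔼 ξ, 𝔼 ξ', f ω ω' ξ ξ'| ≤
      2 * δ + 2 * Km * β ^ 2 + 2 * (Km * β +
        M * ((Fintype.card L : ℝ) ^ Fintype.card ι * β) ^ (2 * t) +
        (2 * t + 1) * (Fintype.card ι : ℝ) ^ 2 / Fintype.card L) := by
  set K : B → (ι → L) → ι → Ξ := fun a ω c => p a (hf c, ω c) with hK
  set g : B → (ι → L) → (ι → Ξ) → ℝ :=
    fun a ω' ξ' => 𝔼 ω, (f ω ω' (K a ω) ξ' - 𝔼 ξ, f ω ω' ξ ξ') with hg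
  set h : (ι → L) → (ι → Ξ) → ℝ := fun ω' ξ' => 𝔼 ω, 𝔼 ξ, f ω ω' ξ ξ' with hh
  set d : B → ℝ := fun b => 𝔼 ω', (h ω' (K b ω') - 𝔼 ξ', h ω' ξ') with hd
  have cut : ∀ x : ℝ, |x| ≤ 2 → |x| ≤ δ + 2 * ind (δ ≤ |x|) := by
    intro x hx
    by_cases hc : δ ≤ |x|
    · rw [ind_pos hc]; linarith
    · rw [ind_neg hc]; linarith [not_le.1 hc]
  have two : ∀ x y : ℝ, |x| ≤ 1 → |y| ≤ 1 → |x - y| ≤ 2 := fun x y hx hy =>
    (abs_sub x y).trans (by linarith)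
  have hh1 : ∀ ω' ξ', |h ω' ξ'| ≤ 1 := fun ω' ξ' =>
    abs_expect_le_of_le zero_le_one fun ω => abs_expect_le_of_le zero_le_one fun ξ => hf1 _ _ _ _
  have hg2 : ∀ a ω' ξ', |g a ω' ξ'| ≤ 2 := fun a ω' ξ' =>
    abs_expect_le_of_le zero_le_two fun ω => two _ _ (hf1 _ _ _ _)
      (abs_expect_le_of_le zero_le_one fun ξ => hf1 _ _ _ _)
  have hd2 : ∀ b, |d b| ≤ 2 := fun b =>
    abs_expect_le_of_le zero_le_two fun ω' => two _ _ (hh1 _ _)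
      (abs_expect_le_of_le zero_le_one fun ξ => hh1 _ _)
  have hS : 𝔼 a, 𝔼 ω', 𝔼 ξ', ind (δ ≤ |g a ω' ξ'|) ≤ β ^ 2 := by
    rw [Finset.expect_comm]
    refine expect_le_of_le (by positivity) fun ω' => ?_
    rw [Finset.expect_comm]
    refine expect_le_of_le (by positivity) fun ξ' => ?_
    exact (conc D p hp hf t ht (fun ω ξ => f ω ω' ξ ξ') (fun _ _ => hf1 _ _ _ _) δ hδ).trans hβδ
  have hR := rare2 D p hp hf (2 * t) ht μ M Km β h0 hM htot.le hKm hmarg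
    (fun a ω' ξ' => δ ≤ |g a ω' ξ'|) hβ hS
  have hD : 𝔼 a, 𝔼 b, μ a b * ind (δ ≤ |d b|) ≤ Km * β ^ 2 :=
    (hmarg' (fun b => ind (δ ≤ |d b|)) fun _ => ind_nonneg _).trans
      (mul_le_mul_of_nonneg_left ((conc D p hp hf t ht h hh1 δ hδ).trans hβδ) hKm)
  set c : ℝ := 𝔼 ω, 𝔼 ω', 𝔼 ξ, 𝔼 ξ', f ω ω' ξ ξ' with hc
  have hc' : c = 𝔼 ω', 𝔼 ξ', h ω' ξ' := by
    rw [hc, Finset.expect_comm]
    refine Finset.expect_congr rfl fun ω' _ => ?_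
    simp only [hh]
    rw [Finset.expect_comm (t := univ) (f := fun ξ' ω => 𝔼 ξ, f ω ω' ξ ξ')]
    refine Finset.expect_congr rfl fun ω _ => ?_
    rw [Finset.expect_comm]
  have hdec : ∀ a b, 𝔼 ω, 𝔼 ω', f ω ω' (K a ω) (K b ω') =
      (𝔼 ω', g a ω' (K b ω')) + d b + c := by
    intro a b
    rw [Finset.expect_comm, hc']
    simp only [hd, hg, hh, Finset.expect_sub_distrib]
    ring
  have hmain : (𝔼 a, 𝔼 b, μ a b * 𝔼 ω, 𝔼 ω', f ω ω' (K a ω) (K b ω')) - c =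
      𝔼 a, 𝔼 b, μ a b * ((𝔼 ω', g a ω' (K b ω')) + d b) := by
    simp only [hdec, mul_add (μ _ _) _ c, Finset.expect_add_distrib, ← Finset.expect_mul, htot]
    ring
  have hbd : ∀ a b, |μ a b * ((𝔼 ω', g a ω' (K b ω')) + d b)| ≤
      2 * δ * μ a b + 2 * (μ a b * ind (δ ≤ |d b|)) +
        2 * (μ a b * 𝔼 ω', ind (δ ≤ |g a ω' (K b ω')|)) := by
    intro a b
    rw [abs_mul, abs_of_nonneg (h0 a b)]
    have e1 : |𝔼 ω', g a ω' (K b ω')| ≤ δ + 2 * 𝔼 ω', ind (δ ≤ |g a ω' (K b ω')|) := by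
      refine (abs_expect_le _).trans ((expect_mono fun ω' => cut _ (hg2 a ω' _)).trans ?_)
      rw [Finset.expect_add_distrib, ← Finset.mul_expect, Finset.expect_const univ_nonempty]
    have e2 := cut _ (hd2 b)
    have e3 := (abs_add_le _ _).trans (add_le_add e1 e2)
    have e4 := mul_le_mul_of_nonneg_left e3 (h0 a b)
    linarith
  change |(𝔼 a, 𝔼 b, μ a b * 𝔼 ω, 𝔼 ω', f ω ω' (K a ω) (K b ω')) - c| ≤ _
  rw [hmain]
  refine (abs_expect_le _).trans ((expect_mono fun a => (abs_expect_le _).trans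
    (expect_mono fun b => hbd a b)).trans ?_)
  simp only [Finset.expect_add_distrib]
  simp only [← Finset.mul_expect (a := 2 * δ), ← Finset.mul_expect (a := (2 : ℝ)), htot]
  push_cast at hR
  change 𝔼 a, 𝔼 b, μ a b * 𝔼 ω', ind (δ ≤ |g a ω' (K b ω')|) ≤ _ at hR
  linarith

end Vale.Agent.P060
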